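import Vale.Agent.P235.MathlibUsed
import Vale.Agent.P235.Defs
import Vale.Agent.P235T3.Defs

set_option linter.all false

section

section

section

namespace Vale.Agent.P235

open Finset

/-- Finite nonnegative combination of cut semimetrics. -/
def IsL1 {V : Type} (F : V → V → ℝ) : Prop :=
  ∃ (ι : Type) (_ : Fintype ι) (w : ι → ℝ) (c : ι → V → Bool),
    (∀ i, 0 ≤ w i) ∧ ∀ x y, F x y = ∑ i, w i * (if c i x = c i y then 0 else 1)

namespace IsL1

variable {V : Type} {F G : V → V → ℝ}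

theorem self (h : IsL1 F) (x : V) : F x x = 0 := by
  obtain ⟨ι, _, w, c, hw, hF⟩ := h
  rw [hF]; simp only [↓reduceIte, mul_zero, sum_const_zero]

theorem nonneg (h : IsL1 F) (x y : V) : 0 ≤ F x y := by
  obtain ⟨ι, _, w, c, hw, hF⟩ := h
  rw [hF]
  apply Finset.sum_nonneg
  intro i _
  apply mul_nonneg (hw i)
  split_ifs <;> norm_num

theorem symm (h : IsL1 F) (x y : V) : F x y = F y x := by
  obtain ⟨ι, _, w, c, hw, hF⟩ := h
  rw [hF, hF]
  apply Finset.sum_congr rfl
  intro i _
  simp only [eq_comm]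

theorem tri (h : IsL1 F) (x y z : V) : F x z ≤ F x y + F y z := by
  obtain ⟨ι, _, w, c, hw, hF⟩ := h
  rw [hF, hF, hF, ← Finset.sum_add_distrib]
  apply Finset.sum_le_sum
  intro i _
  rw [← mul_add]
  apply mul_le_mul_of_nonneg_left _ (hw i)
  cases c i x <;> cases c i y <;> cases c i z <;> norm_num

theorem abs_sub_le (h : IsL1 F) (x y z : V) : |F x z - F y z| ≤ F x y := by
  rw [abs_le]
  have h1 := h.tri x y z
  have h2 := h.tri y x z
  rw [h.symm y x] at h2
  constructor <;> linarith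

theorem add (hF : IsL1 F) (hG : IsL1 G) : IsL1 (fun x y => F x y + G x y) := by
  obtain ⟨ι, _, w, c, hw, hF⟩ := hF
  obtain ⟨κ, _, v, d, hv, hG⟩ := hG
  refine ⟨ι ⊕ κ, inferInstance, Sum.elim w v, Sum.elim c d, ?_, ?_⟩
  · rintro (i | i)
    · exact hw i
    · exact hv i
  · intro x y
    show F x y + G x y = _
    rw [hF, hG, Fintype.sum_sum_type]
    rfl

theorem smul (hF : IsL1 F) {a : ℝ} (ha : 0 ≤ a) : IsL1 (fun x y => a * F x y) := by
  obtain ⟨ι, _, w, c, hw, hF⟩ := hF
  refine ⟨ι, inferInstance, fun i => a * w i, c, fun i => mul_nonneg ha (hw i), ?_⟩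
  intro x y
  show a * F x y = _
  rw [hF, Finset.mul_sum]
  apply Finset.sum_congr rfl
  intro i _
  ring

theorem congr (hF : IsL1 F) (h : ∀ x y, G x y = F x y) : IsL1 G := by
  have : G = F := by funext x y; exact h x y
  rw [this]; exact hF

theorem zero : IsL1 (fun _ _ : V => (0 : ℝ)) :=
  ⟨Empty, inferInstance, fun i => i.elim, fun i => i.elim, fun i => i.elim, by simp⟩

theorem sum {ι : Type} (s : Finset ι) (F : ι → V → V → ℝ) (h : ∀ i ∈ s, IsL1 (F i)) :
    IsL1 (fun x y => ∑ i ∈ s, F i x y) := by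
  classical
  induction s using Finset.induction_on with
  | empty => simpa using (zero : IsL1 (fun _ _ : V => (0 : ℝ)))
  | insert a s ha ih =>
    have h1 := h a (Finset.mem_insert_self a s)
    have h2 := ih (fun i hi => h i (Finset.mem_insert_of_mem hi))
    refine (h1.add h2).congr ?_
    intro x y
    rw [Finset.sum_insert ha]

end IsL1

/-- thresholds -/
theorem real_line_cuts (S : Finset ℝ) :
    ∃ (ι : Type) (_ : Fintype ι) (w : ι → ℝ) (c : ι → ℝ → Bool),
    (∀ i, 0 ≤ w i) ∧ ∀ x ∈ S, ∀ y ∈ S,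
      |x - y| = ∑ i, w i * (if c i x = c i y then 0 else 1) := by
  classical
  induction S using Finset.induction_on_max with
  | empty => exact ⟨Empty, inferInstance, fun i => i.elim, fun i => i.elim, fun i => i.elim, by simp only [notMem_empty, univ_eq_empty, mul_ite, mul_zero, mul_one, sum_empty, abs_eq_zero, IsEmpty.forall_iff, implies_true]⟩
  | insert m S hm ih =>
    obtain ⟨ι, _, w, c, hw, hc⟩ := ih
    rcases S.eq_empty_or_nonempty with rfl | hne
    · refine ⟨Empty, inferInstance, fun i => i.elim, fun i => i.elim, fun i => i.elim, ?_⟩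
      intro x hx y hy
      simp at hx hy
      subst hx; subst hy; simp
    · set m' := S.max' hne with hm'
      have hm'S : m' ∈ S := S.max'_mem hne
      have hlt : m' < m := hm m' hm'S
      have hle : ∀ x ∈ S, x ≤ m' := fun x hx => S.le_max' x hx
      refine ⟨Option ι, inferInstance, fun i => i.elim (m - m') w,
        fun i x => i.elim (decide (x < m)) (fun i => c i (min x m')), ?_, ?_⟩
      · rintro (_ | i)
        · simp only [Option.elim]; linarith
        · exact hw i
      · intro x hx y hy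
        rw [Fintype.sum_option]
        simp only [Option.elim]
        rw [Finset.mem_insert] at hx hy
        have key : ∀ x ∈ S, |x - m| = (m - m') + |x - m'| := by
          intro x hx
          have := hle x hx
          rw [abs_of_nonpos (by linarith), abs_of_nonpos (by linarith)]
          ring
        rcases hx with rfl | hx <;> rcases hy with rfl | hy
        · simp only [sub_self, abs_zero, lt_self_iff_false, decide_false, ↓reduceIte, mul_zero, sum_const_zero, add_zero]
        · rw [abs_sub_comm, key y hy, abs_sub_comm y m', hc m' hm'S y hy]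
          have h1 : decide (y < x) = true := by simpa using hm y hy
          simp only [mul_ite, mul_zero, mul_one, lt_self_iff_false, decide_false, hm y hy, decide_true, Bool.false_eq_true, ↓reduceIte, min_eq_right hlt.le, min_eq_left (hle y hy)]
        · rw [key x hx, hc x hx m' hm'S]
          have h1 : decide (x < y) = true := by simpa using hm x hx
          simp only [mul_ite, mul_zero, mul_one, hm x hx, decide_true, lt_self_iff_false, decide_false, Bool.true_eq_false, ↓reduceIte, min_eq_left (hle x hx), min_eq_right hlt.le]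
        · rw [hc x hx y hy]
          simp only [mul_ite, mul_zero, mul_one, hm x hx, decide_true, hm y hy, ↓reduceIte, min_eq_left (hle x hx), min_eq_left (hle y hy), zero_add]

theorem isL1_line {V : Type} [Finite V] (f : V → ℝ) : IsL1 (fun x y => |f x - f y|) := by
  classical
  have := Fintype.ofFinite V
  obtain ⟨ι, _, w, c, hw, hc⟩ := real_line_cuts (Finset.univ.image f)
  refine ⟨ι, inferInstance, w, fun i x => c i (f x), hw, ?_⟩
  intro x y
  exact hc _ (Finset.mem_image_of_mem f (Finset.mem_univ x)) _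
    (Finset.mem_image_of_mem f (Finset.mem_univ y))

theorem max_abs_eq (a b : ℝ) : max |a| |b| = |(a + b) / 2| + |(a - b) / 2| := by
  rcases abs_cases a with ⟨h1, h1'⟩ | ⟨h1, h1'⟩ <;> rcases abs_cases b with ⟨h2, h2'⟩ | ⟨h2, h2'⟩ <;>
  rcases abs_cases ((a + b) / 2) with ⟨h3, h3'⟩ | ⟨h3, h3'⟩ <;>
  rcases abs_cases ((a - b) / 2) with ⟨h4, h4'⟩ | ⟨h4, h4'⟩ <;>
  rcases max_cases |a| |b| with ⟨h5, h5'⟩ | ⟨h5, h5'⟩ <;> linarith only [h1', h2', h3', h4', h1, h2, h5', h3, h4, h5]

theorem isL1_max {V : Type} [Finite V] (f g : V → ℝ) :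
    IsL1 (fun x y => max |f x - f y| |g x - g y|) := by
  refine ((isL1_line (fun x => (f x + g x) / 2)).add (isL1_line (fun x => (f x - g x) / 2))).congr ?_
  intro x y
  rw [max_abs_eq]
  congr 2 <;> ring

end Vale.Agent.P235
end
end
end

section

section

section

namespace Vale.Agent.P235T3

/-- A finite cut measure on `V`, as a positive linear functional on functions of labelings. -/
structure CF (V : Type) where
  L : ((V → Bool) → ℝ) →ₗ[ℝ] ℝ
  nn : ∀ f : (V → Bool) → ℝ, (∀ χ, 0 ≤ f χ) → 0 ≤ L f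

/-- indicator of `p ≠ q`. -/
def n2 (p q : Bool) : ℝ := if p = q then 0 else 1

/-- indicator: `a` alone against `b = c`. -/
def w3 (a b c : Bool) : ℝ := if a ≠ b ∧ b = c then 1 else 0

/-- indicator: `a` alone against `b = c` and `p = a`. -/
def P3 (p a b c : Bool) : ℝ := if a ≠ b ∧ b = c ∧ p = a then 1 else 0

/-- indicator: `a = b = c` and `p ≠ a`. -/
def O3 (p a b c : Bool) : ℝ := if a = b ∧ b = c ∧ p ≠ a then 1 else 0

namespace CF

variable {V : Type} (μ : CF V)

theorem mono {f g : (V → Bool) → ℝ} (h : ∀ χ, f χ ≤ g χ) : μ.L f ≤ μ.L g := by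
  have h1 := μ.nn (g - f) (fun χ => by simpa only [Pi.sub_apply, sub_nonneg] using h χ)
  rw [map_sub] at h1
  linarith

/-- cut metric -/
noncomputable def F (x y : V) : ℝ := μ.L (fun χ => n2 (χ x) (χ y))

/-- leg masses of the triple `T`. -/
noncomputable def wt (T : Fin 3 → V) (k : Fin 3) : ℝ :=
  μ.L (fun χ => w3 (χ (T k)) (χ (T (k + 1))) (χ (T (k + 2))))

/-- mass of: `k` alone and `p` with `k`. -/
noncomputable def Pm (T : Fin 3 → V) (p : V) (k : Fin 3) : ℝ :=
  μ.L (fun χ => P3 (χ p) (χ (T k)) (χ (T (k + 1))) (χ (T (k + 2))))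

/-- mass of: `T` uncut and `p` different. -/
noncomputable def Om (T : Fin 3 → V) (p : V) : ℝ :=
  μ.L (fun χ => O3 (χ p) (χ (T 0)) (χ (T 1)) (χ (T 2)))

theorem F_self (x : V) : μ.F x x = 0 := by
  unfold F n2
  simp only [if_true]
  exact μ.L.map_zero

theorem F_nonneg (x y : V) : 0 ≤ μ.F x y := by
  apply μ.nn
  intro χ
  unfold n2
  split_ifs <;> norm_num

theorem F_symm (x y : V) : μ.F x y = μ.F y x := by
  unfold F n2
  congr 1
  funext χ
  simp only [eq_comm]

theorem F_tri (x y z : V) : μ.F x z ≤ μ.F x y + μ.F y z := by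
  unfold F
  rw [← map_add]
  apply μ.mono
  intro χ
  simp only [Pi.add_apply]
  unfold n2
  cases χ x <;> cases χ y <;> cases χ z <;> norm_num

theorem wt_nonneg (T : Fin 3 → V) (k : Fin 3) : 0 ≤ μ.wt T k := by
  apply μ.nn
  intro χ
  unfold w3
  split_ifs <;> norm_num

theorem Pm_nonneg (T : Fin 3 → V) (p : V) (k : Fin 3) : 0 ≤ μ.Pm T p k := by
  apply μ.nn
  intro χ
  unfold P3
  split_ifs <;> norm_num

theorem Om_nonneg (T : Fin 3 → V) (p : V) : 0 ≤ μ.Om T p := by
  apply μ.nn
  intro χ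
  unfold O3
  split_ifs <;> norm_num

theorem Pm_le (T : Fin 3 → V) (p : V) (k : Fin 3) : μ.Pm T p k ≤ μ.wt T k := by
  apply μ.mono
  intro χ
  unfold P3 w3
  cases χ p <;> cases χ (T k) <;> cases χ (T (k + 1)) <;> cases χ (T (k + 2)) <;> norm_num

end CF

theorem rot12 (k : Fin 3) : k + 1 + 1 = k + 2 := by fin_cases k <;> rfl
theorem rot13 (k : Fin 3) : k + 1 + 2 = k := by fin_cases k <;> rfl
theorem rot21 (k : Fin 3) : k + 2 + 1 = k := by fin_cases k <;> rfl
theorem rot22 (k : Fin 3) : k + 2 + 2 = k + 1 := by fin_cases k <;> rfl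

theorem O3_rot (p a b c : Bool) : O3 p a b c = O3 p b c a := by
  cases p <;> cases a <;> cases b <;> cases c <;> simp [O3]

theorem pair_id (a b c : Bool) : n2 b c = w3 b c a + w3 c a b := by
  cases a <;> cases b <;> cases c <;> simp [n2, w3]

theorem vant_id (p a b c : Bool) :
    n2 p a + P3 p a b c = O3 p a b c + w3 a b c + P3 p b c a + P3 p c a b := by
  cases p <;> cases a <;> cases b <;> cases c <;> simp [n2, w3, O3, P3]

namespace CF

variable {V : Type} (μ : CF V)

theorem Om_rot (T : Fin 3 → V) (p : V) (k : Fin 3) :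
    μ.Om T p = μ.L (fun χ => O3 (χ p) (χ (T k)) (χ (T (k + 1))) (χ (T (k + 2)))) := by
  unfold Om
  fin_cases k
  · rfl
  · congr 1
    funext χ
    rw [O3_rot]
    rfl
  · congr 1
    funext χ
    rw [O3_rot, O3_rot]
    rfl

/-- distance of two members of the triple. -/
theorem F_pair (T : Fin 3 → V) (k : Fin 3) :
    μ.F (T (k + 1)) (T (k + 2)) = μ.wt T (k + 1) + μ.wt T (k + 2) := by
  unfold F wt
  rw [← map_add]
  congr 1
  funext χ
  simp only [Pi.add_apply]
  rw [rot12, rot13, rot21, rot22]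
  exact pair_id _ _ _

/-- the vantage formula for members of the triple. -/
theorem F_vantage (T : Fin 3 → V) (p : V) (k : Fin 3) :
    μ.F p (T k) = μ.Om T p + (μ.wt T k - μ.Pm T p k) + μ.Pm T p (k + 1) + μ.Pm T p (k + 2) := by
  have key : μ.F p (T k) + μ.Pm T p k
      = μ.Om T p + μ.wt T k + μ.Pm T p (k + 1) + μ.Pm T p (k + 2) := by
    rw [μ.Om_rot T p k]
    unfold F wt Pm
    simp only [← map_add]
    congr 1
    funext χ
    simp only [Pi.add_apply]
    rw [rot12, rot13, rot21, rot22]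
    exact vant_id _ _ _ _
  linarith only [key]

end CF

end Vale.Agent.P235T3
end
end
end

section

section

section

namespace Vale.Agent.P235T3

/-- probability that the new vertex gets the label `true` given the labels `a b c` of its triple:
it joins the lonely one with probability `s`. -/
def sp (s0 s1 s2 : ℝ) (a b c : Bool) : ℝ :=
  if a = b then (if b = c then (if a then 1 else 0) else (if c then s2 else 1 - s2))
  else (if b = c then (if a then s0 else 1 - s0) else (if b then s1 else 1 - s1))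

theorem sp_rot (s0 s1 s2 : ℝ) (a b c : Bool) : sp s0 s1 s2 a b c = sp s1 s2 s0 b c a := by
  cases a <;> cases b <;> cases c <;> simp [sp]

theorem sp_nonneg {s0 s1 s2 : ℝ} (h0 : 0 ≤ s0 ∧ s0 ≤ 1) (h1 : 0 ≤ s1 ∧ s1 ≤ 1)
    (h2 : 0 ≤ s2 ∧ s2 ≤ 1) (a b c : Bool) : 0 ≤ sp s0 s1 s2 a b c := by
  cases a <;> cases b <;> cases c <;> simp [sp] <;> linarith [h0.1, h0.2, h1.1, h1.2, h2.1, h2.2]

theorem sp_le {s0 s1 s2 : ℝ} (h0 : 0 ≤ s0 ∧ s0 ≤ 1) (h1 : 0 ≤ s1 ∧ s1 ≤ 1)
    (h2 : 0 ≤ s2 ∧ s2 ≤ 1) (a b c : Bool) : sp s0 s1 s2 a b c ≤ 1 := by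
  cases a <;> cases b <;> cases c <;> simp [sp] <;> linarith [h0.1, h0.2, h1.1, h1.2, h2.1, h2.2]

section ids
variable (s0 s1 s2 : ℝ) (p a b c : Bool)

theorem W0_id : sp s0 s1 s2 a b c * w3 true b c + (1 - sp s0 s1 s2 a b c) * w3 false b c
    = s0 * w3 a b c := by
  cases a <;> cases b <;> cases c <;> simp [sp, w3]

theorem W1_id : sp s0 s1 s2 a b c * w3 b c true + (1 - sp s0 s1 s2 a b c) * w3 b c false
    = (1 - s1) * w3 b c a + s2 * w3 c a b := by
  cases a <;> cases b <;> cases c <;> simp [sp, w3]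

theorem W2_id : sp s0 s1 s2 a b c * w3 c true b + (1 - sp s0 s1 s2 a b c) * w3 c false b
    = (1 - s2) * w3 c a b + s1 * w3 b c a := by
  cases a <;> cases b <;> cases c <;> simp [sp, w3]

theorem P0_id : sp s0 s1 s2 a b c * P3 p true b c + (1 - sp s0 s1 s2 a b c) * P3 p false b c
    = s0 * P3 p a b c := by
  cases p <;> cases a <;> cases b <;> cases c <;> simp [sp, P3]

theorem P1_id : sp s0 s1 s2 a b c * P3 p b c true + (1 - sp s0 s1 s2 a b c) * P3 p b c false
    = (1 - s1) * P3 p b c a + s2 * (w3 c a b - P3 p c a b) := by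
  cases p <;> cases a <;> cases b <;> cases c <;> simp [sp, P3, w3]

theorem P2_id : sp s0 s1 s2 a b c * P3 p c true b + (1 - sp s0 s1 s2 a b c) * P3 p c false b
    = (1 - s2) * P3 p c a b + s1 * (w3 b c a - P3 p b c a) := by
  cases p <;> cases a <;> cases b <;> cases c <;> simp [sp, P3, w3]

theorem O_id : sp s0 s1 s2 a b c * O3 p true b c + (1 - sp s0 s1 s2 a b c) * O3 p false b c
    = O3 p a b c + (1 - s0) * P3 p a b c := by
  cases p <;> cases a <;> cases b <;> cases c <;> simp [sp, P3, O3]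

end ids

variable {V : Type} [DecidableEq V]

/-- the face of the bag `(z; T)` opposite to `T k`. -/
def face (T : Fin 3 → V) (z : V) (k : Fin 3) : Fin 3 → V := ![z, T (k + 1), T (k + 2)]

namespace CF

variable (μ : CF V)

/-- Markov attachment of the vertex `z` to the triple `T`. -/
noncomputable def att (T : Fin 3 → V) (z : V) (s : Fin 3 → ℝ) (mz : ℝ)
    (hs : ∀ k, 0 ≤ s k ∧ s k ≤ 1) (hm : 0 ≤ mz) : CF V where
  L :=
    { toFun := fun φ => μ.L (fun χ =>
          sp (s 0) (s 1) (s 2) (χ (T 0)) (χ (T 1)) (χ (T 2)) * φ (Function.update χ z true)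
          + (1 - sp (s 0) (s 1) (s 2) (χ (T 0)) (χ (T 1)) (χ (T 2)))
            * φ (Function.update χ z false)) + mz * φ (fun v => decide (v = z))
      map_add' := by
        intro f g
        have : (fun χ : V → Bool =>
          sp (s 0) (s 1) (s 2) (χ (T 0)) (χ (T 1)) (χ (T 2)) * (f + g) (Function.update χ z true)
          + (1 - sp (s 0) (s 1) (s 2) (χ (T 0)) (χ (T 1)) (χ (T 2)))
            * (f + g) (Function.update χ z false)) =
          (fun χ : V → Bool =>
          sp (s 0) (s 1) (s 2) (χ (T 0)) (χ (T 1)) (χ (T 2)) * f (Function.update χ z true)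
          + (1 - sp (s 0) (s 1) (s 2) (χ (T 0)) (χ (T 1)) (χ (T 2)))
            * f (Function.update χ z false)) +
          (fun χ : V → Bool =>
          sp (s 0) (s 1) (s 2) (χ (T 0)) (χ (T 1)) (χ (T 2)) * g (Function.update χ z true)
          + (1 - sp (s 0) (s 1) (s 2) (χ (T 0)) (χ (T 1)) (χ (T 2)))
            * g (Function.update χ z false)) := by
          funext χ
          simp only [Pi.add_apply]
          ring
        rw [this, map_add]
        simp only [Pi.add_apply]
        ring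
      map_smul' := by
        intro a f
        have : (fun χ : V → Bool =>
          sp (s 0) (s 1) (s 2) (χ (T 0)) (χ (T 1)) (χ (T 2)) * (a • f) (Function.update χ z true)
          + (1 - sp (s 0) (s 1) (s 2) (χ (T 0)) (χ (T 1)) (χ (T 2)))
            * (a • f) (Function.update χ z false)) =
          a • (fun χ : V → Bool =>
          sp (s 0) (s 1) (s 2) (χ (T 0)) (χ (T 1)) (χ (T 2)) * f (Function.update χ z true)
          + (1 - sp (s 0) (s 1) (s 2) (χ (T 0)) (χ (T 1)) (χ (T 2)))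
            * f (Function.update χ z false)) := by
          funext χ
          simp only [Pi.smul_apply, smul_eq_mul]
          ring
        rw [this, map_smul]
        simp only [Pi.smul_apply, smul_eq_mul, RingHom.id_apply]
        ring }
  nn := by
    intro f hf
    apply add_nonneg
    · apply μ.nn
      intro χ
      apply add_nonneg
      · exact mul_nonneg (sp_nonneg (hs 0) (hs 1) (hs 2) _ _ _) (hf _)
      · exact mul_nonneg (by linarith [sp_le (hs 0) (hs 1) (hs 2) (χ (T 0)) (χ (T 1)) (χ (T 2))])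
          (hf _)
    · exact mul_nonneg hm (hf _)

variable {μ} {T : Fin 3 → V} {z : V} {s : Fin 3 → ℝ} {mz : ℝ}
    {hs : ∀ k, 0 ≤ s k ∧ s k ≤ 1} {hm : 0 ≤ mz}

theorem att_L (φ : (V → Bool) → ℝ) : (μ.att T z s mz hs hm).L φ = μ.L (fun χ =>
          sp (s 0) (s 1) (s 2) (χ (T 0)) (χ (T 1)) (χ (T 2)) * φ (Function.update χ z true)
          + (1 - sp (s 0) (s 1) (s 2) (χ (T 0)) (χ (T 1)) (χ (T 2)))
            * φ (Function.update χ z false)) + mz * φ (fun v => decide (v = z)) := rfl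

/-- nothing changes outside `z`. -/
theorem att_out (φ : (V → Bool) → ℝ) (h : ∀ χ χ' : V → Bool, (∀ v, v ≠ z → χ v = χ' v) → φ χ = φ χ')
    (h0 : φ (fun _ => false) = 0) : (μ.att T z s mz hs hm).L φ = μ.L φ := by
  rw [att_L]
  have h1 : ∀ (χ : V → Bool) (b : Bool), φ (Function.update χ z b) = φ χ := by
    intro χ b
    apply h
    intro v hv
    simp [hv]
  have h2 : φ (fun v => decide (v = z)) = 0 := by
    rw [← h0]
    apply h
    intro v hv
    simp [hv]
  simp only [h1, h2, mul_zero, add_zero]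
  congr 1
  funext χ
  ring

theorem att_four (g : Bool → Bool → Bool → Bool → ℝ) {p b c : V} (hp : p ≠ z) (hb : b ≠ z)
    (hc : c ≠ z) (k : Fin 3) :
    (μ.att T z s mz hs hm).L (fun χ => g (χ p) (χ z) (χ b) (χ c)) = μ.L (fun χ =>
      sp (s k) (s (k + 1)) (s (k + 2)) (χ (T k)) (χ (T (k + 1))) (χ (T (k + 2)))
        * g (χ p) true (χ b) (χ c)
      + (1 - sp (s k) (s (k + 1)) (s (k + 2)) (χ (T k)) (χ (T (k + 1))) (χ (T (k + 2))))
        * g (χ p) false (χ b) (χ c)) + mz * g false true false false := by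
  rw [att_L]
  have e : ∀ χ : V → Bool, sp (s k) (s (k + 1)) (s (k + 2)) (χ (T k)) (χ (T (k + 1)))
      (χ (T (k + 2))) = sp (s 0) (s 1) (s 2) (χ (T 0)) (χ (T 1)) (χ (T 2)) := by
    intro χ
    fin_cases k
    · rfl
    · show sp (s 1) (s 2) (s 0) (χ (T 1)) (χ (T 2)) (χ (T 0)) = _
      exact (sp_rot _ _ _ _ _ _).symm
    · show sp (s 2) (s 0) (s 1) (χ (T 2)) (χ (T 0)) (χ (T 1)) = _
      exact sp_rot _ _ _ _ _ _
  simp only [e]
  simp only [Fin.isValue, ne_eq, hp, not_false_eq_true, Function.update_of_ne, Function.update_self, hb, hc, decide_false, decide_true]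

end CF

end Vale.Agent.P235T3
end
end
end

section

section

section

namespace Vale.Agent.P235T3

/-- legs of the face `k` after attaching with joined masses `X` and new mass `mz`. -/
def wf (w X : Fin 3 → ℝ) (mz : ℝ) (k : Fin 3) : Fin 3 → ℝ :=
  ![mz + X k, (w (k + 1) - X (k + 1)) + X (k + 2), (w (k + 2) - X (k + 2)) + X (k + 1)]

/-- vantage masses of the face `k`. -/
def Pf (w X p : Fin 3 → ℝ) (k : Fin 3) : Fin 3 → ℝ :=
  ![X k * p k, (w (k + 1) - X (k + 1)) * p (k + 1) + X (k + 2) * (1 - p (k + 2)),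
    (w (k + 2) - X (k + 2)) * p (k + 2) + X (k + 1) * (1 - p (k + 1))]

/-- vantage outer mass of the face `k`. -/
def Of (w X : Fin 3 → ℝ) (O : ℝ) (p : Fin 3 → ℝ) (k : Fin 3) : ℝ :=
  O + (w k - X k) * p k

variable {V : Type} [DecidableEq V]

namespace CF

variable {μ : CF V} {T : Fin 3 → V} {z : V} {s : Fin 3 → ℝ} {mz : ℝ}
    {hs : ∀ k, 0 ≤ s k ∧ s k ≤ 1} {hm : 0 ≤ mz}

theorem L_comb (a b : ℝ) (f g : (V → Bool) → ℝ) :
    μ.L (fun χ => a * f χ + b * g χ) = a * μ.L f + b * μ.L g := by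
  have : (fun χ => a * f χ + b * g χ) = a • f + b • g := by
    funext χ
    simp
  rw [this, map_add, map_smul, map_smul]
  rfl

theorem L_mul (a : ℝ) (f : (V → Bool) → ℝ) :
    μ.L (fun χ => a * f χ) = a * μ.L f := by
  have : (fun χ => a * f χ) = a • f := by
    funext χ
    simp
  rw [this, map_smul]
  rfl

theorem L_sub (f g : (V → Bool) → ℝ) :
    μ.L (fun χ => f χ - g χ) = μ.L f - μ.L g := map_sub μ.L f g

theorem wt_face (hT : ∀ j, T j ≠ z) (k : Fin 3) :
    (μ.att T z s mz hs hm).wt (face T z k) = wf (μ.wt T) (fun k => s k * μ.wt T k) mz k := by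
  have h0 := att_four (μ := μ) (T := T) (z := z) (s := s) (mz := mz) (hs := hs) (hm := hm)
    (fun _ z b c => w3 z b c) (hT 0) (hT (k + 1)) (hT (k + 2)) k
  have h1 := att_four (μ := μ) (T := T) (z := z) (s := s) (mz := mz) (hs := hs) (hm := hm)
    (fun _ z b c => w3 b c z) (hT 0) (hT (k + 1)) (hT (k + 2)) k
  have h2 := att_four (μ := μ) (T := T) (z := z) (s := s) (mz := mz) (hs := hs) (hm := hm)
    (fun _ z b c => w3 c z b) (hT 0) (hT (k + 1)) (hT (k + 2)) k
  simp only [W0_id, W1_id, W2_id] at h0 h1 h2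
  funext j
  fin_cases j
  · show (μ.att T z s mz hs hm).L (fun χ => w3 (χ z) (χ (T (k + 1))) (χ (T (k + 2)))) = _
    rw [h0, L_mul]
    simp only [w3, Fin.isValue, ne_eq, Bool.true_eq_false, not_false_eq_true, and_self, ↓reduceIte, mul_one, wf, wt, Fin.zero_eta, Matrix.cons_val_zero]
    ring
  · show (μ.att T z s mz hs hm).L (fun χ => w3 (χ (T (k + 1))) (χ (T (k + 2))) (χ z)) = _
    rw [h1, L_comb]
    simp only [Fin.isValue, w3, ne_eq, not_true_eq_false, Bool.false_eq_true, and_self, ↓reduceIte, mul_zero, add_zero, wf, wt, rot12, rot13, rot21, rot22, Fin.mk_one, Matrix.cons_val_one, Matrix.cons_val_zero, add_left_inj]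
    ring
  · show (μ.att T z s mz hs hm).L (fun χ => w3 (χ (T (k + 2))) (χ z) (χ (T (k + 1)))) = _
    rw [h2, L_comb]
    simp only [Fin.isValue, w3, ne_eq, Bool.false_eq_true, not_false_eq_true, Bool.true_eq_false, and_false, ↓reduceIte, mul_zero, add_zero, wf, wt, rot12, rot13, rot21, rot22, Fin.reduceFinMk, Matrix.cons_val, add_left_inj]
    ring

theorem Pm_face (hT : ∀ j, T j ≠ z) {q : V} (hq : q ≠ z) {p : Fin 3 → ℝ}
    (hp : ∀ k, μ.wt T k * p k = μ.Pm T q k) (k : Fin 3) :
    (μ.att T z s mz hs hm).Pm (face T z k) q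
      = Pf (μ.wt T) (fun k => s k * μ.wt T k) p k := by
  have h0 := att_four (μ := μ) (T := T) (z := z) (s := s) (mz := mz) (hs := hs) (hm := hm)
    (fun p z b c => P3 p z b c) hq (hT (k + 1)) (hT (k + 2)) k
  have h1 := att_four (μ := μ) (T := T) (z := z) (s := s) (mz := mz) (hs := hs) (hm := hm)
    (fun p z b c => P3 p b c z) hq (hT (k + 1)) (hT (k + 2)) k
  have h2 := att_four (μ := μ) (T := T) (z := z) (s := s) (mz := mz) (hs := hs) (hm := hm)
    (fun p z b c => P3 p c z b) hq (hT (k + 1)) (hT (k + 2)) k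
  simp only [P0_id, P1_id, P2_id] at h0 h1 h2
  have e0 := hp k
  have e1 := hp (k + 1)
  have e2 := hp (k + 2)
  unfold wt Pm at e0 e1 e2
  simp only [rot12, rot13, rot21, rot22] at e0 e1 e2
  funext j
  fin_cases j
  · show (μ.att T z s mz hs hm).L
      (fun χ => P3 (χ q) (χ z) (χ (T (k + 1))) (χ (T (k + 2)))) = _
    rw [h0, L_mul, ← e0]
    simp only [Fin.isValue, P3, ne_eq, Bool.true_eq_false, not_false_eq_true, Bool.false_eq_true, and_false, ↓reduceIte, mul_zero, add_zero, Pf, wt, Fin.zero_eta, Matrix.cons_val_zero]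
    ring
  · show (μ.att T z s mz hs hm).L
      (fun χ => P3 (χ q) (χ (T (k + 1))) (χ (T (k + 2))) (χ z)) = _
    rw [h1, L_comb, L_sub, ← e1, ← e2]
    simp only [Fin.isValue, P3, ne_eq, not_true_eq_false, Bool.false_eq_true, and_true, and_self, ↓reduceIte, mul_zero, add_zero, Pf, wt, rot12, rot13, rot21, rot22, Fin.mk_one, Matrix.cons_val_one, Matrix.cons_val_zero]
    ring
  · show (μ.att T z s mz hs hm).L
      (fun χ => P3 (χ q) (χ (T (k + 2))) (χ z) (χ (T (k + 1)))) = _
    rw [h2, L_comb, L_sub, ← e1, ← e2]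
    simp only [Fin.isValue, P3, ne_eq, Bool.false_eq_true, not_false_eq_true, Bool.true_eq_false, and_true, and_false, ↓reduceIte, mul_zero, add_zero, Pf, wt, rot12, rot13, rot21, rot22, Fin.reduceFinMk, Matrix.cons_val]
    ring

theorem Om_face (hT : ∀ j, T j ≠ z) {q : V} (hq : q ≠ z) {p : Fin 3 → ℝ}
    (hp : ∀ k, μ.wt T k * p k = μ.Pm T q k) (k : Fin 3) :
    (μ.att T z s mz hs hm).Om (face T z k) q
      = Of (μ.wt T) (fun k => s k * μ.wt T k) (μ.Om T q) p k := by
  have h0 := att_four (μ := μ) (T := T) (z := z) (s := s) (mz := mz) (hs := hs) (hm := hm)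
    (fun p z b c => O3 p z b c) hq (hT (k + 1)) (hT (k + 2)) k
  simp only [O_id] at h0
  have e0 := hp k
  unfold wt Pm at e0
  show (μ.att T z s mz hs hm).L
      (fun χ => O3 (χ q) (χ z) (χ (T (k + 1))) (χ (T (k + 2)))) = _
  have h3 : (fun χ : V → Bool => O3 (χ q) (χ (T k)) (χ (T (k + 1))) (χ (T (k + 2)))
      + (1 - s k) * P3 (χ q) (χ (T k)) (χ (T (k + 1))) (χ (T (k + 2)))) =
      (fun χ : V → Bool => 1 * O3 (χ q) (χ (T k)) (χ (T (k + 1))) (χ (T (k + 2)))
      + (1 - s k) * P3 (χ q) (χ (T k)) (χ (T (k + 1))) (χ (T (k + 2)))) := by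
    funext χ
    ring
  rw [h0, h3, L_comb, ← e0, μ.Om_rot T q k]
  simp only [O3, Fin.isValue, ne_eq, one_mul, Bool.true_eq_false, Bool.false_eq_true, not_false_eq_true, and_self, and_true, ↓reduceIte, mul_zero, add_zero, Of, wt, add_right_inj]
  ring

end CF

end Vale.Agent.P235T3
end
end
end

section

section

section

namespace Vale.Agent.P235T3

/-- distances inside a triple with legs `om`. -/
def dT (om : Fin 3 → ℝ) (i j : Fin 3) : ℝ := if i = j then 0 else om i + om j

/-- distances from `T i` to the members of the face `k`. -/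
def dface (om y : Fin 3 → ℝ) (k i : Fin 3) : Fin 3 → ℝ :=
  ![y i, dT om i (k + 1), dT om i (k + 2)]

/-- legs of the face `k` of the bag `(z; T)`. -/
noncomputable def omf (om y : Fin 3 → ℝ) (k : Fin 3) : Fin 3 → ℝ :=
  ![(y (k + 1) + y (k + 2) - (om (k + 1) + om (k + 2))) / 2,
    (y (k + 1) + (om (k + 1) + om (k + 2)) - y (k + 2)) / 2,
    (y (k + 2) + (om (k + 1) + om (k + 2)) - y (k + 1)) / 2]

/-- Potential inequality at the face `k`. -/
def PotStep (Φ : (Fin 3 → ℝ) → (Fin 3 → ℝ) → ℝ → (Fin 3 → ℝ) → Fin 3 → ℝ)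
    (w om y X : Fin 3 → ℝ) (mz O : ℝ) (p : Fin 3 → ℝ) (k : Fin 3) : Prop :=
  ∃ p' : Fin 3 → ℝ, (∀ j, 0 ≤ p' j ∧ p' j ≤ 1) ∧ (∀ j, wf w X mz k j * p' j = Pf w X p k j) ∧
    ∀ (v : Fin 3) (m : ℝ), (∀ i, m ≤ Φ w om O p i + dface om y k i v) →
      m ≤ Φ (wf w X mz k) (omf om y k) (Of w X O p k) p' v

/-- The local theory: good triples, potential, one-step inequality. -/
structure Loc where
  Good : (Fin 3 → ℝ) → (Fin 3 → ℝ) → Prop
  Φ : (Fin 3 → ℝ) → (Fin 3 → ℝ) → ℝ → (Fin 3 → ℝ) → Fin 3 → ℝ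
  c0 : ℝ
  C : ℝ
  cu : ℝ
  c0_pos : 0 < c0
  cu_nonneg : 0 ≤ cu
  C_nonneg : 0 ≤ C
  lo : ∀ w om, Good w om → ∀ k, c0 * (om (k + 1) + om (k + 2)) ≤ w (k + 1) + w (k + 2)
  hi : ∀ w om, Good w om → ∀ k, w (k + 1) + w (k + 2) ≤ cu * (om (k + 1) + om (k + 2))
  Φ_nonneg : ∀ w om, Good w om → ∀ O p, 0 ≤ O → (∀ k, 0 ≤ p k ∧ p k ≤ 1) → ∀ v,
    0 ≤ Φ w om O p v
  Φ_le : ∀ w om, Good w om → ∀ O p, 0 ≤ O → (∀ k, 0 ≤ p k ∧ p k ≤ 1) → ∀ v,
    Φ w om O p v ≤ C * (O + w v * (1 - p v) + w (v + 1) * p (v + 1) + w (v + 2) * p (v + 2))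
  init : ∀ om : Fin 3 → ℝ, (∀ k, 0 ≤ om k) → ∃ w, (∀ k, 0 ≤ w k) ∧ Good w om
  step : ∀ w om, Good w om → (∀ k, 0 ≤ w k) → (∀ k, 0 ≤ om k) → ∀ y : Fin 3 → ℝ,
    (∀ k, 0 ≤ y k) → (∀ k, y (k + 1) ≤ y (k + 2) + (om (k + 1) + om (k + 2))) →
    (∀ k, y (k + 2) ≤ y (k + 1) + (om (k + 1) + om (k + 2))) →
    (∀ k, om (k + 1) + om (k + 2) ≤ y (k + 1) + y (k + 2)) →
    ∃ (X : Fin 3 → ℝ) (mz : ℝ), (∀ k, 0 ≤ X k ∧ X k ≤ w k) ∧ 0 ≤ mz ∧
      (∀ k, Good (wf w X mz k) (omf om y k)) ∧
      ∀ O p, 0 ≤ O → (∀ k, 0 ≤ p k ∧ p k ≤ 1) → ∀ k, PotStep Φ w om y X mz O p k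

/-- metric axioms used. -/
structure PM {V : Type} (d : V → V → ℝ) : Prop where
  self : ∀ x, d x x = 0
  symm : ∀ x y, d x y = d y x
  tri : ∀ x y z, d x z ≤ d x y + d y z

namespace PM
variable {V : Type} {d : V → V → ℝ} (h : PM d)
include h
theorem nonneg (x y : V) : 0 ≤ d x y := by
  have h1 := h.tri x y x
  have h2 := h.symm x y
  have h3 := h.self x
  linarith only [h1, h2, h3]
end PM

/-- legs of the triple `T` with respect to `d`. -/
noncomputable def lg {V : Type} (d : V → V → ℝ) (T : Fin 3 → V) (k : Fin 3) : ℝ :=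
  (d (T k) (T (k + 1)) + d (T k) (T (k + 2)) - d (T (k + 1)) (T (k + 2))) / 2

section lg
variable {V : Type} {d : V → V → ℝ} (h : PM d)
include h

theorem lg_nonneg (T : Fin 3 → V) (k : Fin 3) : 0 ≤ lg d T k := by
  unfold lg
  have h1 := h.tri (T (k + 1)) (T k) (T (k + 2))
  have h2 := h.symm (T (k + 1)) (T k)
  linarith only [h1, h2]

theorem lg_pair (T : Fin 3 → V) (k : Fin 3) :
    lg d T (k + 1) + lg d T (k + 2) = d (T (k + 1)) (T (k + 2)) := by
  unfold lg
  rw [rot12, rot13, rot21, rot22, h.symm (T (k + 2)) (T k), h.symm (T (k + 1)) (T k),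
    h.symm (T (k + 2)) (T (k + 1))]
  ring

theorem lg_dT (T : Fin 3 → V) (i j : Fin 3) : dT (lg d T) i j = d (T i) (T j) := by
  unfold dT
  split_ifs with hij
  · rw [hij, h.self]
  · have hc : (∃ k : Fin 3, i = k + 1 ∧ j = k + 2) ∨ (∃ k : Fin 3, j = k + 1 ∧ i = k + 2) := by
      revert hij
      revert i j
      decide
    rcases hc with ⟨k, rfl, rfl⟩ | ⟨k, rfl, rfl⟩
    · exact lg_pair h T k
    · rw [add_comm, lg_pair h T k, h.symm]

variable [DecidableEq V]

theorem lg_face (T : Fin 3 → V) (z : V) (k : Fin 3) :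
    lg d (face T z k) = omf (lg d T) (fun i => d (T i) z) k := by
  have e := lg_pair h T k
  have s1 := h.symm z (T (k + 1))
  have s2 := h.symm z (T (k + 2))
  have s3 := h.symm (T (k + 2)) (T (k + 1))
  funext j
  fin_cases j
  · show (d z (T (k + 1)) + d z (T (k + 2)) - d (T (k + 1)) (T (k + 2))) / 2 = _
    simp only [omf, Fin.zero_eta, Fin.isValue, Matrix.cons_val_zero]
    rw [e]
    linarith only [s1, s2]
  · show (d (T (k + 1)) (T (k + 2)) + d (T (k + 1)) z - d (T (k + 2)) z) / 2 = _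
    simp only [omf, Fin.mk_one, Fin.isValue, Matrix.cons_val_one, Matrix.cons_val_zero]
    rw [e]
    linarith only []
  · show (d (T (k + 2)) z + d (T (k + 2)) (T (k + 1)) - d z (T (k + 1))) / 2 = _
    simp only [omf, Fin.reduceFinMk, Fin.isValue, Matrix.cons_val]
    rw [e]
    linarith

theorem dface_eq (T : Fin 3 → V) (z : V) (k i v : Fin 3) :
    dface (lg d T) (fun i => d (T i) z) k i v = d (T i) (face T z k v) := by
  fin_cases v
  · rfl
  · show dT (lg d T) i (k + 1) = d (T i) (T (k + 1))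
    exact lg_dT h T i _
  · show dT (lg d T) i (k + 2) = d (T i) (T (k + 2))
    exact lg_dT h T i _

end lg

/-- distance to the triple. -/
noncomputable def di {V : Type} (d : V → V → ℝ) (T : Fin 3 → V) (x : V) : ℝ :=
  min (d x (T 0)) (min (d x (T 1)) (d x (T 2)))

section di
variable {V : Type} {d : V → V → ℝ} (h : PM d)

theorem di_le (T : Fin 3 → V) (x : V) (i : Fin 3) : di d T x ≤ d x (T i) := by
  unfold di
  fin_cases i
  · exact min_le_left _ _
  · exact (min_le_right _ _).trans (min_le_left _ _)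
  · exact (min_le_right _ _).trans (min_le_right _ _)

theorem di_ex (T : Fin 3 → V) (x : V) : ∃ i, di d T x = d x (T i) := by
  unfold di
  rcases min_choice (d x (T 0)) (min (d x (T 1)) (d x (T 2))) with h1 | h1
  · exact ⟨0, h1⟩
  · rcases min_choice (d x (T 1)) (d x (T 2)) with h2 | h2
    · exact ⟨1, h1.trans h2⟩
    · exact ⟨2, h1.trans h2⟩

include h

theorem di_lip (T : Fin 3 → V) (x y : V) : di d T x ≤ di d T y + d x y := by
  obtain ⟨i, hi⟩ := di_ex (d := d) T y
  rw [hi]
  have h1 := di_le (d := d) T x i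
  have h2 := h.tri x y (T i)
  linarith

theorem di_mem (T : Fin 3 → V) (i : Fin 3) : di d T (T i) = 0 := by
  apply le_antisymm
  · have := di_le (d := d) T (T i) i
    rwa [h.self] at this
  · obtain ⟨j, hj⟩ := di_ex (d := d) T (T i)
    rw [hj]
    exact h.nonneg _ _

end di

end Vale.Agent.P235T3
end
end
end

section

section

section

namespace Vale.Agent.P235T3

variable {V : Type}

/-- `ν` extends `μ`: nothing changes outside `W`. -/
def AgreeOff (μ ν : CF V) (W : Finset V) : Prop :=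
  ∀ φ : (V → Bool) → ℝ, (∀ χ χ' : V → Bool, (∀ v, v ∉ W → χ v = χ' v) → φ χ = φ χ') →
    φ (fun _ => false) = 0 → ν.L φ = μ.L φ

namespace AgreeOff

theorem refl (μ : CF V) (W : Finset V) : AgreeOff μ μ W := fun _ _ _ => rfl

variable {μ ν ξ : CF V} {W W' : Finset V}

theorem mono (h : AgreeOff μ ν W) (hW : W ⊆ W') : AgreeOff μ ν W' := by
  intro φ h1 h2
  apply h φ _ h2
  intro χ χ' h3
  apply h1
  intro v hv
  exact h3 v (fun h => hv (hW h))

theorem trans [DecidableEq V] (h : AgreeOff μ ν W) (h' : AgreeOff ν ξ W') :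
    AgreeOff μ ξ (W ∪ W') := by
  intro φ h1 h2
  rw [h'.mono Finset.subset_union_right φ h1 h2, h.mono Finset.subset_union_left φ h1 h2]

theorem F (h : AgreeOff μ ν W) {x y : V} (hx : x ∉ W) (hy : y ∉ W) : ν.F x y = μ.F x y := by
  apply h
  · intro χ χ' h1
    rw [h1 x hx, h1 y hy]
  · simp [n2]

theorem wt (h : AgreeOff μ ν W) {T : Fin 3 → V} (hT : ∀ j, T j ∉ W) : ν.wt T = μ.wt T := by
  funext k
  apply h
  · intro χ χ' h1
    rw [h1 _ (hT k), h1 _ (hT (k + 1)), h1 _ (hT (k + 2))]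
  · simp [w3]

theorem Pm (h : AgreeOff μ ν W) {T : Fin 3 → V} (hT : ∀ j, T j ∉ W) {q : V} (hq : q ∉ W) :
    ν.Pm T q = μ.Pm T q := by
  funext k
  apply h
  · intro χ χ' h1
    rw [h1 _ (hT k), h1 _ (hT (k + 1)), h1 _ (hT (k + 2)), h1 _ hq]
  · simp [P3]

theorem Om (h : AgreeOff μ ν W) {T : Fin 3 → V} (hT : ∀ j, T j ∉ W) {q : V} (hq : q ∉ W) :
    ν.Om T q = μ.Om T q := by
  apply h
  · intro χ χ' h1
    rw [h1 _ (hT 0), h1 _ (hT 1), h1 _ (hT 2), h1 _ hq]
  · simp [O3]

end AgreeOff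

theorem exists_p (μ : CF V) (T : Fin 3 → V) (q : V) :
    ∃ p : Fin 3 → ℝ, (∀ k, 0 ≤ p k ∧ p k ≤ 1) ∧ ∀ k, μ.wt T k * p k = μ.Pm T q k := by
  refine ⟨fun k => μ.Pm T q k / μ.wt T k, ?_, ?_⟩
  · intro k
    refine ⟨div_nonneg (μ.Pm_nonneg T q k) (μ.wt_nonneg T k), ?_⟩
    exact div_le_one_of_le₀ (μ.Pm_le T q k) (μ.wt_nonneg T k)
  · intro k
    rcases eq_or_lt_of_le (μ.wt_nonneg T k) with h | h
    · have h1 := μ.Pm_le T q k
      have h2 := μ.Pm_nonneg T q k
      rw [← h] at h1 ⊢
      simp only [zero_mul]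
      linarith
    · show μ.wt T k * (μ.Pm T q k / μ.wt T k) = _
      (clear * - h; field_simp)

/-- What the extension `ν` of `μ` achieves for the vertices `U` below the triple `T`. -/
structure Res (d : V → V → ℝ) (M : Loc) (K : ℝ) (μ ν : CF V) (T : Fin 3 → V) (U : Finset V) :
    Prop where
  ub1 : ∀ x ∈ U, ∀ j, ν.F x (T j) ≤ M.cu * d x (T j)
  ub2 : ∀ x ∈ U, ∀ y ∈ U, ν.F x y ≤ M.cu * d x y
  vb : ∀ q, q ∉ U → ∀ D : V → ℝ, (∀ x y, D x ≤ D y + d x y) →
    ∀ p : Fin 3 → ℝ, (∀ k, 0 ≤ p k ∧ p k ≤ 1) → (∀ k, μ.wt T k * p k = μ.Pm T q k) →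
    (∀ k, D (T k) ≤ M.Φ (μ.wt T) (lg d T) (μ.Om T q) p k) → ∀ x ∈ U, D x ≤ M.C * ν.F q x
  pb : ∀ x ∈ U, ∀ y ∈ U, d x y ≤ K * ν.F x y

theorem Res.di {d : V → V → ℝ} {M : Loc} {K : ℝ} {μ ν : CF V} {T : Fin 3 → V} {U : Finset V}
    (hd : PM d) (h : Res d M K μ ν T U) (hg : M.Good (μ.wt T) (lg d T)) {q : V} (hq : q ∉ U)
    {x : V} (hx : x ∈ U) : di d T x ≤ M.C * ν.F q x := by
  obtain ⟨p, hp1, hp2⟩ := exists_p μ T q
  refine h.vb q hq (Vale.Agent.P235T3.di d T) (di_lip hd T) p hp1 hp2 ?_ x hx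
  intro k
  rw [di_mem hd]
  exact M.Φ_nonneg _ _ hg _ _ (μ.Om_nonneg T q) hp1 k

variable [DecidableEq V]

theorem multi {d : V → V → ℝ} (hd : PM d) (M : Loc) (K : ℝ) (N : ℕ) (Tb : ℕ → Fin 3 → V)
    (Ub : ℕ → Finset V) (μ : CF V)
    (hT : ∀ i l j, Tb i j ∉ Ub l)
    (hU : ∀ i l, i ≠ l → Disjoint (Ub i) (Ub l))
    (hg : ∀ i, i < N → M.Good (μ.wt (Tb i)) (lg d (Tb i)))
    (hc : ∀ i, i < N → ∀ μ' : CF V, M.Good (μ'.wt (Tb i)) (lg d (Tb i)) →
      ∃ ν, AgreeOff μ' ν (Ub i) ∧ Res d M K μ' ν (Tb i) (Ub i)) :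
    ∀ n, n ≤ N → ∃ ν, AgreeOff μ ν ((Finset.range n).biUnion Ub) ∧
      (∀ i, i < n → (∀ x ∈ Ub i, ∀ j, ν.F x (Tb i j) ≤ M.cu * d x (Tb i j)) ∧
        (∀ x ∈ Ub i, ∀ y ∈ Ub i, ν.F x y ≤ M.cu * d x y) ∧
        (∀ x ∈ Ub i, ∀ y ∈ Ub i, d x y ≤ K * ν.F x y) ∧
        (∀ q, q ∉ (Finset.range n).biUnion Ub → ∀ D : V → ℝ, (∀ x y, D x ≤ D y + d x y) →
          ∀ p : Fin 3 → ℝ, (∀ k, 0 ≤ p k ∧ p k ≤ 1) →
          (∀ k, μ.wt (Tb i) k * p k = μ.Pm (Tb i) q k) →
          (∀ k, D (Tb i k) ≤ M.Φ (μ.wt (Tb i)) (lg d (Tb i)) (μ.Om (Tb i) q) p k) →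
          ∀ x ∈ Ub i, D x ≤ M.C * ν.F q x)) ∧
      (∀ i l, i < l → l < n → ∀ q ∈ Ub i, ∀ x ∈ Ub l, di d (Tb l) x ≤ M.C * ν.F q x) := by
  intro n
  induction n with
  | zero =>
    intro _
    refine ⟨μ, AgreeOff.refl μ _, ?_, ?_⟩
    · intro i hi
      exact absurd hi (Nat.not_lt_zero i)
    · intro i l _ hl
      exact absurd hl (Nat.not_lt_zero l)
  | succ n ih =>
    intro hn
    obtain ⟨ν, hA, hR, hX⟩ := ih (by omega)
    have hTn : ∀ i j, Tb i j ∉ (Finset.range n).biUnion Ub := by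
      intro i j hm
      obtain ⟨l, _, hl⟩ := Finset.mem_biUnion.mp hm
      exact hT i l j hl
    have hwt : ν.wt (Tb n) = μ.wt (Tb n) := hA.wt (hTn n)
    have hgn : M.Good (ν.wt (Tb n)) (lg d (Tb n)) := by
      rw [hwt]
      exact hg n (by omega)
    obtain ⟨ξ, hB, hS⟩ := hc n (by omega) ν hgn
    have hnot : ∀ i, i < n → ∀ x ∈ Ub i, x ∉ Ub n := by
      intro i hi x hx hx'
      exact Finset.disjoint_left.mp (hU i n (by omega)) hx hx'
    have hrange : (Finset.range (n + 1)).biUnion Ub = (Finset.range n).biUnion Ub ∪ Ub n := by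
      rw [Finset.range_add_one, Finset.biUnion_insert, Finset.union_comm]
    refine ⟨ξ, ?_, ?_, ?_⟩
    · rw [hrange]
      exact hA.trans hB
    · intro i hi
      by_cases hin : i = n
      · subst hin
        refine ⟨hS.ub1, hS.ub2, hS.pb, ?_⟩
        intro q hq D hD p hp1 hp2 hp3
        rw [hrange, Finset.mem_union, not_or] at hq
        apply hS.vb q hq.2 D hD p hp1
        · intro k
          rw [hwt, hA.Pm (hTn i) hq.1]
          exact hp2 k
        · intro k
          rw [hwt, hA.Om (hTn i) hq.1]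
          exact hp3 k
      · have hi' : i < n := by omega
        obtain ⟨h1, h2, h3, h4⟩ := hR i hi'
        refine ⟨?_, ?_, ?_, ?_⟩
        · intro x hx j
          rw [hB.F (hnot i hi' x hx) (hT i n j)]
          exact h1 x hx j
        · intro x hx y hy
          rw [hB.F (hnot i hi' x hx) (hnot i hi' y hy)]
          exact h2 x hx y hy
        · intro x hx y hy
          rw [hB.F (hnot i hi' x hx) (hnot i hi' y hy)]
          exact h3 x hx y hy
        · intro q hq D hD p hp1 hp2 hp3 x hx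
          rw [hrange, Finset.mem_union, not_or] at hq
          rw [hB.F hq.2 (hnot i hi' x hx)]
          exact h4 q hq.1 D hD p hp1 hp2 hp3 x hx
    · intro i l hil hl q hq x hx
      by_cases hln : l = n
      · subst hln
        exact hS.di hd hgn (hnot i hil q hq) hx
      · have hl' : l < n := by omega
        rw [hB.F (hnot i (by omega) q hq) (hnot l hl' x hx)]
        exact hX i l hil hl' q hq x hx

end Vale.Agent.P235T3
end
end
end

section

section

section

namespace Vale.Agent.P235T3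

/-- Recursive structure hanging below a triple: a vertex `z` attached to the triple, the structures
below the three faces of the bag `(z; T)`, and the rest of what hangs below the triple. -/
inductive Tr (V : Type) : Type
  | nil : Tr V
  | node (z : V) (sub : Fin 3 → Tr V) (rest : Tr V) : Tr V

variable {V : Type} [DecidableEq V]

/-- vertices of the structure -/
def Tr.verts : Tr V → Finset V
  | .nil => ∅
  | .node z sub rest => insert z ((Finset.univ.biUnion fun k => (sub k).verts) ∪ rest.verts)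

/-- conditions at a node -/
structure NodeOk (d : V → V → ℝ) (T : Fin 3 → V) (z : V) (U : Fin 3 → Finset V)
    (R : Finset V) : Prop where
  Tz : ∀ j, T j ≠ z
  zU : ∀ k, z ∉ U k
  zR : z ∉ R
  TU : ∀ j k, T j ∉ U k
  TR : ∀ j, T j ∉ R
  UU : ∀ k l, k ≠ l → Disjoint (U k) (U l)
  UR : ∀ k, Disjoint (U k) R
  sepU : ∀ k, ∀ x ∈ U k, ∀ y, (y = T k ∨ y ∈ R ∨ ∃ l, l ≠ k ∧ y ∈ U l) →
    ∃ i, d x (face T z k i) + d (face T z k i) y ≤ d x y
  sepR : ∀ x ∈ R, ∀ y, (y = z ∨ ∃ k, y ∈ U k) → ∃ i, d x (T i) + d (T i) y ≤ d x y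

/-- The structure is compatible with the metric. -/
def Ok (d : V → V → ℝ) : (Fin 3 → V) → Tr V → Prop
  | _, .nil => True
  | T, .node z sub rest => NodeOk d T z (fun k => (sub k).verts) rest.verts ∧
      (∀ k, Ok d (face T z k) (sub k)) ∧ Ok d T rest

theorem good_pair {d : V → V → ℝ} (hd : PM d) {M : Loc} {μ : CF V} {T : Fin 3 → V}
    (hg : M.Good (μ.wt T) (lg d T)) (i j : Fin 3) :
    μ.F (T i) (T j) ≤ M.cu * d (T i) (T j) ∧ M.c0 * d (T i) (T j) ≤ μ.F (T i) (T j) := by
  by_cases hij : i = j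
  · subst hij
    rw [μ.F_self, hd.self]
    simp
  · have hc : (∃ k : Fin 3, i = k + 1 ∧ j = k + 2) ∨ (∃ k : Fin 3, j = k + 1 ∧ i = k + 2) := by
      revert hij
      revert i j
      decide
    rcases hc with ⟨k, rfl, rfl⟩ | ⟨k, rfl, rfl⟩
    · rw [μ.F_pair T k, ← lg_pair hd T k]
      exact ⟨M.hi _ _ hg k, M.lo _ _ hg k⟩
    · rw [μ.F_symm, μ.F_pair T k, hd.symm, ← lg_pair hd T k]
      exact ⟨M.hi _ _ hg k, M.lo _ _ hg k⟩

theorem tri_case (j k : Fin 3) : j = k ∨ j = k + 1 ∨ j = k + 2 := by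
  revert j k
  decide

/-- constants -/
noncomputable def K2 (M : Loc) : ℝ := M.C + (1 + M.cu * M.C) / M.c0
noncomputable def K3 (M : Loc) : ℝ := M.C + (1 + M.cu * M.C) * K2 M

theorem K2_nonneg (M : Loc) : 0 ≤ K2 M := by
  have h1 := M.C_nonneg
  have h2 := M.c0_pos
  have h3 := M.cu_nonneg
  unfold K2
  positivity

/-- portal estimate -/
theorem portal {d : V → V → ℝ} (hd : PM d) {M : Loc} {ν : CF V} {K' : ℝ} (hK' : 0 ≤ K')
    {x y i : V} (h1 : ν.F x i ≤ M.cu * d x i) (h2 : d i y ≤ K' * ν.F i y)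
    (h3 : d x i ≤ M.C * ν.F x y) : d x y ≤ (M.C + (1 + M.cu * M.C) * K') * ν.F x y := by
  have h4 := hd.tri x i y
  have h5 := ν.F_tri i x y
  have h6 := ν.F_symm i x
  have h8 := mul_le_mul_of_nonneg_left h3 M.cu_nonneg
  have h7 : K' * ν.F i y ≤ K' * ((1 + M.cu * M.C) * ν.F x y) := by
    apply mul_le_mul_of_nonneg_left _ hK'
    linarith only [h1, h5, h6, h8]
  linarith only [h2, h3, h4, h7]

theorem claim {d : V → V → ℝ} (hd : PM d) (M : Loc) (t : Tr V) : ∀ (T : Fin 3 → V) (μ : CF V),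
    Ok d T t → (∀ j, T j ∉ t.verts) → M.Good (μ.wt T) (lg d T) →
    ∃ ν, AgreeOff μ ν t.verts ∧ Res d M (K3 M) μ ν T t.verts := by
  induction t with
  | nil =>
    intro T μ _ _ _
    refine ⟨μ, AgreeOff.refl μ _, ?_, ?_, ?_, ?_⟩ <;> simp [Tr.verts]
  | node z sub rest ihs ihr =>
    intro T μ hOk hTW hg
    obtain ⟨hN, hOs, hOr⟩ := hOk
    -- the law
    have hw : ∀ k, 0 ≤ μ.wt T k := μ.wt_nonneg T
    obtain ⟨X, mz, hX, hm, hG, hPot⟩ := M.step (μ.wt T) (lg d T) hg hw (lg_nonneg hd T)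
      (fun i => d (T i) z) (fun i => hd.nonneg _ _)
      (by
        intro k
        rw [lg_pair hd]
        have h1 := hd.tri (T (k + 1)) (T (k + 2)) z
        show d (T (k + 1)) z ≤ d (T (k + 2)) z + _
        linarith)
      (by
        intro k
        rw [lg_pair hd]
        have h1 := hd.tri (T (k + 2)) (T (k + 1)) z
        have h2 := hd.symm (T (k + 2)) (T (k + 1))
        show d (T (k + 2)) z ≤ d (T (k + 1)) z + _
        linarith only [h1, h2])
      (by
        intro k
        rw [lg_pair hd]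
        have h1 := hd.tri (T (k + 1)) z (T (k + 2))
        have h2 := hd.symm z (T (k + 2))
        show _ ≤ d (T (k + 1)) z + d (T (k + 2)) z
        linarith only [h1, h2])
    set s : Fin 3 → ℝ := fun k => X k / μ.wt T k with hs_def
    have hs : ∀ k, 0 ≤ s k ∧ s k ≤ 1 := fun k =>
      ⟨div_nonneg (hX k).1 (hw k), div_le_one_of_le₀ (hX k).2 (hw k)⟩
    have hsX : (fun k => s k * μ.wt T k) = X := by
      funext k
      rcases eq_or_lt_of_le (hw k) with h | h
      · have h1 := (hX k).1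
        have h2 := (hX k).2
        rw [← h] at h2
        rw [hs_def]
        simp only
        rw [← h]
        simp only [mul_zero]
        linarith only [h2, h1]
      · rw [hs_def]
        simp only
        (clear * - h; field_simp)
    set μ0 : CF V := μ.att T z s mz hs hm with hμ0
    have hA0 : AgreeOff μ μ0 {z} := by
      intro φ h1 h2
      apply CF.att_out φ _ h2
      intro χ χ' h3
      apply h1
      intro v hv
      exact h3 v (by simpa using hv)
    have hwf : ∀ k, μ0.wt (face T z k) = wf (μ.wt T) X mz k := by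
      intro k
      rw [hμ0, CF.wt_face hN.Tz k, hsX]
    have hGf : ∀ k, M.Good (μ0.wt (face T z k)) (lg d (face T z k)) := by
      intro k
      rw [hwf, lg_face hd]
      exact hG k
    have hTz' : ∀ j, T j ∉ ({z} : Finset V) := by
      intro j
      simpa using hN.Tz j
    have hwT : μ0.wt T = μ.wt T := hA0.wt hTz'
    have hGT : M.Good (μ0.wt T) (lg d T) := by rw [hwT]; exact hg
    -- blocks
    set Tb : ℕ → Fin 3 → V := fun i => if h : i < 3 then face T z ⟨i, h⟩ else T with hTb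
    set Ub : ℕ → Finset V := fun i => if h : i < 3 then (sub ⟨i, h⟩).verts else
      if i = 3 then rest.verts else ∅ with hUb
    have hTb3 : ∀ i, 3 ≤ i → Tb i = T := by
      intro i hi
      rw [hTb]
      simp only
      rw [dif_neg (by omega)]
    have hTbk : ∀ k : Fin 3, Tb k.1 = face T z k := by
      intro k
      rw [hTb]
      simp only
      rw [dif_pos k.2]
    have hUbk : ∀ k : Fin 3, Ub k.1 = (sub k).verts := by
      intro k
      rw [hUb]
      simp only
      rw [dif_pos k.2]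
    have hUb3 : Ub 3 = rest.verts := by
      rw [hUb]
      simp
    have hUb4 : ∀ i, 4 ≤ i → Ub i = ∅ := by
      intro i hi
      rw [hUb]
      simp only
      rw [dif_neg (by omega), if_neg (by omega)]
    have hcase : ∀ i : ℕ, (∃ k : Fin 3, i = k.1) ∨ i = 3 ∨ 4 ≤ i := by
      intro i
      by_cases h : i < 3
      · exact Or.inl ⟨⟨i, h⟩, rfl⟩
      · right
        omega
    -- bag
    set Q : Finset V := {z, T 0, T 1, T 2} with hQ
    have hQz : z ∈ Q := by rw [hQ]; simp
    have hQT : ∀ j, T j ∈ Q := by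
      intro j
      rw [hQ]
      fin_cases j <;> simp
    have hQc : ∀ v ∈ Q, v = z ∨ ∃ j, v = T j := by
      intro v hv
      rw [hQ] at hv
      simp only [Finset.mem_insert, Finset.mem_singleton] at hv
      rcases hv with h | h | h | h
      · exact Or.inl h
      · exact Or.inr ⟨0, h⟩
      · exact Or.inr ⟨1, h⟩
      · exact Or.inr ⟨2, h⟩
    have hfQ : ∀ k j, face T z k j ∈ Q := by
      intro k j
      fin_cases j
      · exact hQz
      · exact hQT _
      · exact hQT _
    have hTbQ : ∀ i j, Tb i j ∈ Q := by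
      intro i j
      by_cases h : i < 3
      · have := hTbk ⟨i, h⟩
        simp only at this
        rw [this]
        exact hfQ _ _
      · rw [hTb3 i (by omega)]
        exact hQT j
    have hQU : ∀ v ∈ Q, ∀ i, v ∉ Ub i := by
      intro v hv i hvi
      rcases hcase i with ⟨k, rfl⟩ | rfl | h
      · rw [hUbk] at hvi
        rcases hQc v hv with rfl | ⟨j, rfl⟩
        · exact hN.zU k hvi
        · exact hN.TU j k hvi
      · rw [hUb3] at hvi
        rcases hQc v hv with rfl | ⟨j, rfl⟩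
        · exact hN.zR hvi
        · exact hN.TR j hvi
      · rw [hUb4 i h] at hvi
        simp at hvi
    have hUU : ∀ i l, i ≠ l → Disjoint (Ub i) (Ub l) := by
      intro i l hil
      rcases hcase i with ⟨k, rfl⟩ | rfl | h
      · rcases hcase l with ⟨k', rfl⟩ | rfl | h'
        · rw [hUbk, hUbk]
          exact hN.UU k k' (by rintro rfl; exact hil rfl)
        · rw [hUbk, hUb3]
          exact hN.UR k
        · rw [hUb4 l h']
          exact Finset.disjoint_empty_right _
      · rcases hcase l with ⟨k', rfl⟩ | rfl | h'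
        · rw [hUbk, hUb3]
          exact (hN.UR k').symm
        · exact absurd rfl hil
        · rw [hUb4 l h']
          exact Finset.disjoint_empty_right _
      · rw [hUb4 i h]
        exact Finset.disjoint_empty_left _
    -- separation by blocks
    have hsep : ∀ i, ∀ x ∈ Ub i, ∀ y, (y ∈ Q ∨ ∃ l, l ≠ i ∧ y ∈ Ub l) →
        ∃ j, d x (Tb i j) + d (Tb i j) y ≤ d x y := by
      intro i x hx y hy
      rcases hcase i with ⟨k, rfl⟩ | rfl | h
      · rw [hUbk] at hx
        rw [hTbk]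
        rcases hy with hy | ⟨l, hl, hy⟩
        · have hself : ∀ j, y = face T z k j →
              ∃ j, d x (face T z k j) + d (face T z k j) y ≤ d x y := by
            intro j hj
            refine ⟨j, ?_⟩
            rw [← hj, hd.self]
            linarith only []
          rcases hQc y hy with h1 | ⟨j, h1⟩
          · exact hself 0 h1
          · have h2 := tri_case j k
            rcases h2 with h2 | h2 | h2
            · exact hN.sepU k x hx y (Or.inl (by rw [h1, h2]))
            · exact hself 1 (by rw [h1, h2]; rfl)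
            · exact hself 2 (by rw [h1, h2]; rfl)
        · rcases hcase l with ⟨k', rfl⟩ | rfl | h'
          · rw [hUbk] at hy
            exact hN.sepU k x hx y (Or.inr (Or.inr ⟨k', by rintro rfl; exact hl rfl, hy⟩))
          · rw [hUb3] at hy
            exact hN.sepU k x hx y (Or.inr (Or.inl hy))
          · rw [hUb4 l h'] at hy
            simp at hy
      · rw [hUb3] at hx
        rw [hTb3 3 le_rfl]
        rcases hy with hy | ⟨l, hl, hy⟩
        · rcases hQc y hy with h1 | ⟨j, h1⟩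
          · exact hN.sepR x hx y (Or.inl h1)
          · refine ⟨j, ?_⟩
            rw [← h1, hd.self]
            linarith only []
        · rcases hcase l with ⟨k', rfl⟩ | rfl | h'
          · rw [hUbk] at hy
            exact hN.sepR x hx y (Or.inr ⟨k', hy⟩)
          · exact absurd rfl hl
          · rw [hUb4 l h'] at hy
            simp at hy
      · rw [hUb4 i h] at hx
        simp at hx
    have hgb : ∀ i, i < 4 → M.Good (μ0.wt (Tb i)) (lg d (Tb i)) := by
      intro i _
      rcases hcase i with ⟨k, rfl⟩ | rfl | h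
      · rw [hTbk]
        exact hGf k
      · rw [hTb3 3 le_rfl]
        exact hGT
      · omega
    obtain ⟨ν, hA, hR, hX'⟩ := multi hd M (K3 M) 4 Tb Ub μ0
      (fun i l j => hQU _ (hTbQ i j) l) hUU hgb
      (by
        intro i hi μ' hg'
        rcases hcase i with ⟨k, rfl⟩ | rfl | h
        · rw [hTbk] at hg' ⊢
          rw [hUbk]
          apply ihs k (face T z k) μ' (hOs k) _ hg'
          intro j
          have := hQU _ (hfQ k j) k.1
          rwa [hUbk] at this
        · rw [hTb3 3 le_rfl] at hg' ⊢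
          rw [hUb3]
          exact ihr T μ' hOr hN.TR hg'
        · omega) 4 le_rfl
    set W : Finset V := (Tr.node z sub rest).verts with hW
    set B : Finset V := (Finset.range 4).biUnion Ub with hB
    have hWB : W = insert z B := by
      rw [hW, hB, Tr.verts]
      congr 1
      ext x
      simp only [Finset.mem_union, Finset.mem_biUnion, Finset.mem_univ, true_and,
        Finset.mem_range]
      constructor
      · rintro (⟨k, hk⟩ | hx)
        · exact ⟨k.1, by omega, by rw [hUbk]; exact hk⟩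
        · exact ⟨3, by omega, by rw [hUb3]; exact hx⟩
      · rintro ⟨i, hi, hx⟩
        rcases hcase i with ⟨k, rfl⟩ | rfl | h
        · left
          exact ⟨k, by rw [hUbk] at hx; exact hx⟩
        · right
          rw [hUb3] at hx
          exact hx
        · omega
    have hWc : ∀ x ∈ W, x = z ∨ ∃ i, i < 4 ∧ x ∈ Ub i := by
      intro x hx
      rw [hWB, Finset.mem_insert, hB, Finset.mem_biUnion] at hx
      rcases hx with h | ⟨i, hi, hx⟩
      · exact Or.inl h
      · exact Or.inr ⟨i, Finset.mem_range.mp hi, hx⟩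
    have hQB : ∀ v ∈ Q, v ∉ B := by
      intro v hv hvB
      rw [hB, Finset.mem_biUnion] at hvB
      obtain ⟨i, _, hi⟩ := hvB
      exact hQU v hv i hi
    -- bag estimates
    have hbag : ∀ u ∈ Q, ∀ v ∈ Q, ν.F u v ≤ M.cu * d u v ∧ M.c0 * d u v ≤ ν.F u v := by
      intro u hu v hv
      rw [hA.F (hQB u hu) (hQB v hv)]
      have hzT : ∀ j, μ0.F z (T j) ≤ M.cu * d z (T j) ∧ M.c0 * d z (T j) ≤ μ0.F z (T j) := by
        intro j
        have h1 := good_pair hd (hGf (j + 2)) 0 1
        have h2 : face T z (j + 2) 1 = T j := by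
          show T (j + 2 + 1) = T j
          rw [rot21]
        rw [h2] at h1
        exact h1
      rcases hQc u hu with rfl | ⟨i, rfl⟩
      · rcases hQc v hv with rfl | ⟨j, rfl⟩
        · rw [μ0.F_self, hd.self]
          simp
        · exact hzT j
      · rcases hQc v hv with rfl | ⟨j, rfl⟩
        · rw [μ0.F_symm, hd.symm]
          exact hzT i
        · exact good_pair hd hGT i j
    have hubQ : ∀ i, i < 4 → ∀ x ∈ Ub i, ∀ v ∈ Q, ν.F x v ≤ M.cu * d x v := by
      intro i hi x hx v hv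
      obtain ⟨j, hj⟩ := hsep i x hx v (Or.inl hv)
      have h1 := (hR i hi).1 x hx j
      have h2 := (hbag _ (hTbQ i j) v hv).1
      have h3 := ν.F_tri x (Tb i j) v
      have h4 := mul_le_mul_of_nonneg_left hj M.cu_nonneg
      linarith only [h1, h2, h3, h4]
    have hubX : ∀ i, i < 4 → ∀ l, l < 4 → ∀ x ∈ Ub i, ∀ y ∈ Ub l, ν.F x y ≤ M.cu * d x y := by
      intro i hi l hl x hx y hy
      by_cases hil : i = l
      · subst hil
        exact (hR i hi).2.1 x hx y hy
      · obtain ⟨j, hj⟩ := hsep i x hx y (Or.inr ⟨l, fun h => hil h.symm, hy⟩)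
        have h1 := (hR i hi).1 x hx j
        have h2 := hubQ l hl y hy _ (hTbQ i j)
        have h3 := ν.F_tri x (Tb i j) y
        have h4 := ν.F_symm (Tb i j) y
        have h6 := mul_le_mul_of_nonneg_left hj M.cu_nonneg
        rw [hd.symm y (Tb i j)] at h2
        linarith only [h1, h2, h3, h4, h6]
    have hdiQ : ∀ i, i < 4 → ∀ x ∈ Ub i, ∀ v ∈ Q, di d (Tb i) x ≤ M.C * ν.F v x := by
      intro i hi x hx v hv
      obtain ⟨p, hp1, hp2⟩ := exists_p μ0 (Tb i) v
      refine (hR i hi).2.2.2 v (hQB v hv) (di d (Tb i)) (di_lip hd _) p hp1 hp2 ?_ x hx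
      intro k
      rw [di_mem hd]
      exact M.Φ_nonneg _ _ (hgb i hi) _ _ (μ0.Om_nonneg _ _) hp1 k
    have hlbQ : ∀ i, i < 4 → ∀ x ∈ Ub i, ∀ v ∈ Q, d x v ≤ K2 M * ν.F x v := by
      intro i hi x hx v hv
      obtain ⟨j, hj⟩ := di_ex (d := d) (Tb i) x
      have h1 := hdiQ i hi x hx v hv
      rw [hj, ν.F_symm] at h1
      have h2 := (hbag _ (hTbQ i j) v hv).2
      have h3 : d (Tb i j) v ≤ (1 / M.c0) * ν.F (Tb i j) v := by
        have := M.c0_pos
        rw [div_mul_eq_mul_div, one_mul, le_div_iff₀ this]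
        linarith only [h2]
      have h4 := portal hd (M := M) (K' := 1 / M.c0) (by have := M.c0_pos; (clear * - this; positivity))
        ((hR i hi).1 x hx j) h3 h1
      have h5 : M.C + (1 + M.cu * M.C) * (1 / M.c0) = K2 M := by
        unfold K2
        ring
      rwa [h5] at h4
    have hK23 : K2 M ≤ K3 M := by
      have h1 := M.C_nonneg
      have h2 := K2_nonneg M
      have h3 := mul_nonneg (mul_nonneg M.cu_nonneg h1) h2
      unfold K3
      linarith only [h1, h3]
    have hlbQ3 : ∀ i, i < 4 → ∀ x ∈ Ub i, ∀ v ∈ Q, d x v ≤ K3 M * ν.F x v := by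
      intro i hi x hx v hv
      have h1 := hlbQ i hi x hx v hv
      have h2 := ν.F_nonneg x v
      linarith only [mul_nonneg (sub_nonneg.2 hK23) (sub_nonneg.2 h2), h1]
    have hlbX : ∀ i l, i < l → l < 4 → ∀ x ∈ Ub i, ∀ y ∈ Ub l, d x y ≤ K3 M * ν.F x y := by
      intro i l hil hl x hx y hy
      have h1 := hX' i l hil hl x hx y hy
      obtain ⟨j, hj⟩ := di_ex (d := d) (Tb l) y
      rw [hj, ν.F_symm] at h1
      have h2 := hlbQ i (by omega) x hx _ (hTbQ l j)
      rw [hd.symm, ν.F_symm] at h2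
      have h3 := portal hd (M := M) (K' := K2 M) (K2_nonneg M) ((hR l hl).1 y hy j) h2 h1
      rw [hd.symm, ν.F_symm]
      exact h3
    refine ⟨ν, ?_, ?_, ?_, ?_, ?_⟩
    · refine (hA0.trans hA).mono ?_
      rw [hWB]
      intro x hx
      simpa using hx
    · intro x hx j
      rcases hWc x hx with rfl | ⟨i, hi, hxi⟩
      · exact (hbag x hQz _ (hQT j)).1
      · exact hubQ i hi x hxi _ (hQT j)
    · intro x hx y hy
      rcases hWc x hx with rfl | ⟨i, hi, hxi⟩
      · rcases hWc y hy with rfl | ⟨l, hl, hyl⟩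
        · rw [ν.F_self, hd.self]
          simp
        · rw [ν.F_symm, hd.symm]
          exact hubQ l hl y hyl x hQz
      · rcases hWc y hy with rfl | ⟨l, hl, hyl⟩
        · exact hubQ i hi x hxi y hQz
        · exact hubX i hi l hl x hxi y hyl
    · intro q hq D hD p hp1 hp2 hp3 x hx
      rw [hWB, Finset.mem_insert, not_or] at hq
      obtain ⟨hqz, hqB⟩ := hq
      have hO0 := μ.Om_nonneg T q
      have hPms : ∀ k, μ0.Pm (face T z k) q = Pf (μ.wt T) X p k := by
        intro k
        rw [hμ0, CF.Pm_face hN.Tz hqz hp2 k, hsX]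
      have hOms : ∀ k, μ0.Om (face T z k) q = Of (μ.wt T) X (μ.Om T q) p k := by
        intro k
        rw [hμ0, CF.Om_face hN.Tz hqz hp2 k, hsX]
      have hface : ∀ k, ∃ p' : Fin 3 → ℝ, (∀ j, 0 ≤ p' j ∧ p' j ≤ 1) ∧
          (∀ j, μ0.wt (face T z k) j * p' j = μ0.Pm (face T z k) q j) ∧
          ∀ v, D (face T z k v) ≤ M.Φ (μ0.wt (face T z k)) (lg d (face T z k))
            (μ0.Om (face T z k) q) p' v := by
        intro k
        obtain ⟨p', h1, h2, h3⟩ := hPot (μ.Om T q) p hO0 hp1 k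
        refine ⟨p', h1, ?_, ?_⟩
        · intro j
          rw [hwf, hPms]
          exact h2 j
        · intro v
          rw [hwf, hOms, lg_face hd]
          apply h3
          intro i
          rw [dface_eq hd]
          have h4 := hp3 i
          have h5 := hD (face T z k v) (T i)
          have h6 := hd.symm (face T z k v) (T i)
          linarith only [h4, h5, h6]
      rcases hWc x hx with rfl | ⟨i, hi, hxi⟩
      · obtain ⟨p', h1, h2, h3⟩ := hface 0
        have h4 := h3 0
        have h5 := M.Φ_le _ _ (hGf 0) _ _ (μ0.Om_nonneg (face T x 0) q) h1 0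
        have h6 := μ0.F_vantage (face T x 0) q 0
        rw [hA.F hqB (hQB x hQz)]
        have h7 : face T x 0 0 = x := rfl
        rw [h7] at h4 h6
        rw [h6]
        refine (h4.trans h5).trans (le_of_eq ?_)
        rw [← h2 0, ← h2 (0 + 1), ← h2 (0 + 2)]
        ring
      · rcases hcase i with ⟨k, rfl⟩ | rfl | h
        · obtain ⟨p', h1, h2, h3⟩ := hface k
          have h4 := (hR k.1 hi).2.2.2 q hqB D hD p' h1
          rw [hTbk] at h4
          exact h4 h2 h3 x hxi
        · have h4 := (hR 3 hi).2.2.2 q hqB D hD p hp1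
          rw [hTb3 3 le_rfl, hwT, hA0.Pm hTz' (by simpa using hqz),
            hA0.Om hTz' (by simpa using hqz)] at h4
          exact h4 hp2 hp3 x hxi
        · omega
    · intro x hx y hy
      rcases hWc x hx with rfl | ⟨i, hi, hxi⟩
      · rcases hWc y hy with rfl | ⟨l, hl, hyl⟩
        · rw [ν.F_self, hd.self]
          simp
        · rw [ν.F_symm, hd.symm]
          exact hlbQ3 l hl y hyl x hQz
      · rcases hWc y hy with rfl | ⟨l, hl, hyl⟩
        · exact hlbQ3 i hi x hxi y hQz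
        · rcases lt_trichotomy i l with h | h | h
          · exact hlbX i l h hl x hxi y hyl
          · subst h
            exact (hR i hi).2.2.1 x hxi y hyl
          · rw [ν.F_symm, hd.symm]
            exact hlbX l i h hi y hyl x hxi

end Vale.Agent.P235T3
end
end
end

section

section

section

namespace Vale.Agent.P235T3

variable {V : Type} [DecidableEq V]

/-- `S` is contained in one of the bags of the structure. -/
def InBag (S : Finset V) : (Fin 3 → V) → Tr V → Prop
  | T, .nil => ∀ x ∈ S, ∃ j, x = T j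
  | T, .node z sub rest => (∀ x ∈ S, x = z ∨ ∃ j, x = T j) ∨ (∃ k, InBag S (face T z k) (sub k)) ∨
      InBag S T rest

/-- vertices of the whole structure -/
def All (T : Fin 3 → V) (t : Tr V) (x : V) : Prop := (∃ j, x = T j) ∨ x ∈ t.verts

theorem inBag_of_sub {S : Finset V} {T : Fin 3 → V} (h : ∀ x ∈ S, ∃ j, x = T j) (t : Tr V) :
    InBag S T t := by
  cases t with
  | nil => exact h
  | node z sub rest => exact Or.inl (fun x hx => Or.inr (h x hx))

theorem mem_verts_node {z : V} {sub : Fin 3 → Tr V} {rest : Tr V} {x : V} :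
    x ∈ (Tr.node z sub rest).verts ↔ x = z ∨ (∃ k, x ∈ (sub k).verts) ∨ x ∈ rest.verts := by
  simp only [Tr.verts, Finset.mem_insert, Finset.mem_union, Finset.mem_biUnion, Finset.mem_univ, true_and]

theorem face_cases {T : Fin 3 → V} {z : V} {k j : Fin 3} :
    face T z k j = z ∨ ∃ i, face T z k j = T i ∧ i ≠ k := by
  fin_cases j
  · exact Or.inl rfl
  · refine Or.inr ⟨k + 1, rfl, ?_⟩
    revert k
    decide
  · refine Or.inr ⟨k + 2, rfl, ?_⟩
    revert k
    decide

theorem in_face_of_ne {T : Fin 3 → V} {z : V} {k i : Fin 3} (h : i ≠ k) :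
    ∃ j, T i = face T z k j := by
  rcases tri_case i k with h1 | h1 | h1
  · exact absurd h1 h
  · exact ⟨1, by rw [h1]; rfl⟩
  · exact ⟨2, by rw [h1]; rfl⟩

theorem z_in_face (T : Fin 3 → V) (z : V) (k : Fin 3) : ∃ j, z = face T z k j := ⟨0, rfl⟩

/-- `S` lies inside the vertex set. -/
theorem inBag_all {S : Finset V} {t : Tr V} : ∀ {T : Fin 3 → V}, InBag S T t → ∀ x ∈ S, All T t x := by
  induction t with
  | nil =>
    intro T h x hx
    exact Or.inl (h x hx)
  | node z sub rest ihs ihr =>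
    intro T h x hx
    rcases h with h | ⟨k, h⟩ | h
    · rcases h x hx with h1 | h1
      · exact Or.inr (mem_verts_node.mpr (Or.inl h1))
      · exact Or.inl h1
    · rcases ihs k h x hx with ⟨j, h1⟩ | h1
      · rcases face_cases (T := T) (z := z) (k := k) (j := j) with h2 | ⟨i, h2, _⟩
        · exact Or.inr (mem_verts_node.mpr (Or.inl (h1.trans h2)))
        · exact Or.inl ⟨i, h1.trans h2⟩
      · exact Or.inr (mem_verts_node.mpr (Or.inr (Or.inl ⟨k, h1⟩)))
    · rcases ihr h x hx with h1 | h1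
      · exact Or.inl h1
      · exact Or.inr (mem_verts_node.mpr (Or.inr (Or.inr h1)))

/-- transfer of portals -/
theorem portal_trans {d : V → V → ℝ} (hd : PM d) {z y i i' : V} (h1 : d z i + d i y ≤ d z y)
    (h2 : d i i' + d i' y ≤ d i y) : d z i' + d i' y ≤ d z y := by
  have := hd.tri z i i'
  linarith only [h1, h2, this]

theorem insert_one {d : V → V → ℝ} (hd : PM d) {S : Finset V} {z : V} (hS : S.card ≤ 3)
    (t : Tr V) : ∀ (T : Fin 3 → V), Ok d T t → (∀ j, T j ∉ t.verts) → InBag S T t →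
      ¬ All T t z → (∀ y, All T t y → ∃ i ∈ S, d z i + d i y ≤ d z y) →
      ∃ t', Ok d T t' ∧ t'.verts = insert z t.verts ∧ InBag (insert z S) T t' ∧
        ∀ S', InBag S' T t → InBag S' T t' := by
  induction t with
  | nil =>
    intro T _ _ hB hz _
    refine ⟨.node z (fun _ => .nil) .nil, ?_, ?_, ?_, ?_⟩
    · refine ⟨?_, fun _ => trivial, trivial⟩
      constructor <;> simp [Tr.verts]
      intro j h
      exact hz (Or.inl ⟨j, h.symm⟩)
    · ext x
      simp [Tr.verts]
    · refine Or.inl ?_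
      intro x hx
      rcases Finset.mem_insert.mp hx with h | h
      · exact Or.inl h
      · exact Or.inr (hB x h)
    · intro S' h
      exact Or.inl (fun x hx => Or.inr (h x hx))
  | node z0 sub rest ihs ihr =>
    intro T hOk hT hB hz hsep
    obtain ⟨hN, hOs, hOr⟩ := hOk
    -- basic consequences
    have hz0 : z ≠ z0 := fun h => hz (Or.inr (mem_verts_node.mpr (Or.inl h)))
    have hzT : ∀ j, T j ≠ z := fun j h => hz (Or.inl ⟨j, h.symm⟩)
    have hzU : ∀ k, z ∉ (sub k).verts := fun k h =>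
      hz (Or.inr (mem_verts_node.mpr (Or.inr (Or.inl ⟨k, h⟩))))
    have hzR : z ∉ rest.verts := fun h => hz (Or.inr (mem_verts_node.mpr (Or.inr (Or.inr h))))
    have all_z0 : All T (.node z0 sub rest) z0 := Or.inr (mem_verts_node.mpr (Or.inl rfl))
    have all_T : ∀ j, All T (.node z0 sub rest) (T j) := fun j => Or.inl ⟨j, rfl⟩
    have all_U : ∀ k, ∀ x ∈ (sub k).verts, All T (.node z0 sub rest) x := fun k x h =>
      Or.inr (mem_verts_node.mpr (Or.inr (Or.inl ⟨k, h⟩)))
    have all_R : ∀ x ∈ rest.verts, All T (.node z0 sub rest) x := fun x h =>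
      Or.inr (mem_verts_node.mpr (Or.inr (Or.inr h)))
    have all_face : ∀ k j, All T (.node z0 sub rest) (face T z0 k j) := by
      intro k j
      rcases face_cases (T := T) (z := z0) (k := k) (j := j) with h | ⟨i, h, _⟩
      · rw [h]; exact all_z0
      · rw [h]; exact all_T i
    have hFU : ∀ k j l, face T z0 k j ∉ (sub l).verts := by
      intro k j l
      rcases face_cases (T := T) (z := z0) (k := k) (j := j) with h | ⟨i, h, _⟩
      · rw [h]; exact hN.zU l
      · rw [h]; exact hN.TU i l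
    -- case A: the new vertex goes below the face k
    have caseA : ∀ k, InBag S (face T z0 k) (sub k) → ∃ t', Ok d T t' ∧
        t'.verts = insert z (Tr.node z0 sub rest).verts ∧ InBag (insert z S) T t' ∧
        ∀ S', InBag S' T (.node z0 sub rest) → InBag S' T t' := by
      intro k hBk
      obtain ⟨t1, h1, h2, h3, h4⟩ := ihs k (face T z0 k) (hOs k) (fun j => hFU k j k) hBk (by
          rintro (⟨j, h⟩ | h)
          · rcases face_cases (T := T) (z := z0) (k := k) (j := j) with h' | ⟨i, h', _⟩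
            · exact hz0 (h.trans h')
            · exact hzT i (h.trans h').symm
          · exact hzU k h) (by
          intro y hy
          apply hsep
          rcases hy with ⟨j, h⟩ | h
          · rw [h]; exact all_face k j
          · exact all_U k y h)
      have hSk : ∀ i ∈ S, (∃ j, i = face T z0 k j) ∨ i ∈ (sub k).verts := fun i hi =>
        inBag_all hBk i hi
      set sub' : Fin 3 → Tr V := Function.update sub k t1 with hsub'
      have hk' : sub' k = t1 := by rw [hsub']; simp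
      have hl' : ∀ l, l ≠ k → sub' l = sub l := by
        intro l hl
        rw [hsub']
        simp [hl]
      have hvk : (sub' k).verts = insert z (sub k).verts := by rw [hk', h2]
      have hvl : ∀ l, l ≠ k → (sub' l).verts = (sub l).verts := fun l hl => by rw [hl' l hl]
      have hmem : ∀ l x, x ∈ (sub' l).verts ↔ (l = k ∧ x = z) ∨ x ∈ (sub l).verts := by
        intro l x
        by_cases hl : l = k
        · subst hl
          rw [hvk, Finset.mem_insert]
          simp
        · rw [hvl l hl]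
          simp [hl]
      refine ⟨.node z0 sub' rest, ⟨?_, ?_, hOr⟩, ?_, ?_, ?_⟩
      · constructor
        · exact hN.Tz
        · intro l h
          rcases (hmem l z0).mp h with ⟨_, h⟩ | h
          · exact hz0 h.symm
          · exact hN.zU l h
        · exact hN.zR
        · intro j l h
          rcases (hmem l _).mp h with ⟨_, h⟩ | h
          · exact hzT j h
          · exact hN.TU j l h
        · exact hN.TR
        · intro l l' hll
          rw [Finset.disjoint_left]
          intro x hx hx'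
          rcases (hmem l x).mp hx with ⟨hl, rfl⟩ | hx
          · rcases (hmem l' x).mp hx' with ⟨hl', _⟩ | hx'
            · exact hll (hl.trans hl'.symm)
            · exact hzU l' hx'
          · rcases (hmem l' x).mp hx' with ⟨_, rfl⟩ | hx'
            · exact hzU l hx
            · exact Finset.disjoint_left.mp (hN.UU l l' hll) hx hx'
        · intro l
          rw [Finset.disjoint_left]
          intro x hx hx'
          rcases (hmem l x).mp hx with ⟨_, rfl⟩ | hx
          · exact hzR hx'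
          · exact Finset.disjoint_left.mp (hN.UR l) hx hx'
        · intro l x hx y hy
          rcases (hmem l x).mp hx with ⟨hlk, rfl⟩ | hx
          · -- x = z, l = k
            subst hlk
            have hy' : y = T l ∨ y ∈ rest.verts ∨ ∃ m, m ≠ l ∧ y ∈ (sub m).verts := by
              rcases hy with h | h | ⟨m, hm, h⟩
              · exact Or.inl h
              · exact Or.inr (Or.inl h)
              · exact Or.inr (Or.inr ⟨m, hm, by rcases (hmem m y).mp h with ⟨h, _⟩ | h
                                                · exact absurd h hm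
                                                · exact h⟩)
            have hally : All T (.node z0 sub rest) y := by
              rcases hy' with h | h | ⟨m, _, h⟩
              · rw [h]; exact all_T l
              · exact all_R y h
              · exact all_U m y h
            obtain ⟨i, hi, hi'⟩ := hsep y hally
            rcases hSk i hi with ⟨j, hj⟩ | hiU
            · exact ⟨j, by rw [← hj]; exact hi'⟩
            · obtain ⟨j, hj⟩ := hN.sepU l i hiU y hy'
              exact ⟨j, portal_trans hd hi' hj⟩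
          · by_cases hyz : y = z
            · subst hyz
              -- then l ≠ k
              have hlk : l ≠ k := by
                rcases hy with h | h | ⟨m, hm, h⟩
                · exact absurd h.symm (hzT l)
                · exact absurd h hzR
                · rcases (hmem m y).mp h with ⟨h, _⟩ | h
                  · rw [← h]; exact hm.symm
                  · exact absurd h (hzU m)
              obtain ⟨i, hi, hi'⟩ := hsep x (all_U l x hx)
              rw [hd.symm y i, hd.symm i x, hd.symm y x] at hi'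
              have hkey : (∃ j, i = face T z0 l j) ∨ (i = T l ∨ i ∈ rest.verts ∨
                  ∃ m, m ≠ l ∧ i ∈ (sub m).verts) := by
                rcases hSk i hi with ⟨j, hj⟩ | hiU
                · rcases face_cases (T := T) (z := z0) (k := k) (j := j) with h | ⟨m, h, _⟩
                  · left
                    obtain ⟨j', hj'⟩ := z_in_face T z0 l
                    exact ⟨j', (hj.trans h).trans hj'⟩
                  · by_cases hml : m = l
                    · right; left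
                      rw [hj, h, hml]
                    · left
                      obtain ⟨j', hj'⟩ := in_face_of_ne (T := T) (z := z0) hml
                      exact ⟨j', (hj.trans h).trans hj'⟩
                · right; right; right
                  exact ⟨k, hlk.symm, hiU⟩
              rcases hkey with ⟨j, hj⟩ | hiO
              · exact ⟨j, by rw [← hj]; linarith only [hi']⟩
              · obtain ⟨j, hj⟩ := hN.sepU l x hx i hiO
                refine ⟨j, ?_⟩
                have := hd.tri (face T z0 l j) i y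
                linarith only [hi', hj, this]
            · apply hN.sepU l x hx y
              rcases hy with h | h | ⟨m, hm, h⟩
              · exact Or.inl h
              · exact Or.inr (Or.inl h)
              · exact Or.inr (Or.inr ⟨m, hm, by rcases (hmem m y).mp h with ⟨_, h⟩ | h
                                                · exact absurd h hyz
                                                · exact h⟩)
        · intro x hx y hy
          by_cases hyz : y = z
          · subst hyz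
            obtain ⟨i, hi, hi'⟩ := hsep x (all_R x hx)
            rw [hd.symm y i, hd.symm i x, hd.symm y x] at hi'
            have hkey : (∃ j, i = T j) ∨ (i = z0 ∨ ∃ m, i ∈ (sub m).verts) := by
              rcases hSk i hi with ⟨j, hj⟩ | hiU
              · rcases face_cases (T := T) (z := z0) (k := k) (j := j) with h | ⟨m, h, _⟩
                · exact Or.inr (Or.inl (hj.trans h))
                · exact Or.inl ⟨m, hj.trans h⟩
              · exact Or.inr (Or.inr ⟨k, hiU⟩)
            rcases hkey with ⟨j, hj⟩ | hiO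
            · exact ⟨j, by rw [← hj]; linarith only [hi']⟩
            · obtain ⟨j, hj⟩ := hN.sepR x hx i hiO
              refine ⟨j, ?_⟩
              have := hd.tri (T j) i y
              linarith only [hi', hj, this]
          · apply hN.sepR x hx y
            rcases hy with h | ⟨m, h⟩
            · exact Or.inl h
            · exact Or.inr ⟨m, by rcases (hmem m y).mp h with ⟨_, h⟩ | h
                                  · exact absurd h hyz
                                  · exact h⟩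
      · intro l
        by_cases hl : l = k
        · subst hl
          rw [hk']
          exact h1
        · rw [hl' l hl]
          exact hOs l
      · ext x
        rw [mem_verts_node, Finset.mem_insert, mem_verts_node]
        constructor
        · rintro (h | ⟨l, h⟩ | h)
          · exact Or.inr (Or.inl h)
          · rcases (hmem l x).mp h with ⟨_, h⟩ | h
            · exact Or.inl h
            · exact Or.inr (Or.inr (Or.inl ⟨l, h⟩))
          · exact Or.inr (Or.inr (Or.inr h))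
        · rintro (h | h | ⟨l, h⟩ | h)
          · exact Or.inr (Or.inl ⟨k, (hmem k x).mpr (Or.inl ⟨rfl, h⟩)⟩)
          · exact Or.inl h
          · exact Or.inr (Or.inl ⟨l, (hmem l x).mpr (Or.inr h)⟩)
          · exact Or.inr (Or.inr h)
      · refine Or.inr (Or.inl ⟨k, ?_⟩)
        rw [hk']
        exact h3
      · intro S' hS'
        rcases hS' with h | ⟨l, h⟩ | h
        · exact Or.inl h
        · by_cases hl : l = k
          · subst hl
            refine Or.inr (Or.inl ⟨l, ?_⟩)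
            rw [hk']
            exact h4 S' h
          · refine Or.inr (Or.inl ⟨l, ?_⟩)
            rw [hl' l hl]
            exact h
        · exact Or.inr (Or.inr h)
    -- case B: the new vertex goes to the rest
    have caseB : InBag S T rest → ∃ t', Ok d T t' ∧
        t'.verts = insert z (Tr.node z0 sub rest).verts ∧ InBag (insert z S) T t' ∧
        ∀ S', InBag S' T (.node z0 sub rest) → InBag S' T t' := by
      intro hBr
      obtain ⟨t1, h1, h2, h3, h4⟩ := ihr T hOr hN.TR hBr (by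
          rintro (⟨j, h⟩ | h)
          · exact hzT j h.symm
          · exact hzR h) (by
          intro y hy
          apply hsep
          rcases hy with ⟨j, h⟩ | h
          · rw [h]; exact all_T j
          · exact all_R y h)
      have hSr : ∀ i ∈ S, (∃ j, i = T j) ∨ i ∈ rest.verts := fun i hi => inBag_all hBr i hi
      have hmem : ∀ x, x ∈ t1.verts ↔ x = z ∨ x ∈ rest.verts := by
        intro x
        rw [h2, Finset.mem_insert]
      refine ⟨.node z0 sub t1, ⟨?_, hOs, h1⟩, ?_, ?_, ?_⟩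
      · constructor
        · exact hN.Tz
        · exact hN.zU
        · intro h
          rcases (hmem z0).mp h with h | h
          · exact hz0 h.symm
          · exact hN.zR h
        · exact hN.TU
        · intro j h
          rcases (hmem _).mp h with h | h
          · exact hzT j h
          · exact hN.TR j h
        · exact hN.UU
        · intro l
          rw [Finset.disjoint_left]
          intro x hx hx'
          rcases (hmem x).mp hx' with rfl | hx'
          · exact hzU l hx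
          · exact Finset.disjoint_left.mp (hN.UR l) hx hx'
        · intro l x hx y hy
          by_cases hyz : y = z
          · subst hyz
            obtain ⟨i, hi, hi'⟩ := hsep x (all_U l x hx)
            rw [hd.symm y i, hd.symm i x, hd.symm y x] at hi'
            have hkey : (∃ j, i = face T z0 l j) ∨ (i = T l ∨ i ∈ rest.verts ∨
                ∃ m, m ≠ l ∧ i ∈ (sub m).verts) := by
              rcases hSr i hi with ⟨m, h⟩ | hiR
              · by_cases hml : m = l
                · right; left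
                  rw [h, hml]
                · left
                  obtain ⟨j', hj'⟩ := in_face_of_ne (T := T) (z := z0) hml
                  exact ⟨j', h.trans hj'⟩
              · exact Or.inr (Or.inr (Or.inl hiR))
            rcases hkey with ⟨j, hj⟩ | hiO
            · exact ⟨j, by rw [← hj]; linarith only [hi']⟩
            · obtain ⟨j, hj⟩ := hN.sepU l x hx i hiO
              refine ⟨j, ?_⟩
              have := hd.tri (face T z0 l j) i y
              linarith only [hi', hj, this]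
          · apply hN.sepU l x hx y
            rcases hy with h | h | ⟨m, hm, h⟩
            · exact Or.inl h
            · rcases (hmem y).mp h with h | h
              · exact absurd h hyz
              · exact Or.inr (Or.inl h)
            · exact Or.inr (Or.inr ⟨m, hm, h⟩)
        · intro x hx y hy
          have hyall : All T (.node z0 sub rest) y := by
            rcases hy with h | ⟨m, h⟩
            · rw [h]; exact all_z0
            · exact all_U m y h
          rcases (hmem x).mp hx with rfl | hx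
          · obtain ⟨i, hi, hi'⟩ := hsep y hyall
            rcases hSr i hi with ⟨j, hj⟩ | hiR
            · exact ⟨j, by rw [← hj]; exact hi'⟩
            · obtain ⟨j, hj⟩ := hN.sepR i hiR y hy
              exact ⟨j, portal_trans hd hi' hj⟩
          · exact hN.sepR x hx y hy
      · ext x
        rw [mem_verts_node, Finset.mem_insert, mem_verts_node, hmem]
        (clear * -; tauto)
      · exact Or.inr (Or.inr h3)
      · intro S' hS'
        rcases hS' with h | h | h
        · exact Or.inl h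
        · exact Or.inr (Or.inl h)
        · exact Or.inr (Or.inr (h4 S' h))
    rcases hB with hB | ⟨k, hB⟩ | hB
    · by_cases hz0S : z0 ∈ S
      · -- S inside one face
        have hex : ∃ k, ∀ x ∈ S, ∃ j, x = face T z0 k j := by
          by_contra hcon
          push Not at hcon
          have hTk : ∀ k, T k ∈ S ∧ (∀ j, T k ≠ face T z0 k j) := by
            intro k
            obtain ⟨x, hx, hxj⟩ := hcon k
            rcases hB x hx with h | ⟨j, h⟩
            · exact absurd (h.trans rfl) (hxj 0)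
            · by_cases hjk : j = k
              · subst hjk
                rw [← h]
                exact ⟨hx, hxj⟩
              · obtain ⟨j', hj'⟩ := in_face_of_ne (T := T) (z := z0) hjk
                exact absurd (h.trans hj') (hxj j')
          have hne : ∀ i k, i ≠ k → T k ≠ T i := by
            intro i k hik
            obtain ⟨j, hj⟩ := in_face_of_ne (T := T) (z := z0) hik
            rw [hj]
            exact (hTk k).2 j
          have hsubset : ({z0, T 0, T 1, T 2} : Finset V) ⊆ S := by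
            intro x hx
            simp only [Finset.mem_insert, Finset.mem_singleton] at hx
            rcases hx with rfl | rfl | rfl | rfl
            · exact hz0S
            · exact (hTk 0).1
            · exact (hTk 1).1
            · exact (hTk 2).1
          have hcard : ({z0, T 0, T 1, T 2} : Finset V).card = 4 := by
            rw [Finset.card_insert_of_notMem, Finset.card_insert_of_notMem,
              Finset.card_insert_of_notMem, Finset.card_singleton]
            · simp only [Finset.mem_singleton]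
              exact hne 2 1 (by decide)
            · simp only [Finset.mem_insert, Finset.mem_singleton, not_or]
              exact ⟨hne 1 0 (by decide), hne 2 0 (by decide)⟩
            · simp only [Finset.mem_insert, Finset.mem_singleton, not_or]
              exact ⟨(hN.Tz 0).symm, (hN.Tz 1).symm, (hN.Tz 2).symm⟩
          have := Finset.card_le_card hsubset
          omega
        obtain ⟨k, hk⟩ := hex
        exact caseA k (inBag_of_sub hk _)
      · apply caseB
        apply inBag_of_sub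
        intro x hx
        rcases hB x hx with h | h
        · exact absurd (h ▸ hx) hz0S
        · exact h
    · exact caseA k hB
    · exact caseB hB

/-- insertion of several new vertices forming a bag together with `S`. -/
theorem insert_many {d : V → V → ℝ} (hd : PM d) {S : Finset V} {T : Fin 3 → V} {t : Tr V}
    (hOk : Ok d T t) (hT : ∀ j, T j ∉ t.verts) (hB : InBag S T t) (N : Finset V) :
    (S ∪ N).card ≤ 4 → Disjoint S N → (∀ z ∈ N, ¬ All T t z) →
    (∀ z ∈ N, ∀ y, All T t y → ∃ i ∈ S, d z i + d i y ≤ d z y) →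
      ∃ t', Ok d T t' ∧ (∀ j, T j ∉ t'.verts) ∧ t'.verts = N ∪ t.verts ∧ InBag (S ∪ N) T t' ∧
        ∀ S', InBag S' T t → InBag S' T t' := by
  induction N using Finset.induction_on with
  | empty =>
    intro _ _ _ _
    exact ⟨t, hOk, hT, by simp, by simpa using hB, fun _ h => h⟩
  | insert n N hn ih =>
    intro hc hdisj hnew hsep
    have hSN : S ∪ N ⊆ S ∪ insert n N :=
      Finset.union_subset_union_right (Finset.subset_insert n N)
    have hnS : n ∉ S := fun h => Finset.disjoint_left.mp hdisj h (Finset.mem_insert_self n N)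
    obtain ⟨t1, h1, h2, h3, h4, h5⟩ := ih ((Finset.card_le_card hSN).trans hc)
      (Finset.disjoint_of_subset_right (Finset.subset_insert n N) hdisj)
      (fun z hz => hnew z (Finset.mem_insert_of_mem hz))
      (fun z hz => hsep z (Finset.mem_insert_of_mem hz))
    have hcard : (S ∪ N).card ≤ 3 := by
      have h6 : (S ∪ insert n N) = insert n (S ∪ N) := by
        ext x
        simp only [Finset.mem_union, Finset.mem_insert]
        (clear * - ih; tauto)
      rw [h6, Finset.card_insert_of_notMem] at hc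
      · omega
      · simp only [Finset.mem_union, not_or]
        exact ⟨hnS, hn⟩
    have hall : ∀ y, All T t1 y ↔ (All T t y ∨ y ∈ N) := by
      intro y
      unfold All
      rw [h3, Finset.mem_union]
      (clear * - ih hcard; tauto)
    have hnn : ¬ All T t1 n := by
      rw [hall]
      rintro (h | h)
      · exact hnew n (Finset.mem_insert_self n N) h
      · exact hn h
    obtain ⟨t2, g1, g2, g3, g4⟩ := insert_one hd hcard t1 T h1 h2 h4 hnn (by
      intro y hy
      rcases (hall y).mp hy with h | h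
      · obtain ⟨i, hi, hi'⟩ := hsep n (Finset.mem_insert_self n N) y h
        exact ⟨i, Finset.mem_union_left _ hi, hi'⟩
      · refine ⟨y, Finset.mem_union_right _ h, ?_⟩
        rw [hd.self]
        linarith only [])
    refine ⟨t2, g1, ?_, ?_, ?_, fun S' h => g4 S' (h5 S' h)⟩
    · intro j h
      rw [g2, Finset.mem_insert] at h
      rcases h with h | h
      · exact hnn (Or.inl ⟨j, h.symm⟩)
      · exact h2 j h
    · rw [g2, h3]
      ext x
      simp only [Finset.mem_union, Finset.mem_insert]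
      (clear * - ih; tauto)
    · have h6 : (S ∪ insert n N) = insert n (S ∪ N) := by
        ext x
        simp only [Finset.mem_union, Finset.mem_insert]
        (clear * - ih; tauto)
      rw [h6]
      exact g3

end Vale.Agent.P235T3
end
end
end

section

section

section

namespace Vale.Agent.P235

/-- `d` is a metric. -/
structure IsMet {V : Type} (d : V → V → ℝ) : Prop where
  self : ∀ x, d x x = 0
  pos : ∀ x y, x ≠ y → 0 < d x y
  symm : ∀ x y, d x y = d y x
  tri : ∀ x y z, d x z ≤ d x y + d y z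

/-- `d` is generated by the edges of `G` (dual form of being a path metric of `G`). -/
def Gen {V : Type} (G : SimpleGraph V) (d : V → V → ℝ) : Prop :=
  ∀ f : V → ℝ, (∀ u v, G.Adj u v → |f u - f v| ≤ d u v) → ∀ x y, |f x - f y| ≤ d x y

/-- Line-Lipschitz property of a graph with constant `c`. -/
def LineLip {V : Type} (G : SimpleGraph V) (c : ℝ) : Prop :=
  ∀ ρ : V → V → ℝ, IsMet ρ → Gen G ρ →
    ∃ (ι : Type) (_ : Fintype ι) (w : ι → ℝ) (g : ι → V → ℝ),
      (∀ i, 0 ≤ w i) ∧ ∑ i, w i = 1 ∧ (∀ i x y, |g i x - g i y| ≤ ρ x y) ∧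
      ∀ x y, c * ρ x y ≤ ∑ i, w i * |g i x - g i y|

end Vale.Agent.P235
end
end
end

section

section

section

namespace Vale.Agent.P235

open Finset

/-- statement of the fan lemma -/
def FanStatement (c : ℝ) : Prop :=
  ∀ {V : Type} [Finite V] {κ : Type} (C : V → κ) (t H : V → ℝ), (∀ x, 0 ≤ H x) →
    ∃ (ι : Type) (_ : Fintype ι) (w : ι → ℝ) (g : ι → V → ℝ), (∀ i, 0 ≤ w i) ∧ ∑ i, w i = 1 ∧
      (∀ i x, |g i x| ≤ H x) ∧
      (∀ i x y, C x = C y → |g i x - g i y| ≤ max |t x - t y| |H x - H y|) ∧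
      (∀ x y, C x = C y → c * min |t x - t y| (H x + H y) ≤ ∑ i, w i * |g i x - g i y|) ∧
      (∀ x y, C x ≠ C y → c * (H x + H y) ≤ ∑ i, w i * |g i x - g i y|)

/-- statement of the barrier lemma -/
def BarrierStatement : Prop :=
  ∀ {V : Type} [Finite V] (G : SimpleGraph V) (ρ : V → V → ℝ), (∀ u v, ρ u v = ρ v u) →
    (∀ u v, G.Adj u v → 0 < ρ u v) → ∀ b : V → ℝ, ∃ φ : V → ℝ, (∀ x, φ x ≤ b x) ∧
      (∀ u v, G.Adj u v → |φ u - φ v| ≤ ρ u v) ∧
      (∀ x, ∃ z, φ z = b z ∧ ∀ f : V → ℝ, (∀ u v, G.Adj u v → |f u - f v| ≤ ρ u v) →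
        |f x - f z| ≤ φ x - φ z)

/-- statement of the transversal lemma -/
def TransversalStatement : Prop :=
  ∀ {V : Type} [Finite V] (G : SimpleGraph V) (ρ : V → V → ℝ), (∀ u v, ρ u v = ρ v u) →
    (∀ u v, G.Adj u v → 0 < ρ u v) → ∀ (W : Set V) (n : ℕ) (B : Fin n → Finset V),
    (∀ v, ∃ i, v ∈ B i) → (∀ u v, G.Adj u v → ∃ i, u ∈ B i ∧ v ∈ B i) →
    (∀ i j k, i ≤ j → j ≤ k → ∀ v, v ∈ B i → v ∈ B k → v ∈ B j) →
    ∃ (κ : Type) (C : V → κ) (t : V → ℝ) (P : Set V), P ⊆ W ∧
      (∀ u v, G.Adj u v → u ∈ W → v ∈ W → C u = C v ∧ |t u - t v| ≤ ρ u v) ∧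
      (∀ i, (∃ v ∈ W, v ∈ B i) → ∃ z ∈ P, z ∈ B i) ∧
      (∀ z ∈ P, ∀ z2 ∈ P, C z = C z2 → ∀ f : V → ℝ,
        (∀ u v, G.Adj u v → u ∈ W → v ∈ W → |f u - f v| ≤ ρ u v) → |f z - f z2| ≤ |t z - t z2|)

/-- admissible functions -/
def Adm {V : Type} (G : SimpleGraph V) (ρ : V → V → ℝ) (H f : V → ℝ) : Prop :=
  (∀ v, |f v| ≤ H v) ∧ ∀ u v, G.Adj u v → |f u - f v| ≤ ρ u v

/-- a rich family of admissible functions exists -/
def Fam {V : Type} (G : SimpleGraph V) (ρ : V → V → ℝ) (H : V → ℝ) (c : ℝ) : Prop :=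
  ∃ (ι : Type) (_ : Fintype ι) (w : ι → ℝ) (g : ι → V → ℝ),
    (∀ i, 0 ≤ w i) ∧ ∑ i, w i = 1 ∧ (∀ i, Adm G ρ H (g i)) ∧
    ∀ f, Adm G ρ H f → ∀ x y, c * |f x - f y| ≤ ∑ i, w i * |g i x - g i y|

theorem fan' {cF : ℝ} (hF : FanStatement cF) {V : Type} [Finite V] {κ : Type} (C : V → κ)
    (t H : V → ℝ) (hH : ∀ x, 0 ≤ H x) :
    ∃ (ι : Type) (_ : Fintype ι) (w : ι → ℝ) (g : ι → V → ℝ), (∀ i, 0 ≤ w i) ∧ ∑ i, w i = 1 ∧
      (∀ i x, |g i x| ≤ H x) ∧
      (∀ i x y, C x = C y → |g i x - g i y| ≤ max |t x - t y| |H x - H y|) ∧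
      (∀ x y, C x = C y → cF * min |t x - t y| (H x + H y) ≤ ∑ i, w i * |g i x - g i y|) ∧
      (∀ x y, C x ≠ C y → cF * (H x + H y) ≤ ∑ i, w i * |g i x - g i y|) ∧
      (∀ x, cF * H x ≤ ∑ i, w i * |g i x|) := by
  obtain ⟨ι, _, w, g, h1, h2, h3, h4, h5, h6⟩ := hF (V := Option V) (κ := Option κ)
    (fun x => x.map C) (fun x => x.elim 0 t) (fun x => x.elim 0 H)
    (by rintro (_ | x); exact le_rfl; exact hH x)
  refine ⟨ι, inferInstance, w, fun i x => g i (some x), h1, h2, fun i x => h3 i (some x), ?_, ?_,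
    ?_, ?_⟩
  · intro i x y hxy
    exact h4 i (some x) (some y) (by simp [hxy])
  · intro x y hxy
    exact h5 (some x) (some y) (by simp [hxy])
  · intro x y hxy
    exact h6 (some x) (some y) (by simpa using hxy)
  · intro x
    have h7 := h6 (some x) none (by simp)
    have h8 : ∀ i, g i none = 0 := by
      intro i
      have := h3 i none
      simpa only [Option.elim_none, abs_nonpos_iff] using this
    simpa only [ge_iff_le, Option.elim_some, Option.elim_none, add_zero, h8, sub_zero] using h7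

theorem adm_clamp {V : Type} {G : SimpleGraph V} {ρ : V → V → ℝ} {φ f : V → ℝ}
    (hφ0 : ∀ v, 0 ≤ φ v) (hφ : ∀ u v, G.Adj u v → |φ u - φ v| ≤ ρ u v)
    (hf : ∀ u v, G.Adj u v → |f u - f v| ≤ ρ u v) (α : ℝ) :
    Adm G ρ φ (fun v => max (-φ v) (min (φ v) (f v - α))) := by
  constructor
  · intro v
    rw [abs_le]
    refine ⟨le_max_left _ _, max_le ?_ (min_le_left _ _)⟩
    linarith only [hφ0 v]
  · intro u v huv
    refine (abs_max_sub_max_le_max _ _ _ _).trans (max_le ?_ ?_)
    · rw [neg_sub_neg, abs_sub_comm]; exact hφ u v huv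
    · refine (abs_min_sub_min_le_max _ _ _ _).trans (max_le (hφ u v huv) ?_)
      have : f u - α - (f v - α) = f u - f v := by ring
      rw [this]; exact hf u v huv

theorem clamp_diff {M a b X Y α : ℝ} (hM : 0 ≤ M) (ha : 0 ≤ a) (hb : 0 ≤ b) (hXY : X - Y = M)
    (hα : α = Y + min M b) :
    max (-a) (min a (X - α)) - max (-b) (min b (Y - α)) = min M (a + b) := by
  subst hα
  have h1 : Y - (Y + min M b) = -min M b := by ring
  have h2 : X - (Y + min M b) = M - min M b := by rw [← hXY]; ring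
  rw [h1, h2]
  rcases le_total M b with h | h
  · rw [min_eq_left h, sub_self, min_eq_right ha, max_eq_right (by linarith),
      min_eq_right (by linarith : -M ≤ b), max_eq_right (by linarith), min_eq_left (by linarith)]
    ring
  · rw [min_eq_right h, min_eq_right (by linarith : -b ≤ b), max_self]
    rw [max_eq_right (le_min (by linarith) (by linarith)), sub_neg_eq_add, min_comm, min_add]
    congr 1
    ring

/-- one induction step -/
theorem fam_step {cF ck : ℝ} (hcF : 0 < cF) (hcF1 : cF ≤ 1) (hck : 0 < ck)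
    (hF : FanStatement cF) (hBar : BarrierStatement) (hTr : TransversalStatement) {k : ℕ}
    (ih : ∀ {V : Type} [Finite V] (G : SimpleGraph V) (ρ : V → V → ℝ), (∀ u v, ρ u v = ρ v u) →
      (∀ u v, G.Adj u v → 0 < ρ u v) → ∀ (n : ℕ) (B : Fin n → Finset V),
      (∀ v, ∃ i, v ∈ B i) → (∀ u v, G.Adj u v → ∃ i, u ∈ B i ∧ v ∈ B i) →
      (∀ i j k, i ≤ j → j ≤ k → ∀ v, v ∈ B i → v ∈ B k → v ∈ B j) →
      ∀ H : V → ℝ, (∀ x, 0 ≤ H x) → (∀ u v, G.Adj u v → |H u - H v| ≤ ρ u v) →
      (∀ i, ((B i).filter (fun v => 0 < H v)).card ≤ k) → Fam G ρ H ck)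
    {V : Type} [Finite V] (G : SimpleGraph V) (ρ : V → V → ℝ) (hs : ∀ u v, ρ u v = ρ v u)
    (hp : ∀ u v, G.Adj u v → 0 < ρ u v) (n : ℕ) (B : Fin n → Finset V)
    (h1 : ∀ v, ∃ i, v ∈ B i) (h2 : ∀ u v, G.Adj u v → ∃ i, u ∈ B i ∧ v ∈ B i)
    (h3 : ∀ i j k, i ≤ j → j ≤ k → ∀ v, v ∈ B i → v ∈ B k → v ∈ B j)
    (H : V → ℝ) (hH : ∀ x, 0 ≤ H x) (hHl : ∀ u v, G.Adj u v → |H u - H v| ≤ ρ u v)
    (hcard : ∀ i, ((B i).filter (fun v => 0 < H v)).card ≤ k + 1) :
    Fam G ρ H ((1 / 2) * min (ck * (cF / 4)) (cF / 2)) := by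
  classical
  obtain ⟨κ, C, t, P, hPW, hC, hhit, htight⟩ := hTr G ρ hs hp {v | 0 < H v} n B h1 h2 h3
  obtain ⟨φ, hφb, hφl, hφt⟩ := hBar G ρ hs hp (fun v => if v ∈ P then 0 else H v)
  have hb0 : ∀ v, 0 ≤ (if v ∈ P then (0 : ℝ) else H v) := by
    intro v; split_ifs
    · exact le_rfl
    · exact hH v
  have hφ0 : ∀ x, 0 ≤ φ x := by
    intro x
    obtain ⟨z, hz, hf⟩ := hφt x
    have := hf (fun _ => 0) (by intro u v huv; simpa only [sub_self, abs_zero] using (hp u v huv).le)
    rw [sub_self, abs_zero] at this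
    have h5 := hb0 z
    rw [← hz] at h5
    linarith only [this, h5]
  have hφH : ∀ x, φ x ≤ H x := by
    intro x
    refine (hφb x).trans ?_
    split_ifs
    · exact hH x
    · exact le_rfl
  have hφP : ∀ x ∈ P, φ x = 0 := by
    intro x hx
    apply le_antisymm _ (hφ0 x)
    have := hφb x
    rwa [if_pos hx] at this
  have hnear : ∀ x, (∀ f, Adm G ρ H f → |f x| ≤ φ x) ∨
      (∃ z ∈ P, ∀ f, Adm G ρ H f → |f x - f z| ≤ φ x) := by
    intro x
    obtain ⟨z, hz, hf⟩ := hφt x
    by_cases hzP : z ∈ P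
    · right
      refine ⟨z, hzP, fun f hfa => ?_⟩
      have := hf f hfa.2
      rw [hφP z hzP] at this
      linarith only [this]
    · left
      intro f hfa
      have h5 := hf f hfa.2
      rw [hz, if_neg hzP] at h5
      have h6 := hfa.1 z
      have h7 := abs_add_le (f x - f z) (f z)
      rw [sub_add_cancel] at h7
      linarith
  have hcard' : ∀ i, ((B i).filter (fun v => 0 < φ v)).card ≤ k := by
    intro i
    by_cases hne : ∃ v ∈ {v | 0 < H v}, v ∈ B i
    · obtain ⟨z, hzP, hzB⟩ := hhit i hne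
      have hzW : 0 < H z := hPW hzP
      have hsub : (B i).filter (fun v => 0 < φ v) ⊆
          ((B i).filter (fun v => 0 < H v)).erase z := by
        intro v hv
        rw [Finset.mem_filter] at hv
        rw [Finset.mem_erase, Finset.mem_filter]
        refine ⟨?_, hv.1, hv.2.trans_le (hφH v)⟩
        rintro rfl
        rw [hφP v hzP] at hv
        exact lt_irrefl _ hv.2
      have h5 := Finset.card_le_card hsub
      rw [Finset.card_erase_of_mem (Finset.mem_filter.mpr ⟨hzB, hzW⟩)] at h5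
      have := hcard i
      omega
    · have : (B i).filter (fun v => 0 < φ v) = ∅ := by
        apply Finset.filter_eq_empty_iff.mpr
        intro v hv hpos
        exact hne ⟨v, hpos.trans_le (hφH v), hv⟩
      rw [this]; simp
  obtain ⟨ι1, _, w1, g1, hw1, hs1, ha1, hl1⟩ := ih G ρ hs hp n B h1 h2 h3 φ hφ0 hφl hcard'
  obtain ⟨ι2, _, w2, g2, hw2, hs2, hb2, hm2, hl2, hl2', hl2''⟩ := fan' hF C t H hH
  have ha2 : ∀ i, Adm G ρ H (g2 i) := by
    intro i
    refine ⟨hb2 i, ?_⟩
    intro u v huv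
    by_cases hu : 0 < H u
    · by_cases hv : 0 < H v
      · obtain ⟨hCe, hte⟩ := hC u v huv hu hv
        exact (hm2 i u v hCe).trans (max_le hte (hHl u v huv))
      · have hv0 : H v = 0 := le_antisymm (not_lt.mp hv) (hH v)
        have h5 := hb2 i v
        rw [hv0] at h5
        have h6 : g2 i v = 0 := by simpa only [abs_nonpos_iff] using h5
        have h7 := hHl u v huv
        rw [hv0, sub_zero, abs_of_pos hu] at h7
        rw [h6, sub_zero]
        exact (hb2 i u).trans h7
    · have hu0 : H u = 0 := le_antisymm (not_lt.mp hu) (hH u)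
      have h5 := hb2 i u
      rw [hu0] at h5
      have h6 : g2 i u = 0 := by simpa using h5
      have h7 := hHl u v huv
      rw [hu0, zero_sub, abs_neg, abs_of_nonneg (hH v)] at h7
      rw [h6, zero_sub, abs_neg]
      exact (hb2 i v).trans h7
  refine ⟨ι1 ⊕ ι2, inferInstance, Sum.elim (fun i => (1 / 2) * w1 i) (fun i => (1 / 2) * w2 i),
    Sum.elim g1 g2, ?_, ?_, ?_, ?_⟩
  · rintro (i | i)
    · have := hw1 i
      show 0 ≤ (1 / 2) * w1 i
      linarith only [this]
    · have := hw2 i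
      show 0 ≤ (1 / 2) * w2 i
      linarith
  · rw [Fintype.sum_sum_type]
    simp only [Sum.elim_inl, Sum.elim_inr]
    rw [← Finset.mul_sum, ← Finset.mul_sum, hs1, hs2]
    norm_num
  · rintro (i | i)
    · exact ⟨fun v => ((ha1 i).1 v).trans (hφH v), (ha1 i).2⟩
    · exact ha2 i
  · -- the main estimate
    have hsum : ∀ x y, ∑ i, (Sum.elim (fun i => (1 / 2) * w1 i) (fun i => (1 / 2) * w2 i) : ι1 ⊕ ι2 → ℝ) i *
        |(Sum.elim g1 g2 : ι1 ⊕ ι2 → V → ℝ) i x - (Sum.elim g1 g2 : ι1 ⊕ ι2 → V → ℝ) i y| =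
        (1 / 2) * (∑ i, w1 i * |g1 i x - g1 i y|) + (1 / 2) * (∑ i, w2 i * |g2 i x - g2 i y|) := by
      intro x y
      rw [Fintype.sum_sum_type, Finset.mul_sum, Finset.mul_sum]
      simp only [Sum.elim_inl, Sum.elim_inr, mul_assoc]
    have key : ∀ f, Adm G ρ H f → ∀ x y, 0 ≤ f x - f y →
        min (ck * (cF / 4)) (cF / 2) * (f x - f y) ≤
        (∑ i, w1 i * |g1 i x - g1 i y|) + (∑ i, w2 i * |g2 i x - g2 i y|) := by
      intro f hf x y hM
      set M := f x - f y with hMdef
      have n1 : 0 ≤ ∑ i, w1 i * |g1 i x - g1 i y| :=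
        Finset.sum_nonneg fun i _ => mul_nonneg (hw1 i) (abs_nonneg _)
      have n2 : 0 ≤ ∑ i, w2 i * |g2 i x - g2 i y| :=
        Finset.sum_nonneg fun i _ => mul_nonneg (hw2 i) (abs_nonneg _)
      by_cases hcase : cF / 4 * M ≤ φ x + φ y
      · have h5 := hl1 _ (adm_clamp hφ0 hφl hf.2 (f y + min M (φ y))) x y
        rw [clamp_diff hM (hφ0 x) (hφ0 y) hMdef.symm rfl] at h5
        have h6 : cF / 4 * M ≤ min M (φ x + φ y) := by
          apply le_min _ hcase
          nlinarith only [hM, hcF1]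
        have h7 : 0 ≤ min M (φ x + φ y) := le_min hM (add_nonneg (hφ0 x) (hφ0 y))
        rw [abs_of_nonneg h7] at h5
        have h8 : ck * (cF / 4 * M) ≤ ck * min M (φ x + φ y) :=
          mul_le_mul_of_nonneg_left h6 hck.le
        have h9 : min (ck * (cF / 4)) (cF / 2) * M ≤ ck * (cF / 4) * M :=
          mul_le_mul_of_nonneg_right (min_le_left _ _) hM
        linarith only [n2, h5, h8, h9]
      · push Not at hcase
        -- nearest points
        have hst : ∃ S : Option V, (∀ z, S = some z → z ∈ P) ∧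
            ∀ f, Adm G ρ H f → |f x - S.elim 0 f| ≤ φ x := by
          rcases hnear x with h | ⟨z, hz, h⟩
          · exact ⟨none, by simp, fun f hf => by simpa using h f hf⟩
          · exact ⟨some z, by simpa using hz, fun f hf => h f hf⟩
        have htt : ∃ S : Option V, (∀ z, S = some z → z ∈ P) ∧
            ∀ f, Adm G ρ H f → |f y - S.elim 0 f| ≤ φ y := by
          rcases hnear y with h | ⟨z, hz, h⟩
          · exact ⟨none, by simp, fun f hf => by simpa using h f hf⟩
          · exact ⟨some z, by simpa using hz, fun f hf => h f hf⟩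
        obtain ⟨S, hSP, hS⟩ := hst
        obtain ⟨T, hTP, hT⟩ := htt
        have hfan : cF * |S.elim 0 f - T.elim 0 f| ≤
            ∑ i, w2 i * |S.elim 0 (g2 i) - T.elim 0 (g2 i)| := by
          cases S with
          | none =>
            cases T with
            | none => simp only [Option.elim_none, sub_self, abs_zero, mul_zero, sum_const_zero, Std.le_refl]
            | some z =>
              simp only [Option.elim, zero_sub, abs_neg]
              exact (mul_le_mul_of_nonneg_left (hf.1 z) hcF.le).trans (hl2'' z)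
          | some z =>
            cases T with
            | none =>
              simp only [Option.elim, sub_zero]
              exact (mul_le_mul_of_nonneg_left (hf.1 z) hcF.le).trans (hl2'' z)
            | some z' =>
              simp only [Option.elim]
              have hz := hSP z rfl
              have hz' := hTP z' rfl
              have hle : |f z - f z'| ≤ H z + H z' :=
                (abs_sub _ _).trans (add_le_add (hf.1 z) (hf.1 z'))
              by_cases hCz : C z = C z'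
              · refine le_trans ?_ (hl2 z z' hCz)
                apply mul_le_mul_of_nonneg_left _ hcF.le
                apply le_min _ hle
                exact htight z hz z' hz' hCz f (fun u v huv _ _ => hf.2 u v huv)
              · exact (mul_le_mul_of_nonneg_left hle hcF.le).trans (hl2' z z' hCz)
        have h5 : M ≤ |S.elim 0 f - T.elim 0 f| + φ x + φ y := by
          have e1 := hS f hf
          have e2 := hT f hf
          have e3 := abs_le.mp e1
          have e4 := abs_le.mp e2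
          have e5 := le_abs_self (S.elim 0 f - T.elim 0 f)
          rw [hMdef]
          linarith only [e3, e4, e5]
        have h6 : ∑ i, w2 i * |S.elim 0 (g2 i) - T.elim 0 (g2 i)| ≤
            (∑ i, w2 i * |g2 i x - g2 i y|) + φ x + φ y := by
          have e1 : ∀ i, w2 i * |S.elim 0 (g2 i) - T.elim 0 (g2 i)| ≤
              w2 i * |g2 i x - g2 i y| + w2 i * (φ x + φ y) := by
            intro i
            rw [← mul_add]
            apply mul_le_mul_of_nonneg_left _ (hw2 i)
            have e2 := hS (g2 i) (ha2 i)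
            have e3 := hT (g2 i) (ha2 i)
            have e4 : S.elim 0 (g2 i) - T.elim 0 (g2 i) = (S.elim 0 (g2 i) - g2 i x) +
                (g2 i x - g2 i y) + (g2 i y - T.elim 0 (g2 i)) := by ring
            rw [e4]
            refine (abs_add_three _ _ _).trans ?_
            rw [abs_sub_comm (S.elim 0 (g2 i))]
            linarith only [e2, e3]
          refine (Finset.sum_le_sum fun i _ => e1 i).trans ?_
          rw [Finset.sum_add_distrib, ← Finset.sum_mul, hs2, one_mul, add_assoc]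
        have h7 : cF * (M - (φ x + φ y)) ≤ cF * |S.elim 0 f - T.elim 0 f| :=
          mul_le_mul_of_nonneg_left (by linarith only [h5]) hcF.le
        have h8 : cF / 2 * M ≤ ∑ i, w2 i * |g2 i x - g2 i y| := by
          have e1 : (φ x + φ y) ≤ cF / 4 * M := hcase.le
          have e2 : cF * (φ x + φ y) ≤ 1 * (φ x + φ y) :=
            mul_le_mul_of_nonneg_right hcF1 (add_nonneg (hφ0 x) (hφ0 y))
          linarith
        have h9 : min (ck * (cF / 4)) (cF / 2) * M ≤ cF / 2 * M :=
          mul_le_mul_of_nonneg_right (min_le_right _ _) hM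
        linarith only [n1, h8, h9]
    intro f hf x y
    rw [hsum]
    rcases le_total 0 (f x - f y) with h | h
    · have := key f hf x y h
      rw [abs_of_nonneg h]
      linarith
    · have h' : 0 ≤ f y - f x := by linarith
      have := key f hf y x h'
      have e1 : ∑ i, w1 i * |g1 i x - g1 i y| = ∑ i, w1 i * |g1 i y - g1 i x| := by
        simp only [abs_sub_comm]
      have e2 : ∑ i, w2 i * |g2 i x - g2 i y| = ∑ i, w2 i * |g2 i y - g2 i x| := by
        simp only [abs_sub_comm]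
      rw [abs_sub_comm, abs_of_nonneg h', e1, e2]
      linarith

theorem fam_all {cF : ℝ} (hcF : 0 < cF) (hcF1 : cF ≤ 1) (hF : FanStatement cF)
    (hBar : BarrierStatement) (hTr : TransversalStatement) (k : ℕ) :
    ∃ c : ℝ, 0 < c ∧ ∀ {V : Type} [Finite V] (G : SimpleGraph V) (ρ : V → V → ℝ),
      (∀ u v, ρ u v = ρ v u) →
      (∀ u v, G.Adj u v → 0 < ρ u v) → ∀ (n : ℕ) (B : Fin n → Finset V),
      (∀ v, ∃ i, v ∈ B i) → (∀ u v, G.Adj u v → ∃ i, u ∈ B i ∧ v ∈ B i) →
      (∀ i j k, i ≤ j → j ≤ k → ∀ v, v ∈ B i → v ∈ B k → v ∈ B j) →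
      ∀ H : V → ℝ, (∀ x, 0 ≤ H x) → (∀ u v, G.Adj u v → |H u - H v| ≤ ρ u v) →
      (∀ i, ((B i).filter (fun v => 0 < H v)).card ≤ k) → Fam G ρ H c := by
  induction k with
  | zero =>
    refine ⟨1, one_pos, ?_⟩
    intro V _ G ρ hs hp n B h1 h2 h3 H hH hHl hcard
    have hH0 : ∀ v, H v = 0 := by
      intro v
      obtain ⟨i, hi⟩ := h1 v
      by_contra hne
      have hpos : 0 < H v := lt_of_le_of_ne (hH v) (Ne.symm hne)
      have h5 := hcard i
      rw [Nat.le_zero, Finset.card_eq_zero, Finset.filter_eq_empty_iff] at h5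
      exact h5 hi hpos
    refine ⟨Unit, inferInstance, fun _ => 1, fun _ _ => 0, fun _ => zero_le_one, by simp, ?_, ?_⟩
    · intro _
      refine ⟨fun v => by simpa only [abs_zero] using hH v, fun u v huv => by simpa only [sub_self, abs_zero] using (hp u v huv).le⟩
    · intro f hf x y
      have e1 : f x = 0 := by
        have := hf.1 x; rw [hH0] at this; simpa only [abs_nonpos_iff] using this
      have e2 : f y = 0 := by
        have := hf.1 y; rw [hH0] at this; simpa using this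
      rw [e1, e2]; simp
  | succ k ih =>
    obtain ⟨ck, hck, hih⟩ := ih
    refine ⟨(1 / 2) * min (ck * (cF / 4)) (cF / 2), by positivity, ?_⟩
    intro V _ G ρ hs hp n B h1 h2 h3 H hH hHl hcard
    exact fam_step hcF hcF1 hck hF hBar hTr hih G ρ hs hp n B h1 h2 h3 H hH hHl hcard

theorem lineLip_of_statements {cF : ℝ} (hcF : 0 < cF) (hcF1 : cF ≤ 1) (hF : FanStatement cF)
    (hBar : BarrierStatement) (hTr : TransversalStatement) (p : ℕ) :
    ∃ c : ℝ, 0 < c ∧ ∀ {V : Type} [Finite V] (G : SimpleGraph V),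
      PathwidthLE G p → LineLip G c := by
  classical
  obtain ⟨c, hc, hall⟩ := fam_all hcF hcF1 hF hBar hTr (p + 1)
  refine ⟨c, hc, ?_⟩
  intro V _ G ⟨n, B, h1, h2, h3, h4⟩ ρ hρ hG
  have := Fintype.ofFinite V
  have hn : ∀ x y, 0 ≤ ρ x y := by
    intro x y
    by_cases h : x = y
    · rw [h, hρ.self]
    · exact (hρ.pos x y h).le
  obtain ⟨R, hR0, hR⟩ : ∃ R : ℝ, 0 ≤ R ∧ ∀ x y, ρ x y ≤ R := by
    refine ⟨∑ x, ∑ y, ρ x y, Finset.sum_nonneg fun x _ => Finset.sum_nonneg fun y _ => hn x y, ?_⟩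
    intro x y
    have e1 : ρ x y ≤ ∑ y, ρ x y :=
      Finset.single_le_sum (f := fun y => ρ x y) (fun y _ => hn x y) (Finset.mem_univ y)
    have e2 : ∑ y, ρ x y ≤ ∑ x, ∑ y, ρ x y :=
      Finset.single_le_sum (f := fun x => ∑ y, ρ x y)
        (fun x _ => Finset.sum_nonneg fun y _ => hn x y) (Finset.mem_univ x)
    exact e1.trans e2
  have hp : ∀ u v, G.Adj u v → 0 < ρ u v := fun u v huv => hρ.pos u v huv.ne
  obtain ⟨ι, hι, w, g, hw, hw1, ha, hl⟩ := hall G ρ hρ.symm hp n B h1 h2 h3 (fun _ => R)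
    (fun _ => hR0) (fun u v huv => by simpa only [sub_self, abs_zero] using (hp u v huv).le)
    (fun i => (Finset.card_filter_le _ _).trans (h4 i))
  refine ⟨ι, hι, w, g, hw, hw1, fun i => hG (g i) (ha i).2, ?_⟩
  intro x y
  have hf : Adm G ρ (fun _ => R) (fun v => ρ v y) := by
    constructor
    · intro v
      rw [abs_of_nonneg (hn v y)]
      exact hR v y
    · intro u v _
      rw [abs_le]
      constructor
      · linarith [hρ.tri v u y, hρ.symm u v]
      · linarith [hρ.tri u v y]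
  have := hl _ hf x y
  rw [hρ.self, sub_zero, abs_of_nonneg (hn x y)] at this
  exact this

end Vale.Agent.P235
end
end
end

section

section

section

namespace Vale.Agent.P235

open SimpleGraph

section
variable {V : Type} {G : SimpleGraph V} {ρ : V → V → ℝ}

/-- weighted length of a walk -/
def wlen (ρ : V → V → ℝ) {u v : V} (p : G.Walk u v) : ℝ :=
  (p.darts.map fun d => ρ d.fst d.snd).sum

theorem wlen_nil (u : V) : wlen ρ (Walk.nil : G.Walk u u) = 0 := by simp [wlen]

theorem wlen_cons {u v w : V} (h : G.Adj u v) (p : G.Walk v w) :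
    wlen ρ (Walk.cons h p) = ρ u v + wlen ρ p := by simp [wlen]

theorem wlen_append {u v w : V} (p : G.Walk u v) (q : G.Walk v w) :
    wlen ρ (p.append q) = wlen ρ p + wlen ρ q := by simp [wlen]

theorem wlen_bypass [DecidableEq V] (hp : ∀ u v, G.Adj u v → 0 < ρ u v) {u v : V}
    (p : G.Walk u v) : wlen ρ p.bypass ≤ wlen ρ p := by
  have hsub := p.darts_bypass_sublist_darts
  unfold wlen
  refine List.Sublist.sum_le_sum (hsub.map _) ?_
  intro a ha
  rw [List.mem_map] at ha
  obtain ⟨d, _, rfl⟩ := ha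
  exact (hp _ _ d.adj).le

theorem wlen_lip {f : V → ℝ} (hf : ∀ u v, G.Adj u v → |f u - f v| ≤ ρ u v) {u v : V}
    (p : G.Walk u v) : |f u - f v| ≤ wlen ρ p := by
  induction p with
  | nil => simp [wlen_nil]
  | cons h p ih =>
    rw [wlen_cons]
    exact (abs_sub_le _ _ _).trans (add_le_add (hf _ _ h) ih)

theorem exists_min_walk [Finite V] (hp : ∀ u v, G.Adj u v → 0 < ρ u v) {u v : V}
    (h : G.Reachable u v) : ∃ p : G.Walk u v, ∀ q : G.Walk u v, wlen ρ p ≤ wlen ρ q := by
  classical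
  have := Fintype.ofFinite V
  obtain ⟨p0⟩ := h
  have : Nonempty {p : G.Walk u v // p.length < Fintype.card V} :=
    ⟨⟨p0.bypass, p0.bypass_isPath.length_lt⟩⟩
  obtain ⟨⟨p, hp1⟩, hmin⟩ := Finite.exists_min
    (fun p : {p : G.Walk u v // p.length < Fintype.card V} => wlen ρ p.1)
  refine ⟨p, fun q => ?_⟩
  exact (hmin ⟨q.bypass, q.bypass_isPath.length_lt⟩).trans (wlen_bypass hp q)

end

theorem barrier : BarrierStatement := by
  classical
  intro V _ G ρ hs hp b
  have hmin : ∀ x : V, ∃ z : V, ∃ q : G.Walk z x, ∀ z' (q' : G.Walk z' x),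
      b z + wlen ρ q ≤ b z' + wlen ρ q' := by
    intro x
    have : Nonempty {z : V // G.Reachable z x} := ⟨⟨x, Reachable.refl x⟩⟩
    obtain ⟨⟨z, hz⟩, hzm⟩ := Finite.exists_min
      (fun z : {z : V // G.Reachable z x} => b z.1 + wlen ρ (exists_min_walk (ρ := ρ) hp z.2).choose)
    refine ⟨z, (exists_min_walk (ρ := ρ) hp hz).choose, fun z' q' => ?_⟩
    have h1 := hzm ⟨z', ⟨q'⟩⟩
    have h2 := (exists_min_walk (ρ := ρ) hp (⟨q'⟩ : G.Reachable z' x)).choose_spec q'
    dsimp only at h1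
    linarith
  choose z q hq using hmin
  refine ⟨fun x => b (z x) + wlen ρ (q x), ?_, ?_, ?_⟩
  · intro x
    have := hq x x Walk.nil
    rw [wlen_nil] at this
    linarith
  · have key : ∀ u v, G.Adj u v → b (z v) + wlen ρ (q v) ≤ b (z u) + wlen ρ (q u) + ρ u v := by
      intro u v huv
      have := hq v (z u) ((q u).append (Walk.cons huv Walk.nil))
      rw [wlen_append, wlen_cons, wlen_nil] at this
      linarith
    intro u v huv
    rw [abs_le]
    constructor
    · linarith [key u v huv]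
    · linarith [key v u huv.symm, hs u v]
  · intro x
    refine ⟨z x, ?_, ?_⟩
    · apply le_antisymm
      · have := hq (z x) (z x) Walk.nil
        rw [wlen_nil] at this
        linarith
      · have := hq x (z (z x)) ((q (z x)).append (q x))
        rw [wlen_append] at this
        linarith
    · intro f hf
      have h1 := wlen_lip hf (q x)
      have h2 : b (z (z x)) + wlen ρ (q (z x)) = b (z x) := by
        apply le_antisymm
        · have := hq (z x) (z x) Walk.nil
          rw [wlen_nil] at this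
          linarith
        · have := hq x (z (z x)) ((q (z x)).append (q x))
          rw [wlen_append] at this
          linarith
      show |f x - f (z x)| ≤ b (z x) + wlen ρ (q x) - (b (z (z x)) + wlen ρ (q (z x)))
      rw [h2, abs_sub_comm]
      linarith

theorem walk_hits {V : Type} {G : SimpleGraph V} {n : ℕ} {B : Fin n → Finset V}
    (h2 : ∀ u v, G.Adj u v → ∃ i, u ∈ B i ∧ v ∈ B i)
    (h3 : ∀ i j k, i ≤ j → j ≤ k → ∀ v, v ∈ B i → v ∈ B k → v ∈ B j) {j0 i : Fin n}
    {u v : V} (p : G.Walk u v) (hv : v ∈ B j0) (hij : i ≤ j0) :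
    ∀ i0, u ∈ B i0 → i0 ≤ i → ∃ z ∈ p.support, z ∈ B i := by
  induction p with
  | nil =>
    intro i0 hu hi
    exact ⟨_, by simp, h3 _ _ _ hi hij _ hu hv⟩
  | @cons u a v h p ih =>
    intro i0 hu hi
    obtain ⟨m, hm1, hm2⟩ := h2 _ _ h
    rcases le_total i m with him | him
    · exact ⟨u, by simp, h3 _ _ _ hi him _ hu hm1⟩
    · obtain ⟨z, hz, hzB⟩ := ih hv m hm2 him
      exact ⟨z, by rw [Walk.support_cons]; exact List.mem_cons_of_mem _ hz, hzB⟩

theorem transversal : TransversalStatement := by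
  classical
  intro V _ G ρ hs hp W n B h1 h2 h3
  let GW : SimpleGraph V :=
    { Adj := fun u v => G.Adj u v ∧ u ∈ W ∧ v ∈ W
      symm := ⟨fun u v h => ⟨h.1.symm, h.2.2, h.2.1⟩⟩
      loopless := ⟨fun u h => G.loopless.irrefl u h.1⟩ }
  have hpW : ∀ u v, GW.Adj u v → 0 < ρ u v := fun u v h => hp u v h.1
  have h2W : ∀ u v, GW.Adj u v → ∃ i, u ∈ B i ∧ v ∈ B i := fun u v h => h2 u v h.1
  have hWc : ∀ u v, GW.Reachable u v → u ∈ W → v ∈ W := by
    intro u v ⟨p⟩ hu
    induction p with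
    | nil => exact hu
    | cons h p ih => exact ih h.2.2
  -- extreme vertices of a component
  have hlo : ∀ c : GW.ConnectedComponent, ∃ (u : V) (i : Fin n), GW.connectedComponentMk u = c ∧
      u ∈ B i ∧ ∀ (w : V) (j : Fin n), GW.connectedComponentMk w = c → w ∈ B j → i ≤ j := by
    intro c
    obtain ⟨u0, rfl⟩ := c.exists_rep
    obtain ⟨i0, hi0⟩ := h1 u0
    have : Nonempty {q : V × Fin n // GW.connectedComponentMk q.1 = Quot.mk _ u0 ∧ q.1 ∈ B q.2} :=
      ⟨⟨(u0, i0), rfl, hi0⟩⟩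
    obtain ⟨⟨⟨u, i⟩, hu, hi⟩, hmin⟩ := Finite.exists_min
      (fun q : {q : V × Fin n // GW.connectedComponentMk q.1 = Quot.mk _ u0 ∧ q.1 ∈ B q.2} =>
        q.1.2)
    exact ⟨u, i, hu, hi, fun w j hw hj => hmin ⟨(w, j), hw, hj⟩⟩
  have hhi : ∀ c : GW.ConnectedComponent, ∃ (u : V) (i : Fin n), GW.connectedComponentMk u = c ∧
      u ∈ B i ∧ ∀ (w : V) (j : Fin n), GW.connectedComponentMk w = c → w ∈ B j → j ≤ i := by
    intro c
    obtain ⟨u0, rfl⟩ := c.exists_rep
    obtain ⟨i0, hi0⟩ := h1 u0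
    have : Nonempty {q : V × Fin n // GW.connectedComponentMk q.1 = Quot.mk _ u0 ∧ q.1 ∈ B q.2} :=
      ⟨⟨(u0, i0), rfl, hi0⟩⟩
    obtain ⟨⟨⟨u, i⟩, hu, hi⟩, hmax⟩ := Finite.exists_max
      (fun q : {q : V × Fin n // GW.connectedComponentMk q.1 = Quot.mk _ u0 ∧ q.1 ∈ B q.2} =>
        q.1.2)
    exact ⟨u, i, hu, hi, fun w j hw hj => hmax ⟨(w, j), hw, hj⟩⟩
  choose r ilo hr1 hr2 hr3 using hlo
  choose e ihi he1 he2 he3 using hhi
  have hreach : ∀ x, GW.Reachable (r (GW.connectedComponentMk x)) x := fun x =>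
    ConnectedComponent.exact (hr1 _)
  have hwalk : ∀ x, ∃ p : GW.Walk (r (GW.connectedComponentMk x)) x,
      ∀ q : GW.Walk (r (GW.connectedComponentMk x)) x, wlen ρ p ≤ wlen ρ q :=
    fun x => exists_min_walk hpW (hreach x)
  choose pw hpw using hwalk
  -- distance from the root of the component
  have tle : ∀ (c : GW.ConnectedComponent) (x : V), GW.connectedComponentMk x = c →
      ∀ q : GW.Walk (r c) x, wlen ρ (pw x) ≤ wlen ρ q := by
    intro c x hx q
    subst hx
    exact hpw x q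
  -- the shortest walk to the far end
  have hmain : ∀ c : GW.ConnectedComponent, ∃ p : GW.Walk (r c) (e c),
      wlen ρ p = wlen ρ (pw (e c)) := by
    intro c
    have h := he1 c
    have : ∀ c', GW.connectedComponentMk (e c) = c' → ∃ p : GW.Walk (r c') (e c),
      wlen ρ p = wlen ρ (pw (e c)) := by
      intro c' hc'
      subst hc'
      exact ⟨pw (e c), rfl⟩
    exact this c h
  choose m hm using hmain
  have hsupp : ∀ c, ∀ z ∈ (m c).support, GW.connectedComponentMk z = c := by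
    intro c z hz
    rw [← hr1 c]
    exact (ConnectedComponent.sound ⟨(m c).takeUntil z hz⟩).symm
  refine ⟨GW.ConnectedComponent, GW.connectedComponentMk, fun x => wlen ρ (pw x),
    {z | z ∈ W ∧ z ∈ (m (GW.connectedComponentMk z)).support}, fun z hz => hz.1, ?_, ?_, ?_⟩
  · -- edges inside `W`
    have key : ∀ u v, GW.Adj u v → wlen ρ (pw v) ≤ wlen ρ (pw u) + ρ u v := by
      intro u v huv
      have hc : GW.connectedComponentMk v = GW.connectedComponentMk u :=
        (ConnectedComponent.sound huv.reachable).symm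
      have := tle _ v hc ((pw u).append (Walk.cons huv Walk.nil))
      rw [wlen_append, wlen_cons, wlen_nil] at this
      linarith
    intro u v huv hu hv
    have hadj : GW.Adj u v := ⟨huv, hu, hv⟩
    refine ⟨ConnectedComponent.sound hadj.reachable, ?_⟩
    rw [abs_le]
    constructor
    · linarith [key u v hadj]
    · linarith [key v u hadj.symm, hs u v]
  · -- hitting
    rintro i ⟨w, hwW, hwB⟩
    set c := GW.connectedComponentMk w with hc
    obtain ⟨z, hz, hzB⟩ := walk_hits h2W h3 (m c) (he2 c) (he3 c w i rfl hwB) (ilo c) (hr2 c)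
      (hr3 c w i rfl hwB)
    have hzc := hsupp c z hz
    refine ⟨z, ⟨?_, ?_⟩, hzB⟩
    · exact hWc w z (ConnectedComponent.exact (by rw [hzc])) hwW
    · rw [hzc]; exact hz
  · -- tightness
    rintro z ⟨hzW, hz⟩ z2 ⟨hz2W, hz2⟩ hCC f hf
    have hfW : ∀ u v, GW.Adj u v → |f u - f v| ≤ ρ u v := fun u v h => hf u v h.1 h.2.1 h.2.2
    obtain ⟨c, hc⟩ : ∃ c, c = GW.connectedComponentMk z := ⟨_, rfl⟩
    rw [← hc] at hz
    rw [← hCC, ← hc] at hz2
    have hc2 : GW.connectedComponentMk z2 = c := by rw [← hCC, ← hc]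
    have hce : ∀ q : GW.Walk (r c) (e c), wlen ρ (m c) ≤ wlen ρ q := by
      intro q
      rw [hm c]
      exact tle c (e c) (he1 c) q
    -- for points `a` before `b` on the main walk
    have key : ∀ a b, GW.connectedComponentMk a = c → GW.connectedComponentMk b = c →
        ∀ (p1 : GW.Walk (r c) a) (p2 : GW.Walk a b) (p3 : GW.Walk b (e c)),
        wlen ρ p1 + wlen ρ p2 + wlen ρ p3 = wlen ρ (m c) →
        |f a - f b| ≤ |wlen ρ (pw a) - wlen ρ (pw b)| := by
      intro a b ha hb p1 p2 p3 hsum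
      have e1 := wlen_lip hfW p2
      have f1 := tle c a ha p1
      have f2 := tle c b hb (p1.append p2)
      rw [wlen_append] at f2
      have q1 : ∃ q : GW.Walk (r c) b, wlen ρ q = wlen ρ (pw b) := by
        have : ∀ c', GW.connectedComponentMk b = c' → ∃ q : GW.Walk (r c') b,
            wlen ρ q = wlen ρ (pw b) := by
          intro c' hc'
          subst hc'
          exact ⟨pw b, rfl⟩
        exact this c hb
      obtain ⟨q, hq⟩ := q1
      have f3 := hce (q.append p3)
      rw [wlen_append, hq] at f3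
      have f4 : wlen ρ p2 ≤ wlen ρ (pw b) - wlen ρ (pw a) := by linarith
      rw [abs_sub_comm (wlen ρ (pw a))]
      exact e1.trans (f4.trans (le_abs_self _))
    have hsplit := congrArg (wlen ρ) ((m c).take_spec hz)
    rw [wlen_append] at hsplit
    have hmem : z2 ∈ ((m c).takeUntil z hz).support ∨ z2 ∈ ((m c).dropUntil z hz).support := by
      have h5 : z2 ∈ (((m c).takeUntil z hz).append ((m c).dropUntil z hz)).support := by
        rw [(m c).take_spec hz]; exact hz2
      rwa [Walk.mem_support_append_iff] at h5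
    rcases hmem with h | h
    · have hs2 := congrArg (wlen ρ) (((m c).takeUntil z hz).take_spec h)
      rw [wlen_append] at hs2
      have := key z2 z hc2 hc.symm _ _ _ (by rw [hs2, hsplit] : wlen ρ
        (((m c).takeUntil z hz).takeUntil z2 h) + wlen ρ (((m c).takeUntil z hz).dropUntil z2 h) +
          wlen ρ ((m c).dropUntil z hz) = wlen ρ (m c))
      rw [abs_sub_comm, abs_sub_comm (wlen ρ (pw z))]
      exact this
    · have hs2 := congrArg (wlen ρ) (((m c).dropUntil z hz).take_spec h)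
      rw [wlen_append] at hs2
      exact key z z2 hc.symm hc2 ((m c).takeUntil z hz)
        (((m c).dropUntil z hz).takeUntil z2 h) (((m c).dropUntil z hz).dropUntil z2 h)
        (by rw [add_assoc, hs2, hsplit])

end Vale.Agent.P235
end
end
end

section

section

section

/-!
Treewidth 3, local one-step problem: definitions.

Bag `T = (a,b,c)`: true metric `d` has tripod legs `oa ob oc` (`d(a,b) = oa+ob`, ...),
the metric `F~` has tripod legs `va vb vc` (`F~(a,b) = va+vb ≤ d(a,b)`, ...), and the embedding is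
`F = F~ + d/32`, legs `w = v + o/32`.  New vertex `z` with `d(z,a)=ya`, `d(z,b)=yb`, `d(z,c)=yc`.
Extension masses: `F~`-part `mu` (cut `z|abc`), `xa` (cut `az|bc`), leaf `va-xa` (cut `a|bcz`), ...;
`d`-part `nu, ta, tb, tc` in the same way.
-/

namespace Vale.Agent.P235.Tri

/-- harmonic-type mean `xy/(x+y)` -/
noncomputable def harm (x y : ℝ) : ℝ := x * y / (x + y)

noncomputable def phi (p : ℝ) : ℝ := (min 1 (2 * p)) ^ 2

/-- Reserve condition: `c1 ≤ Sa/oa + Sb/ob + Sc/oc` with cleared denominators, `c1 = 1/1024`,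
`Sa = δab + δac` etc. -/
structure Good (oa ob oc va vb vc : ℝ) : Prop where
  oa0 : 0 ≤ oa
  ob0 : 0 ≤ ob
  oc0 : 0 ≤ oc
  va0 : 0 ≤ va
  vb0 : 0 ≤ vb
  vc0 : 0 ≤ vc
  dab : va + vb ≤ oa + ob
  dbc : vb + vc ≤ ob + oc
  dca : vc + va ≤ oc + oa
  E : (1/1024) * (oa * ob * oc) ≤
      (2*oa + ob + oc - 2*va - vb - vc) * (ob * oc) +
      (2*ob + oc + oa - 2*vb - vc - va) * (oc * oa) +
      (2*oc + oa + ob - 2*vc - va - vb) * (oa * ob)

/-- distances of the new vertex `z`: `d(z,a)=ya`, ... satisfy the triangle inequalities -/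
structure Ext (oa ob oc ya yb yc : ℝ) : Prop where
  tab : oa + ob ≤ ya + yb
  tbc : ob + oc ≤ yb + yc
  tca : oc + oa ≤ yc + ya
  yab : ya ≤ yb + (oa + ob)
  yba : yb ≤ ya + (oa + ob)
  ybc : yb ≤ yc + (ob + oc)
  ycb : yc ≤ yb + (ob + oc)
  yca : yc ≤ ya + (oc + oa)
  yac : ya ≤ yc + (oc + oa)

/-- The masses of the extension: basic validity.  `F~`-part `mu xa xb xc`, `d`-part `nu ta tb tc`
(exact decomposition of the 4-point metric `d`, with the free parameter in the middle). -/
structure Mass (oa ob oc va vb vc ya yb yc mu xa xb xc nu ta tb tc : ℝ) : Prop where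
  mu0 : 0 ≤ mu
  xa0 : 0 ≤ xa
  xb0 : 0 ≤ xb
  xc0 : 0 ≤ xc
  xav : xa ≤ va
  xbv : xb ≤ vb
  xcv : xc ≤ vc
  Fa : mu + (va - xa) + xb + xc ≤ ya
  Fb : mu + (vb - xb) + xc + xa ≤ yb
  Fc : mu + (vc - xc) + xa + xb ≤ yc
  nu0 : 0 ≤ nu
  ta0 : 0 ≤ ta
  tb0 : 0 ≤ tb
  tc0 : 0 ≤ tc
  tao : ta ≤ oa
  tbo : tb ≤ ob
  tco : tc ≤ oc
  Da : nu + (oa - ta) + tb + tc = ya
  Db : nu + (ob - tb) + tc + ta = yb
  Dc : nu + (oc - tc) + ta + tb = yc
  leafa : (1/2) * min oa (min ((oa + ob + ya - yb)/2) ((oa + oc + ya - yc)/2)) ≤ oa - ta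
  leafb : (1/2) * min ob (min ((ob + oc + yb - yc)/2) ((ob + oa + yb - ya)/2)) ≤ ob - tb
  leafc : (1/2) * min oc (min ((oc + oa + yc - ya)/2) ((oc + ob + yc - yb)/2)) ≤ oc - tc
  leafz : (1/2) * min ((ya + yb - oa - ob)/2)
      (min ((yb + yc - ob - oc)/2) ((yc + ya - oc - oa)/2)) ≤ nu

/-- Potential of vertex `v` of the bag `(v,j,k)` for a vantage with coordinates `(O; pv,pj,pk)`.
`K1 = 10^5`, `K4 = 10^18`, `K3` is a parameter. -/
noncomputable def Phi (K1 K3 K4 ov oj ok vv vj vk O pv pj pk : ℝ) : ℝ :=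
  K3 * (O + (vv + ov/32) * (pv * (1 - pv)) + (vj + oj/32) * (pj * (1 - pj))
      + (vk + ok/32) * (pk * (1 - pk)))
  + K1 * (O + (vv + ov/32) * (1 - pv) + (vj + oj/32) * pj + (vk + ok/32) * pk)
  + (K1/2) * (max 0 (min (vj + oj/32) (vk + ok/32) - (vv + ov/32)) * (phi pj * phi pk))
  + K4 * (max 0 ((oj + ok - vj - vk) - 4 * ((ov + oj - vv - vj) + (ov + ok - vv - vk)))
      * (max 0 (1 - pv - pj - pk)) ^ 2)

/-- The step drop `c`, add `z`: the new face is `(z,a,b)` with
`oz = (ya+yb-oa-ob)/2`, `oa' = (oa+ob+ya-yb)/2`, `ob' = (oa+ob+yb-ya)/2`,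
`vz = mu+xc`, `va' = va-xa+xb`, `vb' = vb-xb+xa`. -/
structure StepC (K1 K3 K4 oa ob oc va vb vc ya yb yc mu xa xb xc nu ta tb tc : ℝ) : Prop where
  good : Good ((ya + yb - oa - ob)/2) ((oa + ob + ya - yb)/2) ((oa + ob + yb - ya)/2)
      (mu + xc) (va - xa + xb) (vb - xb + xa)
  pot : ∀ O pa pb pc qz qa qb : ℝ, 0 ≤ O → 0 ≤ pa → pa ≤ 1 → 0 ≤ pb → pb ≤ 1 → 0 ≤ pc → pc ≤ 1 →
      0 ≤ qz → qz ≤ 1 → 0 ≤ qa → qa ≤ 1 → 0 ≤ qb → qb ≤ 1 →
      -- masses: m_i = (vi - xi) + (oi - ti)/32, X_i = xi + ti/32, mz = mu + nu/32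
      ((mu + nu/32) + (xc + tc/32)) * qz = (xc + tc/32) * pc →
      (((va - xa) + (oa - ta)/32) + (xb + tb/32)) * qa
        = ((va - xa) + (oa - ta)/32) * pa + (xb + tb/32) * (1 - pb) →
      (((vb - xb) + (ob - tb)/32) + (xa + ta/32)) * qb
        = ((vb - xb) + (ob - tb)/32) * pb + (xa + ta/32) * (1 - pa) →
      -- kept vertices
      Phi K1 K3 K4 oa ob oc va vb vc O pa pb pc ≤
        Phi K1 K3 K4 ((oa + ob + ya - yb)/2) ((oa + ob + yb - ya)/2) ((ya + yb - oa - ob)/2)
          (va - xa + xb) (vb - xb + xa) (mu + xc)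
          (O + ((vc - xc) + (oc - tc)/32) * pc) qa qb qz ∧
      Phi K1 K3 K4 ob oa oc vb va vc O pb pa pc ≤
        Phi K1 K3 K4 ((oa + ob + yb - ya)/2) ((oa + ob + ya - yb)/2) ((ya + yb - oa - ob)/2)
          (vb - xb + xa) (va - xa + xb) (mu + xc)
          (O + ((vc - xc) + (oc - tc)/32) * pc) qb qa qz ∧
      -- new vertex
      (Phi K1 K3 K4 oa ob oc va vb vc O pa pb pc + ya ≤
          Phi K1 K3 K4 ((ya + yb - oa - ob)/2) ((oa + ob + ya - yb)/2) ((oa + ob + yb - ya)/2)
            (mu + xc) (va - xa + xb) (vb - xb + xa)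
            (O + ((vc - xc) + (oc - tc)/32) * pc) qz qa qb ∨
        Phi K1 K3 K4 ob oa oc vb va vc O pb pa pc + yb ≤
          Phi K1 K3 K4 ((ya + yb - oa - ob)/2) ((oa + ob + ya - yb)/2) ((oa + ob + yb - ya)/2)
            (mu + xc) (va - xa + xb) (vb - xb + xa)
            (O + ((vc - xc) + (oc - tc)/32) * pc) qz qa qb ∨
        Phi K1 K3 K4 oc oa ob vc va vb O pc pa pb + yc ≤
          Phi K1 K3 K4 ((ya + yb - oa - ob)/2) ((oa + ob + ya - yb)/2) ((oa + ob + yb - ya)/2)
            (mu + xc) (va - xa + xb) (vb - xb + xa)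
            (O + ((vc - xc) + (oc - tc)/32) * pc) qz qa qb)

/-- ONESTEP (the local theorem used by the global assembly). -/
def OneStep (K1 K3 K4 : ℝ) : Prop :=
  ∀ oa ob oc va vb vc ya yb yc : ℝ, Good oa ob oc va vb vc → Ext oa ob oc ya yb yc →
    ∃ mu xa xb xc nu ta tb tc : ℝ,
      Mass oa ob oc va vb vc ya yb yc mu xa xb xc nu ta tb tc ∧
      StepC K1 K3 K4 oa ob oc va vb vc ya yb yc mu xa xb xc nu ta tb tc ∧
      StepC K1 K3 K4 ob oc oa vb vc va yb yc ya mu xb xc xa nu tb tc ta ∧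
      StepC K1 K3 K4 oc oa ob vc va vb yc ya yb mu xc xa xb nu tc ta tb

end Vale.Agent.P235.Tri
end
end
end

section

section

section

/-!
Treewidth 3: law facts (definitions of the facts; the lemmas are proved in other files).
Order of variables drop c: kept vertices `a`, `b`, dropped vertex `c`, new vertex `z`.
-/

namespace Vale.Agent.P235.Tri

/-- `F~` part of `Mass`. -/
structure MassF (va vb vc ya yb yc mu xa xb xc : ℝ) : Prop where
  mu0 : 0 ≤ mu
  xa0 : 0 ≤ xa
  xb0 : 0 ≤ xb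
  xc0 : 0 ≤ xc
  xav : xa ≤ va
  xbv : xb ≤ vb
  xcv : xc ≤ vc
  Fa : mu + (va - xa) + xb + xc ≤ ya
  Fb : mu + (vb - xb) + xc + xa ≤ yb
  Fc : mu + (vc - xc) + xa + xb ≤ yc

/-- `d` part of `Mass`. -/
structure MassD (oa ob oc ya yb yc nu ta tb tc : ℝ) : Prop where
  nu0 : 0 ≤ nu
  ta0 : 0 ≤ ta
  tb0 : 0 ≤ tb
  tc0 : 0 ≤ tc
  tao : ta ≤ oa
  tbo : tb ≤ ob
  tco : tc ≤ oc
  Da : nu + (oa - ta) + tb + tc = ya
  Db : nu + (ob - tb) + tc + ta = yb
  Dc : nu + (oc - tc) + ta + tb = yc
  leafa : (1/2) * min oa (min ((oa + ob + ya - yb)/2) ((oa + oc + ya - yc)/2)) ≤ oa - ta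
  leafb : (1/2) * min ob (min ((ob + oc + yb - yc)/2) ((ob + oa + yb - ya)/2)) ≤ ob - tb
  leafc : (1/2) * min oc (min ((oc + oa + yc - ya)/2) ((oc + ob + yc - yb)/2)) ≤ oc - tc
  leafz : (1/2) * min ((ya + yb - oa - ob)/2)
      (min ((yb + yc - ob - oc)/2) ((yc + ya - oc - oa)/2)) ≤ nu

theorem mass_of {oa ob oc va vb vc ya yb yc mu xa xb xc nu ta tb tc : ℝ}
    (h : MassF va vb vc ya yb yc mu xa xb xc) (k : MassD oa ob oc ya yb yc nu ta tb tc) :
    Mass oa ob oc va vb vc ya yb yc mu xa xb xc nu ta tb tc :=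
  ⟨h.mu0, h.xa0, h.xb0, h.xc0, h.xav, h.xbv, h.xcv, h.Fa, h.Fb, h.Fc,
   k.nu0, k.ta0, k.tb0, k.tc0, k.tao, k.tbo, k.tco, k.Da, k.Db, k.Dc,
   k.leafa, k.leafb, k.leafc, k.leafz⟩

/-- facts of the generic law (symmetric in `a,b,c`).  The law is
`(1/8) f* + (3/4) P_k + (1/24)(A_a + A_b + A_c)`. -/
structure LawN (va vb vc ya yb yc mu xa xb xc : ℝ) : Prop where
  la : (1/8) * min va ya ≤ va - xa
  lb : (1/8) * min vb yb ≤ vb - xb
  lc : (1/8) * min vc yc ≤ vc - xc
  ja : (1/24) * min (min va yb) (min yc ((yb + yc - vb - vc)/2)) ≤ xa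
  jb : (1/24) * min (min vb yc) (min ya ((yc + ya - vc - va)/2)) ≤ xb
  jc : (1/24) * min (min vc ya) (min yb ((ya + yb - va - vb)/2)) ≤ xc
  ra : (1/8) * (ya - (min va ya + max 0 (vb - yb) + max 0 (vc - yc)))
        ≤ ya - (mu + (va - xa) + xb + xc)
  rb : (1/8) * (yb - (min vb yb + max 0 (vc - yc) + max 0 (va - ya)))
        ≤ yb - (mu + (vb - xb) + xc + xa)
  rc : (1/8) * (yc - (min vc yc + max 0 (va - ya) + max 0 (vb - yb)))
        ≤ yc - (mu + (vc - xc) + xa + xb)
  za : (3/4) * (min (min (yb - vb) (yc - vc)) (ya + va) - max vb vc) + (5/24) * max 0 (va - ya)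
        + (1/24) * min (min va yb) (min yc ((yb + yc - vb - vc)/2)) ≤ mu + xa
  zb : (3/4) * (min (min (yc - vc) (ya - va)) (yb + vb) - max vc va) + (5/24) * max 0 (vb - yb)
        + (1/24) * min (min vb yc) (min ya ((yc + ya - vc - va)/2)) ≤ mu + xb
  zc : (3/4) * (min (min (ya - va) (yb - vb)) (yc + vc) - max va vb) + (5/24) * max 0 (vc - yc)
        + (1/24) * min (min vc ya) (min yb ((ya + yb - va - vb)/2)) ≤ mu + xc
  /-- `e_i = min (y_j - v_j, y_k - v_k, y_i + v_i)`; `k` = argmax;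
  `mu ≥ (3/4) min (e_k, (e_k + y_k - v_k)/2)` -/
  U : ∃ ea eb ec : ℝ, ea = min (min (yb - vb) (yc - vc)) (ya + va) ∧
      eb = min (min (yc - vc) (ya - va)) (yb + vb) ∧
      ec = min (min (ya - va) (yb - vb)) (yc + vc) ∧
      ((eb ≤ ea ∧ ec ≤ ea ∧ (3/4) * min ea ((ea + ya - va)/2) ≤ mu) ∨
       (ec ≤ eb ∧ ea ≤ eb ∧ (3/4) * min eb ((eb + yb - vb)/2) ≤ mu) ∨
       (ea ≤ ec ∧ eb ≤ ec ∧ (3/4) * min ec ((ec + yc - vc)/2) ≤ mu))

/-- ladder degeneracy, towards `b`; `al` is the small parameter -/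
structure Lad (oa ob oc va vb vc ya yb yc mc mz Xa al : ℝ) : Prop where
  al0 : 0 ≤ al
  s1 : 10^6 * al ≤ yc
  s2 : 10^6 * al ≤ vc + oc/32
  hvc : vc ≤ 8 * al
  hmc : mc ≤ al
  hmz : mz ≤ 2 * al
  hXa : Xa ≤ 100 * al
  hvb : yb + yc - vb ≤ 160 * al
  hca : (yc + oa + oc - ya)/2 ≤ 64 * al
  hzb : (yb + yc - ob - oc)/2 ≤ 128 * al

/-- (P1): `α = mc + harm mz Xc` is comparable to `min (yc, wc)`, or a ladder. -/
def P1 (oa ob oc va vb vc ya yb yc mc mz Xa Xb Xc : ℝ) : Prop :=
  min yc (vc + oc/32) ≤ 10^6 * (mc + harm mz Xc) ∨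
  Lad oa ob oc va vb vc ya yb yc mc mz Xa (mc + harm mz Xc) ∨
  Lad ob oa oc vb va vc yb ya yc mc mz Xb (mc + harm mz Xc)

/-- (P2) for the kept vertex `a`; `be = harm ma Xb + harm mb Xa`,
`g = δbc - 4(δab+δac)`, `g' = δzb - 4(δab+δza)` -/
structure NcF (oa ob oc va vb vc ya yb yc ma mb vz va' vb' be : ℝ) : Prop where
  n1 : ((ob + oc - vb - vc) - 4 * ((oa + ob - va - vb) + (oa + oc - va - vc)))
        - ((yb - vz - vb') - 4 * ((oa + ob - va - vb) + (ya - vz - va'))) ≤ 10^5 * be
  n2 : (yb - vz - vb') - 4 * ((oa + ob - va - vb) + (ya - vz - va')) ≤ 100 * ma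
  n3 : (yb - vz - vb') - 4 * ((oa + ob - va - vb) + (ya - vz - va')) ≤ 100 * mb
  n4 : va ≤ ya
  n5 : 64 * (ob + oc - vb - vc) ≤ (ya + yb - oa - ob)/2
  n6 : 64 * (ob + oc - vb - vc) ≤ (oa + ob + yb - ya)/2
  n7 : (ob + oc - vb - vc) * yc * ((oa + ob + yb - ya)/2) ≤ 10^5 * be * oc * yb
  n8 : oc ≤ (ya + yb - oa - ob)/2 + yc
  n9 : (ya + yb - oa - ob)/2 ≤ 2 * vz

def P2 (oa ob oc va vb vc ya yb yc ma mb Xa Xb vz va' vb' : ℝ) : Prop :=
  min ((ob + oc - vb - vc) - 4 * ((oa + ob - va - vb) + (oa + oc - va - vc))) yc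
      ≤ 10^5 * (harm ma Xb + harm mb Xa) ∨
  NcF oa ob oc va vb vc ya yb yc ma mb vz va' vb' (harm ma Xb + harm mb Xa)

/-- one of the legs `w'a = ma+Xb`, `w'b = mb+Xa` is at most a third of `w'z = mz+Xc` -/
def C2 (ma mb mz Xa Xb Xc : ℝ) : Prop := 3 * (ma + Xb) ≤ mz + Xc ∨ 3 * (mb + Xa) ≤ mz + Xc

def P4I (oa ob oc va vb vc ya yb yc ma mb mz Xa Xb Xc vz va' vb' : ℝ) : Prop :=
  ∀ Y : ℝ, 0 < Y → Y ≤ ya → Y ≤ yb → Y ≤ yc → 10^9 * Xa ≤ Y → 10^9 * Xb ≤ Y →
    C2 ma mb mz Xa Xb Xc ∨
    (yc ≤ ya ∧ yc ≤ yb ∧ (vc + oc/32) + yc/2 ≤ mz + Xc ∧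
      (oa + ob - va - vb) ≤ 4 * ((oa + oc - va - vc) + (ob + oc - vb - vc))) ∨
    ((1/8192) * min oa ob ≤ (oa + ob - va - vb) - 4 * ((ya - vz - va') + (yb - vz - vb')) ∧
      (oa + ob + ya - yb)/2 ≤ 2 * oa ∧ (oa + ob + yb - ya)/2 ≤ 2 * ob)

def P4II (ya yb yc ma mb mz Xa Xb Xc : ℝ) : Prop :=
  ∀ Y : ℝ, 0 < Y → Y ≤ ya → Y ≤ yb → Y ≤ yc → 10^9 * ma ≤ Y → 10^9 * mb ≤ Y →
    C2 ma mb mz Xa Xb Xc

/-- All facts about the law needed for the step drop `c`. -/
structure SF (oa ob oc va vb vc ya yb yc mu xa xb xc nu ta tb tc : ℝ) : Prop where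
  p1 : P1 oa ob oc va vb vc ya yb yc ((vc - xc) + (oc - tc)/32) (mu + nu/32)
        (xa + ta/32) (xb + tb/32) (xc + tc/32)
  p2a : P2 oa ob oc va vb vc ya yb yc ((va - xa) + (oa - ta)/32) ((vb - xb) + (ob - tb)/32)
        (xa + ta/32) (xb + tb/32) (mu + xc) (va - xa + xb) (vb - xb + xa)
  p2b : P2 ob oa oc vb va vc yb ya yc ((vb - xb) + (ob - tb)/32) ((va - xa) + (oa - ta)/32)
        (xb + tb/32) (xa + ta/32) (mu + xc) (vb - xb + xa) (va - xa + xb)
  p4 : P4I oa ob oc va vb vc ya yb yc ((va - xa) + (oa - ta)/32) ((vb - xb) + (ob - tb)/32)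
        (mu + nu/32) (xa + ta/32) (xb + tb/32) (xc + tc/32) (mu + xc) (va - xa + xb) (vb - xb + xa)
  p5 : P4II ya yb yc ((va - xa) + (oa - ta)/32) ((vb - xb) + (ob - tb)/32)
        (mu + nu/32) (xa + ta/32) (xb + tb/32) (xc + tc/32)

/-- The exceptional law at `c` (`vc > yc` and (almost) no reserve margin on the face `(z,a,b)`). -/
structure LawC (oa ob oc va vb vc ya yb yc mu xa xb xc : ℝ) : Prop where
  hvc : yc < vc
  oz0 : 0 < (ya + yb - oa - ob)/2
  oa0 : 0 < (oa + ob + ya - yb)/2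
  ob0 : 0 < (oa + ob + yb - ya)/2
  -- δ*za = δac + 2 (z|ac) = ya + yc - va - vc
  A1 : ya + yc - va - vc ≤ (1/128) * ((ya + yb - oa - ob)/2)
  A2 : ya + yc - va - vc ≤ (1/128) * ((oa + ob + ya - yb)/2)
  A3 : yb + yc - vb - vc ≤ (1/128) * ((ya + yb - oa - ob)/2)
  A4 : yb + yc - vb - vc ≤ (1/128) * ((oa + ob + yb - ya)/2)
  B1 : oa + ob - va - vb ≤ (1/1024) * ((oa + ob + ya - yb)/2)
  B2 : oa + ob - va - vb ≤ (1/1024) * ((oa + ob + yb - ya)/2)
  hmu : mu = 0
  hxb : xb = (ya + yc - oa - oc)/8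
      + (1/8) * (oa + oc - va - vc) * (yc/oc) * (((oa + ob + ya - yb)/2) / ya)
  hxa : xa = (yb + yc - ob - oc)/8
      + (1/8) * (ob + oc - vb - vc) * (yc/oc) * (((oa + ob + yb - ya)/2) / yb)
  hxc : xc = vc - yc + xa + xb

end Vale.Agent.P235.Tri
end
end
end

section

section

section

namespace Vale.Agent.P235.Tri

theorem harm_nonneg {x y : ℝ} (hx : 0 ≤ x) (hy : 0 ≤ y) : 0 ≤ harm x y := by
  unfold harm; (clear * - hx hy; (clear * - hx hy; positivity))

theorem harm_ge {x y : ℝ} (hx : 0 ≤ x) (hy : 0 ≤ y) : (1/2) * min x y ≤ harm x y := by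
  rcases eq_or_lt_of_le (add_nonneg hx hy) with h | h
  · have hx0 : x = 0 := by linarith only [hx, hy, h]
    have hy0 : y = 0 := by linarith only [hy, hx, h]
    simp only [one_div, hx0, hy0, min_self, mul_zero, harm, add_zero, div_zero, Std.le_refl]
  · unfold harm
    rw [le_div_iff₀ h]
    rcases le_total x y with hxy | hxy
    · rw [min_eq_left hxy]; linarith only [mul_nonneg (sub_nonneg.2 hx) (sub_nonneg.2 hxy)]
    · rw [min_eq_right hxy]; linarith only [mul_nonneg (sub_nonneg.2 hy) (sub_nonneg.2 hxy)]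

theorem phi_nonneg (p : ℝ) : 0 ≤ phi p := by unfold phi; positivity

theorem phi_le_one {p : ℝ} (hp : 0 ≤ p) : phi p ≤ 1 := by
  unfold phi
  have h1 : min 1 (2 * p) ≤ 1 := min_le_left _ _
  have h2 : 0 ≤ min 1 (2 * p) := le_min (by norm_num) (by linarith only [hp])
  linarith only [mul_nonneg (sub_nonneg.2 h1) (sub_nonneg.2 h2), mul_nonneg (sub_nonneg.2 h1) (sub_nonneg.2 h1)]

theorem phi_le_sq {p : ℝ} (hp : 0 ≤ p) : phi p ≤ 4 * p ^ 2 := by
  unfold phi
  have h1 : min 1 (2 * p) ≤ 2 * p := min_le_right _ _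
  have h2 : 0 ≤ min 1 (2 * p) := le_min (by norm_num) (by linarith only [hp])
  linarith only [mul_nonneg (sub_nonneg.2 h1) (sub_nonneg.2 h2), mul_nonneg (sub_nonneg.2 h1) (sub_nonneg.2 h1)]

theorem phi_scale {p t : ℝ} (hp : 0 ≤ p) (ht : 0 ≤ t) (ht1 : t ≤ 1) : t ^ 2 * phi p ≤ phi (t * p) := by
  unfold phi
  have h2 : 0 ≤ min 1 (2 * p) := le_min (by norm_num) (by linarith only [hp])
  have h3 : t * min 1 (2 * p) ≤ min 1 (2 * (t * p)) := by
    apply le_min
    · have := min_le_left (1:ℝ) (2 * p); nlinarith only [ht1, ht, this]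
    · have := min_le_right (1:ℝ) (2 * p); nlinarith only [ht, this]
  have h4 : 0 ≤ t * min 1 (2 * p) := mul_nonneg ht h2
  calc t ^ 2 * (min 1 (2 * p)) ^ 2 = (t * min 1 (2 * p)) ^ 2 := by ring
    _ ≤ _ := by apply pow_le_pow_left₀ h4 h3

theorem phi_mono {p q : ℝ} (hp : 0 ≤ p) (h : p ≤ q) : phi p ≤ phi q := by
  unfold phi
  have h2 : 0 ≤ min 1 (2 * p) := le_min (by norm_num) (by linarith only [hp])
  apply pow_le_pow_left₀ h2
  exact min_le_min_left _ (by linarith)

theorem phi_lip {p q : ℝ} (hp : 0 ≤ p) (hq : 0 ≤ q) : phi p ≤ phi q + 4 * |p - q| := by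
  unfold phi
  have h1 : min 1 (2 * p) ≤ 1 := min_le_left _ _
  have h2 : 0 ≤ min 1 (2 * p) := le_min (by norm_num) (by linarith only [hp])
  have h3 : min 1 (2 * q) ≤ 1 := min_le_left _ _
  have h4 : 0 ≤ min 1 (2 * q) := le_min (by norm_num) (by linarith only [hq])
  have h5 : min 1 (2 * p) - min 1 (2 * q) ≤ 2 * |p - q| := by
    have ha := le_abs_self (p - q)
    have hb := abs_nonneg (p - q)
    rcases le_total 1 (2 * q) with h | h
    · rw [min_eq_left h]; linarith only [h1, hb]
    · rw [min_eq_right h]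
      have := min_le_right (1:ℝ) (2 * p)
      linarith only [ha, this]
  have h6 : 0 ≤ |p - q| := abs_nonneg _
  linarith only [mul_nonneg (sub_nonneg.2 h5) (sub_nonneg.2 h4), mul_nonneg (sub_nonneg.2 h2) (sub_nonneg.2 h5), mul_nonneg (sub_nonneg.2 h6) (sub_nonneg.2 h3), mul_nonneg (sub_nonneg.2 h6) (sub_nonneg.2 h1)]

theorem phi_eq_of_le {p : ℝ} (h : p ≤ 1/2) : phi p = 4 * p ^ 2 := by
  unfold phi
  rw [min_eq_right (by linarith only [h])]; ring

/-- Mixing identity: `W q = m p + X r`, `W = m + X`. -/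
theorem mix_sq {m X p r q : ℝ} (hm : 0 ≤ m) (hX : 0 ≤ X) (h : (m + X) * q = m * p + X * r) :
    (m + X) * q ^ 2 = m * p ^ 2 + X * r ^ 2 - harm m X * (p - r) ^ 2 := by
  rcases eq_or_lt_of_le (add_nonneg hm hX) with h0 | h0
  · have hm0 : m = 0 := by linarith only [hm, hX, h0]
    have hX0 : X = 0 := by linarith only [hX, hm, h0]
    simp only [hm0, hX0, add_zero, zero_mul, harm, mul_zero, div_zero, sub_self]
  · have hq : q = (m * p + X * r) / (m + X) := by field_simp; linarith only [h]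
    unfold harm
    rw [hq]
    field_simp
    ring

/-- potential increment `V' - V = α pc² + β u²`. -/
theorem V_incr {ma mb mc mz Xa Xb Xc pa pb pc qz qa qb : ℝ}
    (hma : 0 ≤ ma) (hmb : 0 ≤ mb) (hmz : 0 ≤ mz)
    (hXa : 0 ≤ Xa) (hXb : 0 ≤ Xb) (hXc : 0 ≤ Xc)
    (hz : (mz + Xc) * qz = Xc * pc)
    (ha : (ma + Xb) * qa = ma * pa + Xb * (1 - pb))
    (hb : (mb + Xa) * qb = mb * pb + Xa * (1 - pa)) :
    mc * pc + (mz + Xc) * (qz * (1 - qz)) + (ma + Xb) * (qa * (1 - qa))
      + (mb + Xa) * (qb * (1 - qb))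
    = (ma + Xa) * (pa * (1 - pa)) + (mb + Xb) * (pb * (1 - pb)) + (mc + Xc) * (pc * (1 - pc))
      + ((mc + harm mz Xc) * pc ^ 2 + (harm ma Xb + harm mb Xa) * (pa + pb - 1) ^ 2) := by
  have h1 := mix_sq hmz hXc (p := 0) (r := pc) (q := qz) (by linarith only [hz])
  have h2 := mix_sq hma hXb ha
  have h3 := mix_sq hmb hXa hb
  have e1 : (mz + Xc) * (qz * (1 - qz)) = (mz + Xc) * qz - (mz + Xc) * qz ^ 2 := by ring
  have e2 : (ma + Xb) * (qa * (1 - qa)) = (ma + Xb) * qa - (ma + Xb) * qa ^ 2 := by ring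
  have e3 : (mb + Xa) * (qb * (1 - qb)) = (mb + Xa) * qb - (mb + Xa) * qb ^ 2 := by ring
  rw [e1, e2, e3, h1, h2, h3, hz, ha, hb]
  ring

/-- the product part of the E-loss -/
theorem prod_loss {B f W Wb Xa mz t phib phib' phic phiz dq pc : ℝ}
    (hB0 : 0 ≤ B) (hBz : B ≤ W) (hBb : B ≤ Wb) (hf : 4 * Xa + 2 * mz ≤ 4 * f) (hf0 : 0 ≤ f)
    (hmz : 0 ≤ mz) (ht0 : 0 ≤ t) (ht1 : t ≤ 1) (hWt : W * (1 - t) = mz)
    (hsc : t ^ 2 * phic ≤ phiz) (hlip : phib ≤ phib' + 4 * dq) (hdq0 : 0 ≤ dq)
    (hdq : Wb * dq ≤ Xa) (h1 : 0 ≤ phib') (h2 : phib' ≤ 1) (h3 : 0 ≤ phic)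
    (hpc2 : phic ≤ 4 * pc ^ 2) :
    B * (phib * phic) ≤ B * (phib' * phiz) + 16 * f * pc ^ 2 := by
  have hab : B * dq ≤ Xa := le_trans (mul_le_mul_of_nonneg_right hBb hdq0) hdq
  have hBt : B * (1 - t ^ 2) ≤ 2 * mz := by
    have e1 : B * (1 - t ^ 2) ≤ W * (1 - t ^ 2) :=
      mul_le_mul_of_nonneg_right hBz (by linarith only [mul_nonneg (sub_nonneg.2 ht1) (sub_nonneg.2 ht0), mul_nonneg (sub_nonneg.2 ht1) (sub_nonneg.2 ht1)])
    have e2 : W * (1 - t ^ 2) = mz * (1 + t) := by
      have : W * (1 - t ^ 2) = (W * (1 - t)) * (1 + t) := by ring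
      rw [this, hWt]
    linarith only [mul_nonneg (sub_nonneg.2 hmz) (sub_nonneg.2 ht1), e2, e1]
  have k1 : B * (phib * phic) ≤ B * phib' * phic + 4 * Xa * phic := by
    have e1 : B * phib ≤ B * phib' + 4 * Xa := by
      have := mul_le_mul_of_nonneg_left hlip hB0
      linarith only [hab, this]
    have := mul_le_mul_of_nonneg_right e1 h3
    linarith only [this]
  have k2 : B * phib' * (t ^ 2 * phic) ≤ B * (phib' * phiz) := by
    have := mul_le_mul_of_nonneg_left hsc (mul_nonneg hB0 h1)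
    linarith only [this]
  have k3 : B * phib' * phic - B * phib' * (t ^ 2 * phic) ≤ 2 * mz * phic := by
    have e1 : B * phib' * phic - B * phib' * (t ^ 2 * phic)
        = (B * (1 - t ^ 2)) * (phib' * phic) := by ring
    rw [e1]
    have e2 : phib' * phic ≤ phic := by nlinarith only [h2, h3]
    have e3 : (B * (1 - t ^ 2)) * (phib' * phic) ≤ 2 * mz * (phib' * phic) :=
      mul_le_mul_of_nonneg_right hBt (mul_nonneg h1 h3)
    have e4 : 2 * mz * (phib' * phic) ≤ 2 * mz * phic :=
      mul_le_mul_of_nonneg_left e2 (by (clear * - hmz; positivity))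
    linarith only [e3, e4]
  have k4 : (4 * Xa + 2 * mz) * phic ≤ (4 * f) * (4 * pc ^ 2) := by
    have e2 : (4 * Xa + 2 * mz) * phic ≤ (4 * f) * phic := mul_le_mul_of_nonneg_right hf h3
    have e3 : (4 * f) * phic ≤ (4 * f) * (4 * pc ^ 2) :=
      mul_le_mul_of_nonneg_left hpc2 (by positivity)
    linarith only [e2, e3]
  linarith only [k1, k2, k3, k4]

/-- `W |p - q| ≤ X` when `W q = m p + X (1 - r)` -/
theorem shift_abs {m X p r q : ℝ} (hm : 0 ≤ m) (hX : 0 ≤ X)
    (p0 : 0 ≤ p) (p1 : p ≤ 1) (r0 : 0 ≤ r) (r1 : r ≤ 1)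
    (h : (m + X) * q = m * p + X * (1 - r)) : (m + X) * |p - q| ≤ X := by
  have h2 : (m + X) * |p - q| = |(m + X) * (p - q)| := by
    rw [abs_mul, abs_of_nonneg (by positivity : 0 ≤ m + X)]
  have h3 : (m + X) * (p - q) = X * (r + p - 1) := by linarith only [h]
  have h4 : |r + p - 1| ≤ 1 := by rw [abs_le]; constructor <;> linarith only [p0, r0, p1, r1]
  rw [h2, h3, abs_mul, abs_of_nonneg hX]
  linarith only [mul_nonneg (sub_nonneg.2 hX) (sub_nonneg.2 h4)]

/-- kept vertex: loss of the E-term. -/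
theorem keptE_core {ma mb mc mz Xa Xb Xc pa pb pc qz qb : ℝ}
    (hma : 0 ≤ ma) (hmb : 0 ≤ mb) (hmc : 0 ≤ mc) (hmz : 0 ≤ mz)
    (hXa : 0 ≤ Xa) (hXb : 0 ≤ Xb) (hXc : 0 ≤ Xc)
    (pa0 : 0 ≤ pa) (pa1 : pa ≤ 1) (pb0 : 0 ≤ pb) (pb1 : pb ≤ 1) (pc0 : 0 ≤ pc)
    (qb0 : 0 ≤ qb)
    (hz : (mz + Xc) * qz = Xc * pc)
    (hb : (mb + Xa) * qb = mb * pb + Xa * (1 - pa)) :
    max 0 (min (mb + Xb) (mc + Xc) - (ma + Xa)) * (phi pb * phi pc)
      ≤ max 0 (min (mb + Xa) (mz + Xc) - (ma + Xb)) * (phi qb * phi qz)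
        + 24 * (mz + mc + Xa + Xb) * pc ^ 2 := by
  obtain ⟨A, hA⟩ : ∃ A, A = max 0 (min (mb + Xb) (mc + Xc) - (ma + Xa)) := ⟨_, rfl⟩
  obtain ⟨B, hB⟩ : ∃ B, B = max 0 (min (mb + Xa) (mz + Xc) - (ma + Xb)) := ⟨_, rfl⟩
  obtain ⟨f, hf⟩ : ∃ f, f = mz + mc + Xa + Xb := ⟨_, rfl⟩
  rw [← hA, ← hB, ← hf]
  have hf0 : 0 ≤ f := by rw [hf]; (clear * - hmz hmc hXa hXb; positivity)
  have hB0 : 0 ≤ B := by rw [hB]; exact le_max_left _ _
  have hAB : A ≤ B + 2 * f := by
    rw [hA]
    apply max_le (by (clear * - hB0 hf0; positivity))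
    have h1 : min (mb + Xb) (mc + Xc) ≤ min (mb + Xa) (mz + Xc) + f := by
      rw [← min_add_add_right]
      apply min_le_min <;> linarith only [hmc, hmz, hXa, hf, hXb]
    have h2 : min (mb + Xa) (mz + Xc) - (ma + Xb) ≤ B := by rw [hB]; exact le_max_right _ _
    linarith only [hmc, hmz, hXa, hf, h1, h2]
  have hphi : phi pb * phi pc ≤ phi pc := by
    have := phi_le_one pb0; have := phi_nonneg pc; (clear ma mb mc mz Xa Xb Xc pa qz qb hma hmb hmc hmz hXa hXb hXc pa0 pa1 pb1 pc0 qb0 hz hb A hA B hB f hf hf0 hB0 hAB; nlinarith)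
  have hpc2 : phi pc ≤ 4 * pc ^ 2 := phi_le_sq pc0
  have hpp : 0 ≤ phi pb * phi pc := mul_nonneg (phi_nonneg _) (phi_nonneg _)
  have s1 : A * (phi pb * phi pc) ≤ B * (phi pb * phi pc) + 8 * f * pc ^ 2 := by
    have h1 : A * (phi pb * phi pc) ≤ (B + 2 * f) * (phi pb * phi pc) :=
      mul_le_mul_of_nonneg_right hAB hpp
    have h2 : 2 * f * (phi pb * phi pc) ≤ 2 * f * (4 * pc ^ 2) :=
      mul_le_mul_of_nonneg_left (hphi.trans hpc2) (by (clear * - hf0; positivity))
    linarith only [h1, h2]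
  have s2 : B * (phi pb * phi pc) ≤ B * (phi qb * phi qz) + 16 * f * pc ^ 2 := by
    rcases eq_or_lt_of_le (add_nonneg hmz hXc) with h0 | h0
    · have : B = 0 := by
        rw [hB]; apply max_eq_left
        have : min (mb + Xa) (mz + Xc) ≤ mz + Xc := min_le_right _ _
        linarith only [hma, hXb, h0, this]
      rw [this]; simp only [zero_mul, zero_add, ge_iff_le]; (clear * - hf0; positivity)
    · have ht0 : 0 ≤ Xc / (mz + Xc) := by (clear * - hXc h0; positivity)
      have ht1 : Xc / (mz + Xc) ≤ 1 := by rw [div_le_one h0]; linarith only [hmz]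
      have hqz : qz = Xc / (mz + Xc) * pc := by field_simp; linarith only [hz]
      have hsc : (Xc / (mz + Xc)) ^ 2 * phi pc ≤ phi qz := by
        rw [hqz]; exact phi_scale pc0 ht0 ht1
      have hBz : B ≤ mz + Xc := by
        rw [hB]; apply max_le h0.le
        have : min (mb + Xa) (mz + Xc) ≤ mz + Xc := min_le_right _ _
        linarith only [hma, hXb, this]
      have hBb : B ≤ mb + Xa := by
        rw [hB]; apply max_le (by (clear * - hmb hXa; positivity))
        have : min (mb + Xa) (mz + Xc) ≤ mb + Xa := min_le_left _ _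
        linarith only [hma, hXb, this]
      exact prod_loss hB0 hBz hBb (by linarith only [hmc, hmz, hXb, hf]) hf0 hmz ht0 ht1 (by field_simp; ring) hsc
        (phi_lip pb0 qb0) (abs_nonneg _) (shift_abs hmb hXa pb0 pb1 pa0 pa1 hb)
        (phi_nonneg _) (phi_le_one qb0) (phi_nonneg _) hpc2
  linarith only [s1, s2]

end Vale.Agent.P235.Tri
end
end
end

section

section

section

/-!
Treewidth 3: symmetries of the basic structures (`rot`: `(a,b,c) → (b,c,a)`, `swap`: `a ↔ b`).
-/

namespace Vale.Agent.P235.Tri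

theorem harm_ge' {x y m : ℝ} (hx : m ≤ x) (hy : m ≤ y) (hm : 0 < m) : m / 2 ≤ harm x y := by
  unfold harm
  have h1 : 0 < x := lt_of_lt_of_le hm hx
  have h2 : 0 < y := lt_of_lt_of_le hm hy
  rw [div_le_div_iff₀ (by norm_num) (by (clear * - h1 h2; positivity))]
  linarith only [mul_nonneg (sub_nonneg.2 hy) (le_of_lt (sub_pos.2 h1)), mul_nonneg (sub_nonneg.2 hx) (le_of_lt (sub_pos.2 h2))]

theorem Good.rot {oa ob oc va vb vc : ℝ} (h : Good oa ob oc va vb vc) :
    Good ob oc oa vb vc va :=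
  ⟨h.ob0, h.oc0, h.oa0, h.vb0, h.vc0, h.va0, h.dbc, h.dca, h.dab, by
    have := h.E; linarith⟩

theorem Good.swap {oa ob oc va vb vc : ℝ} (h : Good oa ob oc va vb vc) :
    Good ob oa oc vb va vc :=
  ⟨h.ob0, h.oa0, h.oc0, h.vb0, h.va0, h.vc0, by linarith only [h.dab], by linarith only [h.dca],
    by linarith [h.dbc], by linarith only [h.E]⟩

theorem Ext.rot {oa ob oc ya yb yc : ℝ} (h : Ext oa ob oc ya yb yc) :
    Ext ob oc oa yb yc ya :=
  ⟨h.tbc, h.tca, h.tab, h.ybc, h.ycb, h.yca, h.yac, h.yab, h.yba⟩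

theorem Ext.swap {oa ob oc ya yb yc : ℝ} (h : Ext oa ob oc ya yb yc) :
    Ext ob oa oc yb ya yc :=
  ⟨by linarith only [h.tab], by linarith only [h.tca], by linarith only [h.tbc], by linarith [h.yba],
    by linarith [h.yab], by linarith [h.yac], by linarith [h.yca], by linarith [h.ycb],
    by linarith [h.ybc]⟩

theorem MassF.rot {va vb vc ya yb yc mu xa xb xc : ℝ} (h : MassF va vb vc ya yb yc mu xa xb xc) :
    MassF vb vc va yb yc ya mu xb xc xa :=
  ⟨h.mu0, h.xb0, h.xc0, h.xa0, h.xbv, h.xcv, h.xav, by linarith only [h.Fb], by linarith only [h.Fc],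
    by linarith [h.Fa]⟩

theorem MassF.swap {va vb vc ya yb yc mu xa xb xc : ℝ} (h : MassF va vb vc ya yb yc mu xa xb xc) :
    MassF vb va vc yb ya yc mu xb xa xc :=
  ⟨h.mu0, h.xb0, h.xa0, h.xc0, h.xbv, h.xav, h.xcv, by linarith [h.Fb], by linarith only [h.Fa],
    by linarith [h.Fc]⟩

theorem min3_rot (x y z : ℝ) : min x (min y z) = min y (min z x) := by
  rw [min_comm x, min_assoc]

theorem MassD.rot {oa ob oc ya yb yc nu ta tb tc : ℝ}
    (h : MassD oa ob oc ya yb yc nu ta tb tc) : MassD ob oc oa yb yc ya nu tb tc ta := by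
  refine ⟨h.nu0, h.tb0, h.tc0, h.ta0, h.tbo, h.tco, h.tao, by linarith only [h.Db], by linarith only [h.Dc],
    by linarith [h.Da], ?_, ?_, ?_, ?_⟩
  · exact h.leafb
  · exact h.leafc
  · exact h.leafa
  · have := h.leafz
    rw [min3_rot] at this
    exact this

theorem MassD.swap {oa ob oc ya yb yc nu ta tb tc : ℝ}
    (h : MassD oa ob oc ya yb yc nu ta tb tc) : MassD ob oa oc yb ya yc nu tb ta tc := by
  refine ⟨h.nu0, h.tb0, h.ta0, h.tc0, h.tbo, h.tao, h.tco, by linarith only [h.Db], by linarith only [h.Da],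
    by linarith [h.Dc], ?_, ?_, ?_, ?_⟩
  · have := h.leafb
    rw [min_comm ((ob + oc + yb - yc)/2)] at this
    exact this
  · have := h.leafa
    rw [min_comm ((oa + ob + ya - yb)/2)] at this
    exact this
  · have := h.leafc
    rw [min_comm ((oc + oa + yc - ya)/2)] at this
    exact this
  · have := h.leafz
    have e : min ((yb + ya - ob - oa)/2) (min ((ya + yc - oa - oc)/2) ((yc + yb - oc - ob)/2))
        = min ((ya + yb - oa - ob)/2) (min ((yb + yc - ob - oc)/2) ((yc + ya - oc - oa)/2)) := by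
      rw [min_comm ((ya + yc - oa - oc)/2)]
      congr 1
      · ring
      · congr 1 <;> ring
    rw [e]; exact this

theorem LawN.rot {va vb vc ya yb yc mu xa xb xc : ℝ} (h : LawN va vb vc ya yb yc mu xa xb xc) :
    LawN vb vc va yb yc ya mu xb xc xa := by
  refine ⟨h.lb, h.lc, h.la, h.jb, h.jc, h.ja, ?_, ?_, ?_, ?_, ?_, ?_, ?_⟩
  · linarith only [h.rb]
  · linarith only [h.rc]
  · linarith [h.ra]
  · exact h.zb
  · exact h.zc
  · exact h.za
  · obtain ⟨ea, eb, ec, h1, h2, h3, h4⟩ := h.U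
    refine ⟨eb, ec, ea, h2, h3, h1, ?_⟩
    rcases h4 with h4 | h4 | h4
    · exact Or.inr (Or.inr ⟨h4.1, h4.2.1, h4.2.2⟩)
    · exact Or.inl ⟨h4.1, h4.2.1, h4.2.2⟩
    · exact Or.inr (Or.inl ⟨h4.1, h4.2.1, h4.2.2⟩)

theorem LawN.swap {va vb vc ya yb yc mu xa xb xc : ℝ} (h : LawN va vb vc ya yb yc mu xa xb xc) :
    LawN vb va vc yb ya yc mu xb xa xc := by
  refine ⟨h.lb, h.la, h.lc, ?_, ?_, ?_, ?_, ?_, ?_, ?_, ?_, ?_, ?_⟩
  · have e : min (min vb ya) (min yc ((ya + yc - va - vc)/2))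
        = min (min vb yc) (min ya ((yc + ya - vc - va)/2)) := by
      have e1 : (ya + yc - va - vc)/2 = (yc + ya - vc - va)/2 := by ring
      rw [e1]
      simp only [min_assoc]
      congr 1
      rw [← min_assoc, ← min_assoc, min_comm ya]
    rw [e]; exact h.jb
  · have e : min (min va yc) (min yb ((yc + yb - vc - vb)/2))
        = min (min va yb) (min yc ((yb + yc - vb - vc)/2)) := by
      have e1 : (yc + yb - vc - vb)/2 = (yb + yc - vb - vc)/2 := by ring
      rw [e1]
      simp only [min_assoc]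
      congr 1
      rw [← min_assoc, ← min_assoc, min_comm yc]
    rw [e]; exact h.ja
  · have e : min (min vc yb) (min ya ((yb + ya - vb - va)/2))
        = min (min vc ya) (min yb ((ya + yb - va - vb)/2)) := by
      have e1 : (yb + ya - vb - va)/2 = (ya + yb - va - vb)/2 := by ring
      rw [e1]
      simp only [min_assoc]
      congr 1
      rw [← min_assoc, ← min_assoc, min_comm yb]
    rw [e]; exact h.jc
  · linarith [h.rb]
  · linarith [h.ra]
  · linarith only [h.rc]
  · have e : min (min vb ya) (min yc ((ya + yc - va - vc)/2))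
        = min (min vb yc) (min ya ((yc + ya - vc - va)/2)) := by
      have e1 : (ya + yc - va - vc)/2 = (yc + ya - vc - va)/2 := by ring
      rw [e1]
      simp only [min_assoc]
      congr 1
      rw [← min_assoc, ← min_assoc, min_comm ya]
    rw [e, max_comm va vc, min_comm (ya - va)]
    exact h.zb
  · have e : min (min va yc) (min yb ((yc + yb - vc - vb)/2))
        = min (min va yb) (min yc ((yb + yc - vb - vc)/2)) := by
      have e1 : (yc + yb - vc - vb)/2 = (yb + yc - vb - vc)/2 := by ring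
      rw [e1]
      simp only [min_assoc]
      congr 1
      rw [← min_assoc, ← min_assoc, min_comm yc]
    rw [e, max_comm vc vb, min_comm (yc - vc)]
    exact h.za
  · have e : min (min vc yb) (min ya ((yb + ya - vb - va)/2))
        = min (min vc ya) (min yb ((ya + yb - va - vb)/2)) := by
      have e1 : (yb + ya - vb - va)/2 = (ya + yb - va - vb)/2 := by ring
      rw [e1]
      simp only [min_assoc]
      congr 1
      rw [← min_assoc, ← min_assoc, min_comm yb]
    rw [e, max_comm vb va, min_comm (yb - vb)]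
    exact h.zc
  · obtain ⟨ea, eb, ec, h1, h2, h3, h4⟩ := h.U
    refine ⟨eb, ea, ec, ?_, ?_, ?_, ?_⟩
    · rw [h2, min_comm (yc - vc)]
    · rw [h1, min_comm (yb - vb)]
    · rw [h3, min_comm (ya - va)]
    · rcases h4 with h4 | h4 | h4
      · exact Or.inr (Or.inl ⟨h4.2.1, h4.1, h4.2.2⟩)
      · exact Or.inl ⟨h4.2.1, h4.1, h4.2.2⟩
      · exact Or.inr (Or.inr ⟨h4.2.1, h4.1, h4.2.2⟩)

end Vale.Agent.P235.Tri
end
end
end

section

section

section

/-!
Treewidth 3: the `d` part of the masses exists (A0).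
-/

namespace Vale.Agent.P235.Tri

theorem massD_exists {oa ob oc va vb vc ya yb yc : ℝ}
    (G : Good oa ob oc va vb vc) (X : Ext oa ob oc ya yb yc) :
    ∃ nu ta tb tc : ℝ, MassD oa ob oc ya yb yc nu ta tb tc := by
  have oa0 := G.oa0
  have ob0 := G.ob0
  have oc0 := G.oc0
  clear G
  obtain ⟨tab, tbc, tca, yab, yba, ybc, ycb, yca, yac⟩ := X
  obtain ⟨M, hM⟩ : ∃ M, M = max (ya + ob + oc) (max (yb + oa + oc) (yc + oa + ob)) := ⟨_, rfl⟩
  have m1 : ya + ob + oc ≤ M := by rw [hM]; exact le_max_left _ _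
  have m2 : yb + oa + oc ≤ M := by
    rw [hM]; exact le_trans (le_max_left _ _) (le_max_right _ _)
  have m3 : yc + oa + ob ≤ M := by
    rw [hM]; exact le_trans (le_max_right _ _) (le_max_right _ _)
  have hcase : M = ya + ob + oc ∨ M = yb + oa + oc ∨ M = yc + oa + ob := by
    rw [hM]
    rcases max_choice (ya + ob + oc) (max (yb + oa + oc) (yc + oa + ob)) with h | h
    · exact Or.inl h
    · rcases max_choice (yb + oa + oc) (yc + oa + ob) with h' | h'
      · exact Or.inr (Or.inl (by rw [h, h']))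
      · exact Or.inr (Or.inr (by rw [h, h']))
  clear hM
  refine ⟨(ya + yb + yc - M)/2, (M - ya - ob - oc)/2, (M - yb - oa - oc)/2,
    (M - yc - oa - ob)/2, ?_⟩
  have leafgen : ∀ {x y z w : ℝ}, (x ≤ w ∨ y ≤ w ∨ z ≤ w) → 0 ≤ w →
      (1/2) * min x (min y z) ≤ w := by
    intro x y z w h hw
    rcases h with h | h | h
    · have := min_le_left x (min y z)
      linarith only [hw, h, this]
    · have := le_trans (min_le_right x (min y z)) (min_le_left y z)
      linarith only [hw, h, this]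
    · have := le_trans (min_le_right x (min y z)) (min_le_right y z)
      linarith only [hw, h, this]
  have w0 : 0 ≤ (ya + yb + yc - M)/2 := by
    rcases hcase with h | h | h <;> linarith only [tab, h, tbc, tca]
  have wa : 0 ≤ oa - (M - ya - ob - oc)/2 := by
    rcases hcase with h | h | h <;> linarith only [h, yba, yca, oa0]
  have wb : 0 ≤ ob - (M - yb - oa - oc)/2 := by
    rcases hcase with h | h | h <;> linarith only [h, yab, ycb, ob0]
  have wc : 0 ≤ oc - (M - yc - oa - ob)/2 := by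
    rcases hcase with h | h | h <;> linarith only [oc0, h, yac, ybc]
  refine ⟨w0, by linarith only [m1], by linarith only [m2], by linarith only [m3], by linarith only [wa], by linarith only [wb], by linarith only [wc],
    by ring, by ring, by ring, ?_, ?_, ?_, ?_⟩
  · refine leafgen ?_ wa
    rcases hcase with h | h | h
    · left; linarith only [h]
    · right; left; linarith only [h]
    · right; right; linarith only [h]
  · refine leafgen ?_ wb
    rcases hcase with h | h | h
    · right; right; linarith only [h]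
    · left; linarith only [h]
    · right; left; linarith only [h]
  · refine leafgen ?_ wc
    rcases hcase with h | h | h
    · right; left; linarith only [h]
    · right; right; linarith only [h]
    · left; linarith only [h]
  · refine leafgen ?_ w0
    rcases hcase with h | h | h
    · right; left; linarith only [h]
    · right; right; linarith only [h]
    · left; linarith only [h]

end Vale.Agent.P235.Tri
end
end
end

section

section

section

/-!
Treewidth 3: facts P2 (A3) for the generic law.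
-/

namespace Vale.Agent.P235.Tri

/-- The left alternative of `P2` for the generic law, kept vertex `a`. -/
theorem p2_core {oa ob oc va vb vc ya yb yc mu xa xb xc nu ta tb tc : ℝ}
    (G : Good oa ob oc va vb vc) (X : Ext oa ob oc ya yb yc)
    (M : MassF va vb vc ya yb yc mu xa xb xc) (N : MassD oa ob oc ya yb yc nu ta tb tc)
    (L : LawN va vb vc ya yb yc mu xa xb xc) :
    min ((ob + oc - vb - vc) - 4 * ((oa + ob - va - vb) + (oa + oc - va - vc))) yc
      ≤ 10^5 * (harm ((va - xa) + (oa - ta)/32) (xb + tb/32)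
        + harm ((vb - xb) + (ob - tb)/32) (xa + ta/32)) := by
  obtain ⟨mu0, xa0, xb0, xc0, xav, xbv, xcv, Fa, Fb, Fc⟩ := M
  obtain ⟨nu0, ta0, tb0, tc0, tao, tbo, tco, Da, Db, Dc, -, -, -, -⟩ := N
  have hla := L.la
  have hja := L.ja
  have va0 := G.va0
  have vb0 := G.vb0
  have vc0 := G.vc0
  have ob0 := G.ob0
  have dab := G.dab
  have dbc := G.dbc
  have dca := G.dca
  have tbc := X.tbc
  clear L
  obtain ⟨γ, hγ⟩ : ∃ γ, γ = min ((ob + oc - vb - vc) -
    4 * ((oa + ob - va - vb) + (oa + oc - va - vc))) yc := ⟨_, rfl⟩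
  have hγ1 : γ ≤ (ob + oc - vb - vc) - 4 * ((oa + ob - va - vb) + (oa + oc - va - vc)) := by
    rw [hγ]; exact min_le_left _ _
  have hγ2 : γ ≤ yc := by rw [hγ]; exact min_le_right _ _
  rw [← hγ]
  clear hγ
  have hH1 : 0 ≤ harm ((va - xa) + (oa - ta)/32) (xb + tb/32) :=
    harm_nonneg (by linarith only [xav, tao]) (by linarith only [xb0, tb0])
  have hH2 : 0 ≤ harm ((vb - xb) + (ob - tb)/32) (xa + ta/32) :=
    harm_nonneg (by linarith only [xbv, tbo]) (by linarith only [xa0, ta0])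
  rcases le_or_gt γ 0 with hγ0 | hγ0
  · linarith only [hH1, hH2, hγ0]
  have f1 : γ / 2 ≤ va := by
    have : γ ≤ 2 * (va - oa) := by linarith only [dab, dca, hγ1]
    linarith only [ta0, tao, dab, dca, hγ1]
  have f2 : γ / 2 ≤ ob := by
    have : γ ≤ 2 * (va - oa) := by linarith only [dab, dca, hγ1]
    linarith only [xb0, xbv, dab, dca, hγ1]
  have f3 : γ / 2 ≤ (yb + yc - vb - vc)/2 := by linarith only [nu0, ta0, Db, Dc, dab, dca, hγ1]
  rcases le_or_gt (γ/1000) yb with hb | hb
  · -- `yb` big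
    have hx : γ/24000 ≤ xa + ta/32 := by
      have : γ/1000 ≤ min (min va yb) (min yc ((yb + yc - vb - vc)/2)) :=
        le_min (le_min (by linarith only [ta0, tao, dab, dca, hγ1, hγ0]) hb) (le_min (by linarith only [hγ2, hγ0]) (by linarith only [nu0, ta0, Db, Dc, dab, dca, hγ1, hγ0]))
      linarith only [this, hja, ta0]
    rcases le_or_gt (γ/50000) ((vb - xb) + (ob - tb)/32) with hm | hm
    · have hx' : γ/50000 ≤ xa + ta/32 := by linarith only [hγ0, hx]
      have := harm_ge' hm hx' (by linarith only [hγ0])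
      linarith only [hH1, this]
    · have hX : γ/100 ≤ xb + tb/32 := by linarith only [xb0, xbv, dab, dca, hγ1, hγ0, hm]
      rcases le_or_gt (γ/1000) ya with ha | ha
      · have hma : γ/8000 ≤ (va - xa) + (oa - ta)/32 := by
          have : γ/1000 ≤ min va ya := le_min (by linarith only [ta0, tao, dab, dca, hγ1, hγ0]) ha
          linarith only [tao, hla, this]
        have hX' : γ/8000 ≤ xb + tb/32 := by linarith only [xb0, xbv, dab, dca, hγ1, hγ0, hm]
        have := harm_ge' hma hX' (by linarith only [hγ0])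
        linarith only [hH2, hγ0, this]
      · exfalso
        linarith only [mu0, xb0, xc0, xbv, Fa, Fb, tao, Da, Db, dab, dca, hγ1, hγ0, hm, ha]
  · have hX : γ/100 ≤ xb + tb/32 := by linarith only [mu0, xb0, xc0, xbv, Fa, Fb, ta0, Da, Db, dab, dca, hγ1, hγ0, hb]
    have hma : γ/100 ≤ (va - xa) + (oa - ta)/32 := by linarith only [mu0, xc0, xbv, Fb, ta0, tao, dab, dca, hγ1, hγ0, hb]
    have := harm_ge' hma hX (by linarith only [hγ0])
    linarith only [hH2, hγ0, this]

theorem p2_N {oa ob oc va vb vc ya yb yc mu xa xb xc nu ta tb tc vz va' vb' : ℝ}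
    (G : Good oa ob oc va vb vc) (X : Ext oa ob oc ya yb yc)
    (M : MassF va vb vc ya yb yc mu xa xb xc) (N : MassD oa ob oc ya yb yc nu ta tb tc)
    (L : LawN va vb vc ya yb yc mu xa xb xc) :
    P2 oa ob oc va vb vc ya yb yc ((va - xa) + (oa - ta)/32) ((vb - xb) + (ob - tb)/32)
        (xa + ta/32) (xb + tb/32) vz va' vb' :=
  Or.inl (p2_core G X M N L)

end Vale.Agent.P235.Tri
end
end
end

section

section

section

/-!
Treewidth 3: the exceptional law (B0, B1, B2): validity and faces.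
-/

namespace Vale.Agent.P235.Tri

/-- linear facts about the exceptional law -/
structure CFac (oa ob oc va vb vc ya yb yc mu xa xb xc : ℝ) : Prop where
  yc0 : 0 ≤ yc
  hvc : yc < vc
  mu0 : mu = 0
  z0 : 0 < (ya + yb - oa - ob)/2
  a0 : 0 < (oa + ob + ya - yb)/2
  b0 : 0 < (oa + ob + yb - ya)/2
  A1 : ya + yc - va - vc ≤ (1/128) * ((ya + yb - oa - ob)/2)
  A2 : ya + yc - va - vc ≤ (1/128) * ((oa + ob + ya - yb)/2)
  A3 : yb + yc - vb - vc ≤ (1/128) * ((ya + yb - oa - ob)/2)
  A4 : yb + yc - vb - vc ≤ (1/128) * ((oa + ob + yb - ya)/2)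
  B1 : oa + ob - va - vb ≤ (1/1024) * ((oa + ob + ya - yb)/2)
  B2 : oa + ob - va - vb ≤ (1/1024) * ((oa + ob + yb - ya)/2)
  dab : va + vb ≤ oa + ob
  dbc : vb + vc ≤ ob + oc
  dca : vc + va ≤ oc + oa
  tca : oc + oa ≤ yc + ya
  tbc : ob + oc ≤ yb + yc
  yac : ya ≤ yc + (oc + oa)
  ybc : yb ≤ yc + (ob + oc)
  hxc : xc = vc - yc + xa + xb
  xb1 : (ya + yc - oa - oc)/8 ≤ xb
  xb2 : xb ≤ (ya + yc - oa - oc)/8 + (oa + oc - va - vc)/8
  xa1 : (yb + yc - ob - oc)/8 ≤ xa
  xa2 : xa ≤ (yb + yc - ob - oc)/8 + (ob + oc - vb - vc)/8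
  xab : xa + xb ≤ (51/100) * yc
  va1 : (99/100) * ((oa + ob + ya - yb)/2) + (yb + yc - ob - oc)/2 + (ob + oc - vb - vc)/2 ≤ va
  vb1 : (99/100) * ((oa + ob + yb - ya)/2) + (ya + yc - oa - oc)/2 + (oa + oc - va - vc)/2 ≤ vb
  vz1 : (63/64) * ((ya + yb - oa - ob)/2) ≤ xc
  oc1 : yc + (127/128) * ((ya + yb - oa - ob)/2) ≤ oc
  oa1 : (99/100) * ((oa + ob + ya - yb)/2) ≤ oa
  ob1 : (99/100) * ((oa + ob + yb - ya)/2) ≤ ob
  xbm : (8 * xb - (ya + yc - oa - oc)) * (oc * ya)
      = (oa + oc - va - vc) * (yc * ((oa + ob + ya - yb)/2))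
  xam : (8 * xa - (yb + yc - ob - oc)) * (oc * yb)
      = (ob + oc - vb - vc) * (yc * ((oa + ob + yb - ya)/2))

theorem cprod_aux {δ yc oc p y h : ℝ} (hδ : 0 ≤ δ) (hyc : 0 ≤ yc) (hoc : 0 < oc) (hp : 0 < p)
    (hy : y = h + p) (hh : 0 < h) (h1 : yc ≤ oc) (h2 : 127 * δ ≤ oc) :
    0 ≤ δ * (yc/oc) * (p/y) ∧ δ * (yc/oc) * (p/y) ≤ δ ∧ δ * (yc/oc) * (p/y) ≤ yc/127 ∧
    (δ * (yc/oc) * (p/y)) * (oc * y) = δ * (yc * p) := by
  have hy0 : 0 < y := by linarith only [hp, hy, hh]
  have r0 : 0 ≤ yc/oc := by (clear * - hyc hoc; positivity)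
  have r1 : yc/oc ≤ 1 := by rw [div_le_one hoc]; exact h1
  have s0 : 0 ≤ p/y := by positivity
  have s1 : p/y ≤ 1 := by rw [div_le_one hy0]; linarith only [hy, hh]
  have t0 : 0 ≤ δ * (yc/oc) := mul_nonneg hδ r0
  have t1 : δ * (yc/oc) ≤ δ := by
    have := mul_le_mul_of_nonneg_left r1 hδ
    linarith only [this]
  have t2 : δ * (yc/oc) ≤ yc/127 := by
    have e : δ * (yc/oc) = (δ * yc)/oc := by ring
    rw [e, div_le_iff₀ hoc]
    have := mul_le_mul_of_nonneg_right h2 hyc
    linarith only [this]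
  have u : δ * (yc/oc) * (p/y) ≤ δ * (yc/oc) := by
    have := mul_le_mul_of_nonneg_left s1 t0
    linarith only [this]
  refine ⟨mul_nonneg t0 s0, by linarith only [t1, u], by (clear * - t2 u; linarith only [u, t2]), ?_⟩
  (clear * - hoc hy0 hp; field_simp)

theorem cfacts {oa ob oc va vb vc ya yb yc mu xa xb xc : ℝ}
    (G : Good oa ob oc va vb vc) (X : Ext oa ob oc ya yb yc)
    (C : LawC oa ob oc va vb vc ya yb yc mu xa xb xc) :
    CFac oa ob oc va vb vc ya yb yc mu xa xb xc := by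
  obtain ⟨hvc, z0, a0, b0, A1, A2, A3, A4, B1, B2, hmu, hxb, hxa, hxc⟩ := C
  have dab := G.dab
  have dbc := G.dbc
  have dca := G.dca
  have tab := X.tab
  have tbc := X.tbc
  have tca := X.tca
  have yac := X.yac
  have ybc := X.ybc
  have yc0 : 0 ≤ yc := by linarith only [tca, yac]
  have oc1 : yc + (127/128) * ((ya + yb - oa - ob)/2) ≤ oc := by linarith only [dca, dbc, A3, A1]
  have hoc : 0 < oc := by linarith only [z0, A3, dbc, yac]
  obtain ⟨p1, p2, p3, p4⟩ := cprod_aux (δ := oa + oc - va - vc) (yc := yc) (oc := oc)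
    (p := (oa + ob + ya - yb)/2) (y := ya) (h := (ya + yb - oa - ob)/2) (by linarith only [dca]) yc0 hoc a0
    (by ring) z0 (by linarith only [dca, dbc, A3, A1, z0]) (by linarith only [z0, A1, A3, dbc, tca, yac])
  obtain ⟨q1, q2, q3, q4⟩ := cprod_aux (δ := ob + oc - vb - vc) (yc := yc) (oc := oc)
    (p := (oa + ob + yb - ya)/2) (y := yb) (h := (ya + yb - oa - ob)/2) (by linarith only [dbc]) yc0 hoc b0
    (by ring) z0 (by linarith only [dca, dbc, A3, A1, z0]) (by linarith only [z0, A3, tbc, yac])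
  obtain ⟨P, hP⟩ : ∃ P, P = (oa + oc - va - vc) * (yc/oc) * (((oa + ob + ya - yb)/2) / ya) :=
    ⟨_, rfl⟩
  obtain ⟨Q, hQ⟩ : ∃ Q, Q = (ob + oc - vb - vc) * (yc/oc) * (((oa + ob + yb - ya)/2) / yb) :=
    ⟨_, rfl⟩
  have hxb' : xb = (ya + yc - oa - oc)/8 + (1/8) * P := by rw [hP, hxb]; ring
  have hxa' : xa = (yb + yc - ob - oc)/8 + (1/8) * Q := by rw [hQ, hxa]; ring
  rw [← hP] at p1 p2 p3 p4
  rw [← hQ] at q1 q2 q3 q4
  clear hxa hxb hP hQ
  refine
    { yc0 := yc0, hvc := hvc, mu0 := hmu, z0 := z0, a0 := a0, b0 := b0, A1 := A1, A2 := A2,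
      A3 := A3, A4 := A4, B1 := B1, B2 := B2, dab := dab, dbc := dbc, dca := dca, tca := tca,
      tbc := tbc, yac := yac, ybc := ybc, hxc := hxc, xb1 := by linarith only [p1, hxb'], xb2 := by linarith only [p2, hxb'],
      xa1 := by linarith only [hxa', q1], xa2 := by linarith only [q2, hxa'], xab := by (clear * - tbc yac ybc p3 q3 hxb' hxa'; linarith), va1 := by linarith only [B1, A2, a0],
      vb1 := by linarith only [b0, A4, B2], vz1 := by linarith only [hvc, A1, A3, hxc, dab, tbc, tca, p1, q1, hxb', hxa'], oc1 := oc1, oa1 := by linarith only [tbc, dca, A2, a0], ob1 := by linarith only [tca, dbc, A4, b0],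
      xbm := ?_, xam := ?_ }
  · have e : 8 * xb - (ya + yc - oa - oc) = P := by linarith only [hxb']
    rw [e]; exact p4
  · have e : 8 * xa - (yb + yc - ob - oc) = Q := by linarith only [hxa']
    rw [e]; exact q4

/-- (B0) -/
theorem massF_C {oa ob oc va vb vc ya yb yc mu xa xb xc : ℝ}
    (F : CFac oa ob oc va vb vc ya yb yc mu xa xb xc) :
    MassF va vb vc ya yb yc mu xa xb xc := by
  obtain ⟨yc0, hvc, mu0, z0, a0, b0, A1, A2, A3, A4, B1, B2, dab, dbc, dca, tca, tbc, yac, ybc,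
    hxc, xb1, xb2, xa1, xa2, xab, va1, vb1, vz1, oc1, oa1, ob1, -, -⟩ := F
  refine ⟨by linarith only [mu0], by linarith only [tbc, xa1], by linarith only [tca, xb1], by linarith only [xa1, xb1, hxc, tbc, tca, hvc], by linarith only [a0, A2, B1, dbc, tbc, xa2], by linarith only [b0, A4, B2, dca, tca, xb2],
    by linarith only [yc0, hxc, xab], by linarith only [mu0, dca, tca, hxc, xb2], by linarith only [mu0, dbc, tbc, hxc, xa2], by linarith only [mu0, hxc]⟩

end Vale.Agent.P235.Tri
end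
end
end

section

section

section

namespace Vale.Agent.P235

open Finset

/-- Distance between `x` and `z` after gluing along a pair at distance `D`, where `a, b` are the
distances of `x` to the pair and `zs, zt` those of `z`. -/
noncomputable def comp (D a b zs zt : ℝ) : ℝ :=
  (a + b - D) / 2 + ((D - a + b) / (2 * D)) * zs + ((D + a - b) / (2 * D)) * zt

theorem IsL1.normalize {V : Type} {F : V → V → ℝ} (h : IsL1 F) (s : V) :
    ∃ (ι : Type) (_ : Fintype ι) (w : ι → ℝ) (c : ι → V → Bool),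
    (∀ i, 0 ≤ w i) ∧ (∀ i, c i s = false) ∧
      ∀ x y, F x y = ∑ i, w i * (if c i x = c i y then 0 else 1) := by
  obtain ⟨ι, _, w, c, hw, hF⟩ := h
  refine ⟨ι, inferInstance, w, fun i x => xor (c i x) (c i s), hw, fun i => by simp, ?_⟩
  intro x y
  rw [hF]
  apply Finset.sum_congr rfl
  intro i _
  show _ = w i * (if xor (c i x) (c i s) = xor (c i y) (c i s) then 0 else 1)
  generalize c i x = a
  generalize c i y = b
  generalize c i s = e
  cases a <;> cases b <;> cases e <;> simp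

theorem prod_sum {ι κ : Type} [Fintype ι] [Fintype κ] (w : ι → ℝ) (v : κ → ℝ)
    (p a : ι → Bool) (q b : κ → Bool) (D : ℝ) :
    ∑ i, ∑ j, (if p i && q j then w i * v j / D else 0) * (if a i = b j then 0 else 1) =
      ((∑ i, if p i && a i then w i else 0) * (∑ j, if q j && !(b j) then v j else 0) +
       (∑ i, if p i && !(a i) then w i else 0) * (∑ j, if q j && b j then v j else 0)) / D := by
  rw [Finset.sum_mul_sum, Finset.sum_mul_sum, ← Finset.sum_add_distrib, Finset.sum_div]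
  apply Finset.sum_congr rfl
  intro i _
  rw [← Finset.sum_add_distrib, Finset.sum_div]
  apply Finset.sum_congr rfl
  intro j _
  cases p i <;> cases q j <;> cases a i <;> cases b j <;> simp

theorem glue {V : Type} (A B : Set V) (s t : V) (hAB : A ∪ B = Set.univ)
    (hI : A ∩ B = {s, t}) (FA : A → A → ℝ) (FB : B → B → ℝ) (hA : IsL1 FA) (hB : IsL1 FB)
    (hsA : s ∈ A) (htA : t ∈ A) (hsB : s ∈ B) (htB : t ∈ B)
    (D : ℝ) (hD : 0 < D) (hDA : FA ⟨s, hsA⟩ ⟨t, htA⟩ = D) (hDB : FB ⟨s, hsB⟩ ⟨t, htB⟩ = D) :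
    ∃ F : V → V → ℝ, IsL1 F ∧ (∀ x y : A, F x y = FA x y) ∧ (∀ x y : B, F x y = FB x y) ∧
      (∀ (x : A) (z : B), F x z =
        comp D (FA x ⟨s, hsA⟩) (FA x ⟨t, htA⟩) (FB z ⟨s, hsB⟩) (FB z ⟨t, htB⟩)) := by
  classical
  obtain ⟨ι, _, w, c, hw, hcs, hFA⟩ := hA.normalize ⟨s, hsA⟩
  obtain ⟨κ, _, v, d, hv, hds, hFB⟩ := hB.normalize ⟨s, hsB⟩
  set sA : A := ⟨s, hsA⟩ with hsA'
  set tA : A := ⟨t, htA⟩ with htA'
  set sB : B := ⟨s, hsB⟩ with hsB'
  set tB : B := ⟨t, htB⟩ with htB'
  have hDA2 : ∑ i, (if c i tA then w i else 0) = D := by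
    rw [← hDA, hFA]
    apply Finset.sum_congr rfl
    intro i _
    rw [hcs]
    cases c i tA <;> simp
  have hDB2 : ∑ i, (if d i tB then v i else 0) = D := by
    rw [← hDB, hFB]
    apply Finset.sum_congr rfl
    intro i _
    rw [hds]
    cases d i tB <;> simp
  have hmem : ∀ x, x ∈ A → x ∈ B → x = s ∨ x = t := by
    intro x h1 h2
    have : x ∈ A ∩ B := ⟨h1, h2⟩
    rw [hI] at this
    simpa using this
  have hcov : ∀ x, x ∉ A → x ∈ B := by
    intro x h1
    have : x ∈ A ∪ B := by rw [hAB]; trivial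
    exact this.resolve_left h1
  let W : ι ⊕ (κ ⊕ (ι × κ)) → ℝ := Sum.elim (fun i => if c i tA then 0 else w i)
    (Sum.elim (fun j => if d j tB then 0 else v j)
      (fun p => if c p.1 tA && d p.2 tB then w p.1 * v p.2 / D else 0))
  let K : ι ⊕ (κ ⊕ (ι × κ)) → V → Bool := Sum.elim
    (fun i x => if h : x ∈ A then c i ⟨x, h⟩ else false)
    (Sum.elim (fun j x => if h : x ∈ B then d j ⟨x, h⟩ else false)
      (fun p x => if h : x ∈ A then c p.1 ⟨x, h⟩ else if h : x ∈ B then d p.2 ⟨x, h⟩ else false))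
  refine ⟨fun x y => ∑ i, W i * (if K i x = K i y then 0 else 1),
    ⟨_, inferInstance, W, K, ?_, fun x y => rfl⟩, ?_, ?_, ?_⟩
  · rintro (i | j | p)
    · show 0 ≤ if c i tA then 0 else w i
      split_ifs
      · exact le_rfl
      · exact hw i
    · show 0 ≤ if d j tB then 0 else v j
      split_ifs
      · exact le_rfl
      · exact hv j
    · show 0 ≤ if c p.1 tA && d p.2 tB then w p.1 * v p.2 / D else 0
      split_ifs
      · exact div_nonneg (mul_nonneg (hw _) (hv _)) hD.le
      · exact le_rfl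
  · -- both in A
    intro x y
    show ∑ i, W i * (if K i x = K i y then 0 else 1) = FA x y
    rw [Fintype.sum_sum_type, Fintype.sum_sum_type, Fintype.sum_prod_type, hFA]
    have e2 : ∑ j, W (Sum.inr (Sum.inl j)) *
        (if K (Sum.inr (Sum.inl j)) x = K (Sum.inr (Sum.inl j)) y then 0 else 1) = 0 := by
      apply Finset.sum_eq_zero
      intro j _
      show (if d j tB then 0 else v j) *
        (if (if h : (x : V) ∈ B then d j ⟨x, h⟩ else false) =
          (if h : (y : V) ∈ B then d j ⟨y, h⟩ else false) then 0 else 1) = 0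
      cases hj : d j tB
      · have key : ∀ z : A, (if h : (z : V) ∈ B then d j ⟨z, h⟩ else false) = false := by
          intro z
          split_ifs with h
          · rcases hmem z z.2 h with h1 | h1
            · have : (⟨z, h⟩ : B) = sB := Subtype.ext h1
              rw [this, hds]
            · have : (⟨z, h⟩ : B) = tB := Subtype.ext h1
              rw [this, hj]
          · rfl
        rw [key x, key y]; simp
      · simp
    rw [e2, zero_add]
    have e3 : ∑ i, ∑ j, W (Sum.inr (Sum.inr (i, j))) *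
        (if K (Sum.inr (Sum.inr (i, j))) x = K (Sum.inr (Sum.inr (i, j))) y then 0 else 1)
        = ∑ i, (if c i tA then w i else 0) * (if c i x = c i y then 0 else 1) := by
      apply Finset.sum_congr rfl
      intro i _
      have : ∀ j, W (Sum.inr (Sum.inr (i, j))) *
        (if K (Sum.inr (Sum.inr (i, j))) x = K (Sum.inr (Sum.inr (i, j))) y then 0 else 1)
          = (if c i tA then w i else 0) * (if c i x = c i y then 0 else 1) / D *
            (if d j tB then v j else 0) := by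
        intro j
        show (if c i tA && d j tB then w i * v j / D else 0) *
          (if (if h : (x : V) ∈ A then c i ⟨x, h⟩ else
              if h : (x : V) ∈ B then d j ⟨x, h⟩ else false) =
            (if h : (y : V) ∈ A then c i ⟨y, h⟩ else
              if h : (y : V) ∈ B then d j ⟨y, h⟩ else false) then 0 else 1) = _
        rw [dif_pos x.2, dif_pos y.2]
        cases c i tA <;> cases d j tB <;> simp
        split_ifs
        · simp
        · ring
      rw [Finset.sum_congr rfl (fun j _ => this j), ← Finset.mul_sum, hDB2]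
      field_simp
    rw [e3, ← Finset.sum_add_distrib]
    apply Finset.sum_congr rfl
    intro i _
    show (if c i tA then 0 else w i) *
        (if (if h : (x : V) ∈ A then c i ⟨x, h⟩ else false) =
          (if h : (y : V) ∈ A then c i ⟨y, h⟩ else false) then 0 else 1) + _ = _
    rw [dif_pos x.2, dif_pos y.2]
    cases c i tA <;> simp
  · -- both in B
    intro x y
    show ∑ i, W i * (if K i x = K i y then 0 else 1) = FB x y
    rw [Fintype.sum_sum_type, Fintype.sum_sum_type, Fintype.sum_prod_type, hFB]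
    have e1 : ∑ i, W (Sum.inl i) *
        (if K (Sum.inl i) x = K (Sum.inl i) y then 0 else 1) = 0 := by
      apply Finset.sum_eq_zero
      intro i _
      show (if c i tA then 0 else w i) *
        (if (if h : (x : V) ∈ A then c i ⟨x, h⟩ else false) =
          (if h : (y : V) ∈ A then c i ⟨y, h⟩ else false) then 0 else 1) = 0
      cases hj : c i tA
      · have key : ∀ z : B, (if h : (z : V) ∈ A then c i ⟨z, h⟩ else false) = false := by
          intro z
          split_ifs with h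
          · rcases hmem z h z.2 with h1 | h1
            · have : (⟨z, h⟩ : A) = sA := Subtype.ext h1
              rw [this, hcs]
            · have : (⟨z, h⟩ : A) = tA := Subtype.ext h1
              rw [this, hj]
          · rfl
        rw [key x, key y]; simp
      · simp only [↓reduceIte, mul_ite, mul_zero, mul_one, ite_self]
    rw [e1, zero_add, Finset.sum_comm]
    have e3 : ∑ j, ∑ i, W (Sum.inr (Sum.inr (i, j))) *
        (if K (Sum.inr (Sum.inr (i, j))) x = K (Sum.inr (Sum.inr (i, j))) y then 0 else 1)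
        = ∑ j, (if d j tB then v j else 0) * (if d j x = d j y then 0 else 1) := by
      apply Finset.sum_congr rfl
      intro j _
      have : ∀ i, W (Sum.inr (Sum.inr (i, j))) *
        (if K (Sum.inr (Sum.inr (i, j))) x = K (Sum.inr (Sum.inr (i, j))) y then 0 else 1)
          = (if d j tB then v j else 0) * (if d j x = d j y then 0 else 1) / D *
            (if c i tA then w i else 0) := by
        intro i
        show (if c i tA && d j tB then w i * v j / D else 0) *
          (if (if h : (x : V) ∈ A then c i ⟨x, h⟩ else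
              if h : (x : V) ∈ B then d j ⟨x, h⟩ else false) =
            (if h : (y : V) ∈ A then c i ⟨y, h⟩ else
              if h : (y : V) ∈ B then d j ⟨y, h⟩ else false) then 0 else 1) = _
        cases hi : c i tA
        · simp only [Bool.false_and, Bool.false_eq_true, ↓reduceIte, Subtype.coe_prop, ↓reduceDIte, Subtype.coe_eta, mul_ite, mul_zero, mul_one, ite_self]
        · cases hj : d j tB
          · simp only [Bool.and_false, Bool.false_eq_true, ↓reduceIte, Subtype.coe_prop, ↓reduceDIte, Subtype.coe_eta, mul_ite, mul_zero, mul_one, ite_self, zero_div, zero_mul]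
          · have key : ∀ z : B, (if h : (z : V) ∈ A then c i ⟨z, h⟩ else
              if h : (z : V) ∈ B then d j ⟨z, h⟩ else false) = d j z := by
              intro z
              split_ifs with h h'
              · rcases hmem z h z.2 with h1 | h1
                · have e : (⟨z, h⟩ : A) = sA := Subtype.ext h1
                  have e' : z = sB := Subtype.ext h1
                  rw [e, hcs, e', hds]
                · have e : (⟨z, h⟩ : A) = tA := Subtype.ext h1
                  have e' : z = tB := Subtype.ext h1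
                  rw [e, hi, e', hj]
              · rfl
              · exact absurd z.2 h'
            rw [key x, key y]
            simp only [Bool.and_self, ↓reduceIte, mul_ite, mul_zero, mul_one]
            split_ifs
            · simp
            · ring
      rw [Finset.sum_congr rfl (fun j _ => this j), ← Finset.mul_sum, hDA2]
      (clear * - hD; field_simp)
    rw [e3, ← Finset.sum_add_distrib]
    apply Finset.sum_congr rfl
    intro j _
    show (if d j tB then 0 else v j) *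
        (if (if h : (x : V) ∈ B then d j ⟨x, h⟩ else false) =
          (if h : (y : V) ∈ B then d j ⟨y, h⟩ else false) then 0 else 1) + _ = _
    rw [dif_pos x.2, dif_pos y.2]
    cases d j tB <;> simp
  · -- one in A, one in B
    intro x z
    show ∑ i, W i * (if K i x = K i z then 0 else 1) = _
    have hxs : FA x sA = (∑ i, if c i tA then 0 else if c i x then w i else 0) +
        ∑ i, if c i tA && c i x then w i else 0 := by
      rw [hFA, ← Finset.sum_add_distrib]
      apply Finset.sum_congr rfl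
      intro i _
      rw [hcs]
      cases c i tA <;> cases c i x <;> simp
    have hxt : FA x tA = (∑ i, if c i tA then 0 else if c i x then w i else 0) +
        ∑ i, if c i tA && !(c i x) then w i else 0 := by
      rw [hFA, ← Finset.sum_add_distrib]
      apply Finset.sum_congr rfl
      intro i _
      cases c i tA <;> cases c i x <;> simp
    have hx1 : (∑ i, if c i tA && c i x then w i else 0) +
        (∑ i, if c i tA && !(c i x) then w i else 0) = D := by
      rw [← hDA2, ← Finset.sum_add_distrib]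
      apply Finset.sum_congr rfl
      intro i _
      cases c i tA <;> cases c i x <;> simp
    have hzs : FB z sB = (∑ i, if d i tB then 0 else if d i z then v i else 0) +
        ∑ i, if d i tB && d i z then v i else 0 := by
      rw [hFB, ← Finset.sum_add_distrib]
      apply Finset.sum_congr rfl
      intro i _
      rw [hds]
      cases d i tB <;> cases d i z <;> simp
    have hzt : FB z tB = (∑ i, if d i tB then 0 else if d i z then v i else 0) +
        ∑ i, if d i tB && !(d i z) then v i else 0 := by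
      rw [hFB, ← Finset.sum_add_distrib]
      apply Finset.sum_congr rfl
      intro i _
      cases d i tB <;> cases d i z <;> simp
    have hz1 : (∑ i, if d i tB && d i z then v i else 0) +
        (∑ i, if d i tB && !(d i z) then v i else 0) = D := by
      rw [← hDB2, ← Finset.sum_add_distrib]
      apply Finset.sum_congr rfl
      intro i _
      cases d i tB <;> cases d i z <;> simp
    have e1 : ∑ i, W (Sum.inl i) * (if K (Sum.inl i) x = K (Sum.inl i) z then 0 else 1) =
        ∑ i, if c i tA then 0 else if c i x then w i else 0 := by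
      apply Finset.sum_congr rfl
      intro i _
      show (if c i tA then 0 else w i) *
        (if (if h : (x : V) ∈ A then c i ⟨x, h⟩ else false) =
          (if h : (z : V) ∈ A then c i ⟨z, h⟩ else false) then 0 else 1) = _
      rw [dif_pos x.2]
      cases hj : c i tA
      · have key : (if h : (z : V) ∈ A then c i ⟨z, h⟩ else false) = false := by
          split_ifs with h
          · rcases hmem z h z.2 with h1 | h1
            · have : (⟨z, h⟩ : A) = sA := Subtype.ext h1
              rw [this, hcs]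
            · have : (⟨z, h⟩ : A) = tA := Subtype.ext h1
              rw [this, hj]
          · rfl
        rw [key]
        cases c i x <;> simp
      · simp only [↓reduceIte, Subtype.coe_eta, mul_ite, mul_zero, mul_one, ite_self]
    have e2 : ∑ j, W (Sum.inr (Sum.inl j)) *
        (if K (Sum.inr (Sum.inl j)) x = K (Sum.inr (Sum.inl j)) z then 0 else 1) =
        ∑ i, if d i tB then 0 else if d i z then v i else 0 := by
      apply Finset.sum_congr rfl
      intro j _
      show (if d j tB then 0 else v j) *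
        (if (if h : (x : V) ∈ B then d j ⟨x, h⟩ else false) =
          (if h : (z : V) ∈ B then d j ⟨z, h⟩ else false) then 0 else 1) = _
      rw [dif_pos z.2]
      cases hj : d j tB
      · have key : (if h : (x : V) ∈ B then d j ⟨x, h⟩ else false) = false := by
          split_ifs with h
          · rcases hmem x x.2 h with h1 | h1
            · have : (⟨x, h⟩ : B) = sB := Subtype.ext h1
              rw [this, hds]
            · have : (⟨x, h⟩ : B) = tB := Subtype.ext h1
              rw [this, hj]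
          · rfl
        rw [key]
        cases d j z <;> simp
      · simp only [↓reduceIte, Subtype.coe_eta, mul_ite, mul_zero, mul_one, ite_self]
    have e3 : ∑ i, ∑ j, W (Sum.inr (Sum.inr (i, j))) *
        (if K (Sum.inr (Sum.inr (i, j))) x = K (Sum.inr (Sum.inr (i, j))) z then 0 else 1) =
        ∑ i, ∑ j, (if c i tA && d j tB then w i * v j / D else 0) *
          (if c i x = d j z then 0 else 1) := by
      apply Finset.sum_congr rfl
      intro i _
      apply Finset.sum_congr rfl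
      intro j _
      show (if c i tA && d j tB then w i * v j / D else 0) *
          (if (if h : (x : V) ∈ A then c i ⟨x, h⟩ else
              if h : (x : V) ∈ B then d j ⟨x, h⟩ else false) =
            (if h : (z : V) ∈ A then c i ⟨z, h⟩ else
              if h : (z : V) ∈ B then d j ⟨z, h⟩ else false) then 0 else 1) = _
      rw [dif_pos x.2]
      cases hi : c i tA
      · simp only [Bool.false_and, Bool.false_eq_true, ↓reduceIte, Subtype.coe_eta, Subtype.coe_prop, ↓reduceDIte, mul_ite, mul_zero, mul_one, ite_self]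
      · cases hj : d j tB
        · simp only [Bool.and_false, Bool.false_eq_true, ↓reduceIte, Subtype.coe_eta, Subtype.coe_prop, ↓reduceDIte, mul_ite, mul_zero, mul_one, ite_self]
        · have key : (if h : (z : V) ∈ A then c i ⟨z, h⟩ else
              if h : (z : V) ∈ B then d j ⟨z, h⟩ else false) = d j z := by
            split_ifs with h h'
            · rcases hmem z h z.2 with h1 | h1
              · have e : (⟨z, h⟩ : A) = sA := Subtype.ext h1
                have e' : z = sB := Subtype.ext h1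
                rw [e, hcs, e', hds]
              · have e : (⟨z, h⟩ : A) = tA := Subtype.ext h1
                have e' : z = tB := Subtype.ext h1
                rw [e, hi, e', hj]
            · rfl
            · exact absurd z.2 h'
          rw [key]
    rw [Fintype.sum_sum_type, Fintype.sum_sum_type, Fintype.sum_prod_type, e1, e2, e3,
      prod_sum, hxs, hxt, hzs, hzt]
    generalize (∑ i, if c i tA then 0 else if c i x then w i else 0) = nx
    generalize (∑ i, if d i tB then 0 else if d i z then v i else 0) = nz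
    revert hx1 hz1
    generalize (∑ i, if c i tA && c i x then w i else 0) = a1
    generalize (∑ i, if c i tA && !(c i x) then w i else 0) = a0
    generalize (∑ i, if d i tB && d i z then v i else 0) = b1
    generalize (∑ i, if d i tB && !(d i z) then v i else 0) = b0
    intro hx1 hz1
    have ha : a0 = D - a1 := by linarith only [hx1]
    have hb : b0 = D - b1 := by linarith only [hz1]
    subst ha; subst hb
    unfold comp
    field_simp
    ring

end Vale.Agent.P235
end
end
end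

section

section

section

namespace Vale.Agent.P235

/-- potential -/
def pot (D a b : ℝ) : ℝ := 3 * a + 2 * b - 2 * D

/-- triangle inequalities for three numbers -/
def Tri (D a b : ℝ) : Prop := a ≤ b + D ∧ b ≤ a + D ∧ D ≤ a + b

/-- good profile -/
def Good (K D a b τa τb : ℝ) : Prop :=
  Tri D a b ∧ τa ≤ K * pot D a b ∧ τb ≤ K * pot D b a

theorem Tri.swap {D a b : ℝ} (h : Tri D a b) : Tri D b a :=
  ⟨h.2.1, h.1, by linarith only [h.2.2]⟩

theorem pot_ge {D a b : ℝ} (h : Tri D a b) : a ≤ pot D a b := by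
  unfold pot; linarith only [h.2.2]

theorem pot_le {D a b : ℝ} (h : Tri D a b) : pot D a b ≤ 5 * a := by
  unfold pot; linarith only [h.2.1]

theorem Tri.nonneg {D a b : ℝ} (h : Tri D a b) : 0 ≤ a := by
  linarith [h.1, h.2.1, h.2.2]

theorem Tri.nonneg' {D a b : ℝ} (h : Tri D a b) : 0 ≤ b := by
  linarith only [h.1, h.2.2]

theorem comp_comm {D : ℝ} (hD : 0 < D) (a b zs zt : ℝ) :
    comp D a b zs zt = comp D zs zt a b := by
  unfold comp
  field_simp
  ring

theorem comp_assoc {D0 D : ℝ} (hD0 : 0 < D0) (hD : 0 < D) (a b us ut s1 s2 t1 t2 : ℝ) :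
    comp D0 a b (comp D us ut s1 t1) (comp D us ut s2 t2) =
      comp D (comp D0 a b s1 s2) (comp D0 a b t1 t2) us ut := by
  rw [comp_comm hD (comp D0 a b s1 s2)]
  unfold comp
  field_simp
  ring

/-- parameter form of a profile -/
theorem exists_param {D a b : ℝ} (hD : 0 < D) (h : Tri D a b) :
    ∃ Y p : ℝ, 0 ≤ Y ∧ 0 ≤ p ∧ p ≤ 1 ∧ a = Y + p * D ∧ b = Y + (1 - p) * D ∧
      ∀ zs zt, comp D a b zs zt = Y + (1 - p) * zs + p * zt := by
  refine ⟨(a + b - D) / 2, (D + a - b) / (2 * D), ?_, ?_, ?_, ?_, ?_, ?_⟩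
  · linarith only [h.2.2]
  · apply div_nonneg <;> linarith [h.2.1]
  · rw [div_le_one (by linarith)]; linarith [h.1]
  · field_simp; ring
  · field_simp; ring
  · intro zs zt
    unfold comp
    field_simp
    ring

theorem comp_tri {D a b zs zt ws wt zw : ℝ} (hD : 0 < D) (h : Tri D a b)
    (hs : Tri zw zs ws) (ht : Tri zw zt wt) :
    Tri zw (comp D a b zs zt) (comp D a b ws wt) := by
  obtain ⟨Y, p, hY, hp0, hp1, ha, hb, hc⟩ := exists_param hD h
  rw [hc, hc]
  obtain ⟨h1, h2, h3⟩ := hs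
  obtain ⟨h4, h5, h6⟩ := ht
  refine ⟨?_, ?_, ?_⟩ <;> nlinarith only [hY, hp0, h6, hp1, h3, h4, h1, h5, h2]

theorem aux_third {K d g : ℝ} (hK : 12 ≤ K) (hd : 0 ≤ d) (h : (1 / 12) * d ≤ g) : d ≤ K * g := by
  nlinarith only [h, hK, hd]

theorem aux_win {K p c0 : ℝ} (hK : 4 ≤ K * c0) (h : K * ((1 - 2 * p) * c0) < 1) :
    1 - 2 * p < 1 / 4 := by
  by_contra hcon
  push Not at hcon
  nlinarith only [hK, h, hcon]

theorem step_aux {c0 K D Y p zs zt ws wt zw ds dt : ℝ} (hc0 : 0 < c0) (hc1 : c0 ≤ 1 / 3)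
    (hK : 4 / c0 ≤ K) (hD : 0 < D) (hp0 : 0 ≤ p) (hp : p ≤ 1 / 2)
    (hz : Tri D zs zt) (hw : Tri D ws wt) (hs : Tri zw zs ws) (ht : Tri zw zt wt)
    (hds : c0 * ds ≤ zs) (hdt : c0 * dt ≤ zt) (hdt' : zt ≤ dt)
    (hX : (1 / 3) * min ds dt ≤ zs + zt + (ws + wt) / 2 - D / 2 - zw) :
    min (p * D * K + ds) ((1 - p) * D * K + dt) ≤
      K * (3 * ((1 - p) * zs + p * zt) + 2 * ((1 - p) * ws + p * wt) - 2 * zw) := by
  have hzs : 0 ≤ zs := hz.nonneg
  have hzt : 0 ≤ zt := hz.nonneg'
  obtain ⟨z1, z2, z3⟩ := hz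
  obtain ⟨w1, w2, w3⟩ := hw
  obtain ⟨s1, s2, s3⟩ := hs
  obtain ⟨t1, t2, t3⟩ := ht
  have hKc : 4 ≤ K * c0 := by
    rwa [div_le_iff₀ hc0] at hK
  have hK0 : 0 < K := by
    have : 0 < 4 / c0 := by positivity
    linarith only [hK, this]
  have hK12 : 12 ≤ K := by
    have : 12 ≤ 4 / c0 := by
      rw [le_div_iff₀ hc0]; linarith only [hc1]
    linarith only [hK, this]
  set gs := 3 * ((1 - p) * zs + p * zt) + 2 * ((1 - p) * ws + p * wt) - 2 * zw - p * D with hgs
  set gt := 3 * ((1 - p) * zs + p * zt) + 2 * ((1 - p) * ws + p * wt) - 2 * zw - (1 - p) * D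
    with hgt
  -- it suffices to bound one of the two
  have goal_s : ds ≤ K * gs → min (p * D * K + ds) ((1 - p) * D * K + dt) ≤
      K * (3 * ((1 - p) * zs + p * zt) + 2 * ((1 - p) * ws + p * wt) - 2 * zw) := by
    intro h
    refine (min_le_left _ _).trans ?_
    have e : K * (3 * ((1 - p) * zs + p * zt) + 2 * ((1 - p) * ws + p * wt) - 2 * zw) =
      K * gs + p * D * K := by rw [hgs]; ring
    rw [e]; linarith only [h]
  have goal_t : dt ≤ K * gt → min (p * D * K + ds) ((1 - p) * D * K + dt) ≤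
      K * (3 * ((1 - p) * zs + p * zt) + 2 * ((1 - p) * ws + p * wt) - 2 * zw) := by
    intro h
    refine (min_le_right _ _).trans ?_
    have e : K * (3 * ((1 - p) * zs + p * zt) + 2 * ((1 - p) * ws + p * wt) - 2 * zw) =
      K * gt + (1 - p) * D * K := by rw [hgt]; ring
    rw [e]; linarith only [h]
  have hu : 0 ≤ zs + ws - zw := by linarith only [s3]
  have hv : 0 ≤ zt + wt - zw := by linarith only [t3]
  have hr : 0 ≤ zs + D - zt := by linarith only [z2]
  have hq : 0 ≤ zs + zt - D := by linarith only [z3]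
  have hi : (1 - 2 * p) * zs ≤ gs := by
    have e : gs - (1 - 2 * p) * zs = (1 - 2 * p) * (2 * (zs + ws - zw)) +
        2 * p * ((zs + ws - zw) + (zt + wt - zw) + (zs + zt - D) / 2) := by
      rw [hgs]; ring
    have : 0 ≤ (1 - 2 * p) * (2 * (zs + ws - zw)) +
        2 * p * ((zs + ws - zw) + (zt + wt - zw) + (zs + zt - D) / 2) :=
      add_nonneg (mul_nonneg (by linarith only [hp]) (by linarith only [s3])) (mul_nonneg (by linarith only [hp0]) (by linarith only [z3, s3, t3]))
    (clear * - this; linarith)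
  by_cases hwin : 1 ≤ K * ((1 - 2 * p) * c0)
  · apply goal_s
    by_cases hds0 : 0 ≤ ds
    · calc ds = 1 * ds := by ring
        _ ≤ K * ((1 - 2 * p) * c0) * ds := by
          apply mul_le_mul_of_nonneg_right hwin hds0
        _ = K * ((1 - 2 * p) * (c0 * ds)) := by ring
        _ ≤ K * ((1 - 2 * p) * zs) := by
          apply mul_le_mul_of_nonneg_left _ hK0.le
          apply mul_le_mul_of_nonneg_left hds (by linarith only [hp])
        _ ≤ K * gs := mul_le_mul_of_nonneg_left hi hK0.le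
    · have : 0 ≤ K * gs := mul_nonneg hK0.le
        ((mul_nonneg (by linarith only [hp]) hzs).trans hi)
      linarith only [hds0, this]
  · push Not at hwin
    -- window: 1 - 2p < 1/(K c0) <= 1/4
    have hp2 : 1 - 2 * p < 1 / 4 := aux_win hKc hwin
    have hp3 : 3 / 8 ≤ p := by linarith only [hp2]
    have hii : zs + zt + (ws + wt) / 2 - D / 2 - zw ≤ gs := by
      have e : gs - (zs + zt + (ws + wt) / 2 - D / 2 - zw) =
          8 * (1 / 2 - p) * ((3 / 4) * (zs + ws - zw) + (1 / 4) * (zt + wt - zw) +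
            (1 / 8) * (zs + D - zt)) +
          8 * (p - 3 / 8) * (((zs + ws - zw) + (zt + wt - zw)) / 2) := by
        rw [hgs]; ring
      have : 0 ≤ 8 * (1 / 2 - p) * ((3 / 4) * (zs + ws - zw) + (1 / 4) * (zt + wt - zw) +
            (1 / 8) * (zs + D - zt)) +
          8 * (p - 3 / 8) * (((zs + ws - zw) + (zt + wt - zw)) / 2) :=
        add_nonneg (mul_nonneg (by linarith only [hp]) (by linarith only [t3, s3, z2])) (mul_nonneg (by linarith only [hp2]) (by linarith only [s3, t3]))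
      linarith only [this]
    have hiii : zs + zt + (ws + wt) / 2 - D / 2 - zw - (1 - 2 * p) * zt ≤ gt := by
      have e : gt - (zs + zt + (ws + wt) / 2 - D / 2 - zw - (1 - 2 * p) * zt) =
          8 * (1 / 2 - p) * ((3 / 4) * (zs + ws - zw) + (1 / 4) * (zt + wt - zw) +
            (1 / 8) * (zs + zt - D)) +
          8 * (p - 3 / 8) * (((zs + ws - zw) + (zt + wt - zw)) / 2) := by
        rw [hgt]; ring
      have : 0 ≤ 8 * (1 / 2 - p) * ((3 / 4) * (zs + ws - zw) + (1 / 4) * (zt + wt - zw) +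
            (1 / 8) * (zs + zt - D)) +
          8 * (p - 3 / 8) * (((zs + ws - zw) + (zt + wt - zw)) / 2) :=
        add_nonneg (mul_nonneg (by linarith only [hp]) (by linarith only [z3, s3, t3])) (mul_nonneg (by linarith only [hp2]) (by linarith only [s3, t3]))
      linarith only [this]
    rcases le_total ds dt with hle | hle
    · apply goal_s
      rw [min_eq_left hle] at hX
      have : (1 / 3) * ds ≤ gs := hX.trans hii
      by_cases hds0 : 0 ≤ ds
      · exact aux_third hK12 hds0 (by linarith only [hX, z3, s3, t3, hii])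
      · have : 0 ≤ K * gs := mul_nonneg hK0.le
          ((mul_nonneg (by linarith only [hp]) hzs).trans hi)
        linarith only [hds0, this]
    · apply goal_t
      rw [min_eq_right hle] at hX
      have h4 : (1 - 2 * p) * zt ≤ (1 / 4) * dt := by
        calc (1 - 2 * p) * zt ≤ (1 / 4) * zt := by
              apply mul_le_mul_of_nonneg_right hp2.le hzt
          _ ≤ (1 / 4) * dt := by linarith only [hdt']
      have h5 : (1 / 12) * dt ≤ gt := by linarith only [hX, hiii, h4]
      have hdt0 : 0 ≤ dt := hzt.trans hdt'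
      exact aux_third hK12 hdt0 h5

theorem step {c0 K D a b τa τb zs zt ws wt zw ds dt : ℝ} (hc0 : 0 < c0) (hc1 : c0 ≤ 1 / 3)
    (hK : 4 / c0 ≤ K) (hD : 0 < D) (hG : Good K D a b τa τb)
    (hz : Tri D zs zt) (hw : Tri D ws wt) (hs : Tri zw zs ws) (ht : Tri zw zt wt)
    (hds : c0 * ds ≤ zs) (hdt : c0 * dt ≤ zt) (hds' : zs ≤ ds) (hdt' : zt ≤ dt)
    (hX : (1 / 3) * min ds dt ≤ zs + zt + (ws + wt) / 2 - D / 2 - zw) :
    min (τa + ds) (τb + dt) ≤ K * pot zw (comp D a b zs zt) (comp D a b ws wt) := by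
  obtain ⟨hT, h1, h2⟩ := hG
  obtain ⟨Y, p, hY, hp0, hp1, ha, hb, hc⟩ := exists_param hD hT
  have e1 : K * pot D a b = 5 * K * Y + p * D * K := by
    unfold pot; rw [ha, hb]; ring
  have e2 : K * pot D b a = 5 * K * Y + (1 - p) * D * K := by
    unfold pot; rw [ha, hb]; ring
  rw [hc, hc]
  have e3 : K * pot zw (Y + (1 - p) * zs + p * zt) (Y + (1 - p) * ws + p * wt) =
      5 * K * Y + K * (3 * ((1 - p) * zs + p * zt) + 2 * ((1 - p) * ws + p * wt) - 2 * zw) := by
    unfold pot; ring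
  rw [e3]
  have key : min (p * D * K + ds) ((1 - p) * D * K + dt) ≤
      K * (3 * ((1 - p) * zs + p * zt) + 2 * ((1 - p) * ws + p * wt) - 2 * zw) := by
    rcases le_total p (1 / 2) with hp | hp
    · exact step_aux (Y := Y) hc0 hc1 hK hD hp0 hp hz hw hs ht hds hdt hdt' hX
    · have := step_aux (Y := Y) (p := 1 - p) (zs := zt) (zt := zs) (ws := wt) (wt := ws)
        (ds := dt) (dt := ds) hc0 hc1 hK hD (by linarith only [hp1]) (by linarith only [hp])
        hz.swap hw.swap ht hs hdt hds hds' (by rw [min_comm]; linarith only [hX])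
      rw [min_comm]
      have e : (1 - (1 - p)) = p := by ring
      rw [e] at this
      linarith only [this]
  rcases min_le_iff.mp key with h | h
  · refine (min_le_left _ _).trans ?_
    linarith only [h1, e1, h]
  · refine (min_le_right _ _).trans ?_
    linarith only [h2, e2, h]

end Vale.Agent.P235
end
end
end

section

section

section

namespace Vale.Agent.P235T3

section pathDist
variable {V : Type} {G : SimpleGraph V} {ℓ : Sym2 V → ℝ}

theorem walk_nonneg (hℓ : ∀ e ∈ G.edgeSet, 0 < ℓ e) {x y : V} (w : G.Walk x y) :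
    0 ≤ (w.edges.map ℓ).sum := by
  apply List.sum_nonneg
  intro a ha
  rw [List.mem_map] at ha
  obtain ⟨e, he, rfl⟩ := ha
  exact (hℓ e (w.edges_subset_edgeSet he)).le

theorem bdd (hℓ : ∀ e ∈ G.edgeSet, 0 < ℓ e) (x y : V) :
    BddBelow (Set.range fun w : G.Walk x y => (w.edges.map ℓ).sum) :=
  ⟨0, by rintro _ ⟨w, rfl⟩; exact walk_nonneg hℓ w⟩

theorem pathDist_le (hℓ : ∀ e ∈ G.edgeSet, 0 < ℓ e) {x y : V} (w : G.Walk x y) :
    pathDist G ℓ x y ≤ (w.edges.map ℓ).sum := ciInf_le (bdd hℓ x y) w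

theorem pathDist_PM (hc : G.Connected) (hℓ : ∀ e ∈ G.edgeSet, 0 < ℓ e) :
    PM (pathDist G ℓ) := by
  constructor
  · intro x
    apply le_antisymm
    · simpa only [SimpleGraph.Walk.edges_nil, List.map_nil, List.sum_nil] using     pathDist_le hℓ (SimpleGraph.Walk.nil : G.Walk x x)
    · have : Nonempty (G.Walk x x) := hc x x
      exact le_ciInf fun w => walk_nonneg hℓ w
  · intro x y
    have key : ∀ a b : V, pathDist G ℓ a b ≤ pathDist G ℓ b a := by
      intro a b
      have : Nonempty (G.Walk b a) := hc b a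
      refine le_ciInf fun w => ?_
      refine (pathDist_le hℓ w.reverse).trans ?_
      rw [SimpleGraph.Walk.edges_reverse, List.map_reverse, List.sum_reverse]
    exact le_antisymm (key x y) (key y x)
  · intro x y z
    have : Nonempty (G.Walk x y) := hc x y
    have : Nonempty (G.Walk y z) := hc y z
    have h1 : ∀ w : G.Walk y z, pathDist G ℓ x z - (w.edges.map ℓ).sum ≤ pathDist G ℓ x y := by
      intro w
      refine le_ciInf fun w' => ?_
      have := pathDist_le hℓ (w'.append w)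
      rw [SimpleGraph.Walk.edges_append, List.map_append, List.sum_append] at this
      linarith only [this]
    have h2 : pathDist G ℓ x z - pathDist G ℓ x y ≤ pathDist G ℓ y z := by
      refine le_ciInf fun w => ?_
      linarith [h1 w]
    linarith

/-- metric separation from graph separation -/
theorem sep_of_walks (hc : G.Connected) (hℓ : ∀ e ∈ G.edgeSet, 0 < ℓ e) {x y : V} (S : Finset V)
    (h : ∀ w : G.Walk x y, ∃ i ∈ S, i ∈ w.support) :
    ∃ i ∈ S, pathDist G ℓ x i + pathDist G ℓ i y ≤ pathDist G ℓ x y := by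
  classical
  obtain ⟨w0⟩ := hc x y
  obtain ⟨i0, hi0, _⟩ := h w0
  obtain ⟨m, hm, hmin⟩ := Finset.exists_min_image S
    (fun i => pathDist G ℓ x i + pathDist G ℓ i y) ⟨i0, hi0⟩
  refine ⟨m, hm, ?_⟩
  have : Nonempty (G.Walk x y) := hc x y
  refine le_ciInf fun w => ?_
  obtain ⟨i, hi, hiw⟩ := h w
  have h1 := hmin i hi
  have h2 := pathDist_le hℓ (w.takeUntil i hiw)
  have h3 := pathDist_le hℓ (w.dropUntil i hiw)
  have h4 := w.take_spec hiw
  have h5 : (w.edges.map ℓ).sum = ((w.takeUntil i hiw).edges.map ℓ).sum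
      + ((w.dropUntil i hiw).edges.map ℓ).sum := by
    conv_lhs => rw [← h4]
    rw [SimpleGraph.Walk.edges_append, List.map_append, List.sum_append]
  have h6 : pathDist G ℓ x m + pathDist G ℓ m y ≤ pathDist G ℓ x i + pathDist G ℓ i y := h1
  linarith only [h1, h2, h3, h5]

end pathDist

theorem InBag.mono {V : Type} [DecidableEq V] {S S' : Finset V} (hS : S' ⊆ S) {t : Tr V} :
    ∀ {T : Fin 3 → V}, InBag S T t → InBag S' T t := by
  induction t with
  | nil => intro T h x hx; exact h x (hS hx)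
  | node z sub rest ihs ihr =>
    intro T h
    rcases h with h | ⟨k, h⟩ | h
    · exact Or.inl (fun x hx => h x (hS hx))
    · exact Or.inr (Or.inl ⟨k, ihs k h⟩)
    · exact Or.inr (Or.inr (ihr h))

/-- one step of growing along an edge of the decomposition tree -/
theorem grow {V : Type} [DecidableEq V] {G : SimpleGraph V} {ℓ : Sym2 V → ℝ} (hc : G.Connected)
    (hℓ : ∀ e ∈ G.edgeSet, 0 < ℓ e) {ι : Type} [DecidableEq ι] {H : SimpleGraph ι}
    {B : ι → Finset V}
    (hH : H.IsTree) (hE : ∀ u v, G.Adj u v → ∃ t, u ∈ B t ∧ v ∈ B t)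
    (hI : ∀ v, (H.induce {t | v ∈ B t}).Preconnected) (hB4 : ∀ t, (B t).card ≤ 3 + 1)
    {r : ι} {A : Finset ι} (hA : ∀ a ∈ A, ∃ p : H.Walk r a, ∀ x ∈ p.support, x ∈ A)
    {s t : ι} (hs : s ∈ A) (ht : t ∉ A) (hst : H.Adj s t) {T : Fin 3 → V} {tr : Tr V}
    (h1 : Ok (pathDist G ℓ) T tr) (h2 : ∀ j, T j ∉ tr.verts)
    (h3 : ∀ x, All T tr x ↔ ∃ a ∈ A, x ∈ B a) (h4 : ∀ a ∈ A, InBag (B a) T tr) :
    ∃ tr', Ok (pathDist G ℓ) T tr' ∧ (∀ j, T j ∉ tr'.verts) ∧
      (∀ x, All T tr' x ↔ ∃ a ∈ insert t A, x ∈ B a) ∧ ∀ a ∈ insert t A, InBag (B a) T tr' := by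
  have hbridge : ∀ p : H.Walk t s, s(t, s) ∈ p.edges := by
    rw [← SimpleGraph.isBridge_iff_forall_walk_mem_edges]
    exact SimpleGraph.isAcyclic_iff_forall_adj_isBridge.mp hH.isAcyclic hst.symm
  set comp : Set ι := {x | ∃ p : H.Walk t x, s(t, s) ∉ p.edges} with hcomp
  have hscomp : s ∉ comp := by
    rintro ⟨p, hp⟩
    exact hp (hbridge p)
  have htcomp : t ∈ comp := ⟨SimpleGraph.Walk.nil, by simp⟩
  have hcross : ∀ u u', H.Adj u u' → u ∈ comp → u' ∉ comp → u = t ∧ u' = s := by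
    rintro u u' huu' ⟨p, hp⟩ hu'
    by_contra hcon
    apply hu'
    refine ⟨p.concat huu', ?_⟩
    rw [SimpleGraph.Walk.edges_concat, List.concat_eq_append, List.mem_append, not_or]
    refine ⟨hp, ?_⟩
    rw [List.mem_singleton]
    intro he
    rcases Sym2.eq_iff.mp he with ⟨e1, e2⟩ | ⟨e1, e2⟩
    · exact hcon ⟨e1.symm, e2.symm⟩
    · rw [e2] at hscomp
      exact hscomp ⟨p, hp⟩
  have hAcomp : ∀ a ∈ A, a ∉ comp := by
    rintro a ha ⟨p, hp⟩
    obtain ⟨pa, hpa⟩ := hA a ha
    obtain ⟨ps, hps⟩ := hA s hs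
    have h5 : s(t, s) ∉ (pa.reverse.append ps).edges := by
      intro he
      have h6 := SimpleGraph.Walk.fst_mem_support_of_mem_edges _ he
      rw [SimpleGraph.Walk.mem_support_append_iff, SimpleGraph.Walk.support_reverse,
        List.mem_reverse] at h6
      rcases h6 with h6 | h6
      · exact ht (hpa _ h6)
      · exact ht (hps _ h6)
    have h7 := hbridge (p.append (pa.reverse.append ps))
    rw [SimpleGraph.Walk.edges_append, List.mem_append] at h7
    rcases h7 with h7 | h7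
    · exact hp h7
    · exact h5 h7
  -- vertices on both sides
  have hboth : ∀ v, (∃ x ∈ comp, v ∈ B x) → (∃ x, x ∉ comp ∧ v ∈ B x) → v ∈ B s ∧ v ∈ B t := by
    rintro v ⟨x, hx, hvx⟩ ⟨x', hx', hvx'⟩
    obtain ⟨p⟩ := hI v ⟨x, hvx⟩ ⟨x', hvx'⟩
    obtain ⟨dd, _, hd1, hd2⟩ := p.exists_boundary_dart {y | (y : ι) ∈ comp} hx hx'
    have h5 : (dd.fst : ι) = t ∧ (dd.snd : ι) = s := hcross _ _ dd.adj hd1 hd2
    constructor
    · have h6 : v ∈ B (dd.snd : ι) := dd.snd.2
      rw [h5.2] at h6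
      exact h6
    · have h6 : v ∈ B (dd.fst : ι) := dd.fst.2
      rw [h5.1] at h6
      exact h6
  -- separation
  have hwalk : ∀ z y, (∃ x ∈ comp, z ∈ B x) → (∃ x, x ∉ comp ∧ y ∈ B x) → ∀ w : G.Walk z y,
      ∃ i ∈ B s ∩ B t, i ∈ w.support := by
    intro z y hz hy w
    by_cases hz' : ∃ x, x ∉ comp ∧ z ∈ B x
    · obtain ⟨a1, a2⟩ := hboth z hz hz'
      exact ⟨z, Finset.mem_inter.mpr ⟨a1, a2⟩, w.start_mem_support⟩
    · obtain ⟨dd, hdw, hd1, hd2⟩ := w.exists_boundary_dart {v | ¬ ∃ x, x ∉ comp ∧ v ∈ B x} hz'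
        (by simpa using hy)
      obtain ⟨x, hx1, hx2⟩ := hE _ _ dd.adj
      have hxc : x ∈ comp := by
        by_contra hxc
        exact hd1 ⟨x, hxc, hx1⟩
      have hd2' : ∃ x, x ∉ comp ∧ dd.snd ∈ B x := by
        by_contra hcon
        exact hd2 hcon
      obtain ⟨a1, a2⟩ := hboth dd.snd ⟨x, hxc, hx2⟩ hd2'
      exact ⟨dd.snd, Finset.mem_inter.mpr ⟨a1, a2⟩, w.dart_snd_mem_support_of_mem_darts hdw⟩
  have hBt : (B s ∩ B t) ∪ (B t \ B s) = B t := by
    ext x
    simp only [Finset.mem_union, Finset.mem_inter, Finset.mem_sdiff]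
    (clear * -; (clear * -; tauto))
  have hd := pathDist_PM hc hℓ
  obtain ⟨tr', g1, g2, g3, g4, g5⟩ := insert_many hd h1 h2
    ((h4 s hs).mono (Finset.inter_subset_left : B s ∩ B t ⊆ B s)) (B t \ B s)
    (by rw [hBt]; exact hB4 t)
    (by
      rw [Finset.disjoint_left]
      intro x hx hx'
      exact (Finset.mem_sdiff.mp hx').2 (Finset.mem_inter.mp hx).1)
    (by
      intro z hz hzall
      obtain ⟨a, ha, hza⟩ := (h3 z).mp hzall
      have hz' := Finset.mem_sdiff.mp hz
      exact hz'.2 (hboth z ⟨t, htcomp, hz'.1⟩ ⟨a, hAcomp a ha, hza⟩).1)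
    (by
      intro z hz y hy
      obtain ⟨a, ha, hya⟩ := (h3 y).mp hy
      have hz' := Finset.mem_sdiff.mp hz
      exact sep_of_walks hc hℓ _ (hwalk z y ⟨t, htcomp, hz'.1⟩ ⟨a, hAcomp a ha, hya⟩))
  rw [hBt] at g4
  refine ⟨tr', g1, g2, ?_, ?_⟩
  · intro x
    have h5 : All T tr' x ↔ (All T tr x ∨ x ∈ B t \ B s) := by
      unfold All
      rw [g3, Finset.mem_union]
      (clear * -; (clear * -; tauto))
    rw [h5, h3 x]
    constructor
    · rintro (⟨a, ha, hx⟩ | hx)
      · exact ⟨a, Finset.mem_insert_of_mem ha, hx⟩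
      · exact ⟨t, Finset.mem_insert_self t A, (Finset.mem_sdiff.mp hx).1⟩
    · rintro ⟨a, ha, hx⟩
      rcases Finset.mem_insert.mp ha with rfl | ha
      · by_cases hxs : x ∈ B s
        · exact Or.inl ⟨s, hs, hxs⟩
        · exact Or.inr (Finset.mem_sdiff.mpr ⟨hx, hxs⟩)
      · exact Or.inl ⟨a, ha, hx⟩
  · intro a ha
    rcases Finset.mem_insert.mp ha with rfl | ha
    · exact g4
    · exact g5 _ (h4 a ha)

theorem exists_structure {V : Type} [DecidableEq V] {G : SimpleGraph V} {ℓ : Sym2 V → ℝ}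
    (hc : G.Connected) (hℓ : ∀ e ∈ G.edgeSet, 0 < ℓ e) (hG : TreewidthLE G 3) :
    ∃ (T : Fin 3 → V) (t : Tr V), Ok (pathDist G ℓ) T t ∧ (∀ j, T j ∉ t.verts) ∧
      ∀ x, All T t x := by
  classical
  obtain ⟨ι, hfin, H, B, hH, hV, hE, hI, hB4⟩ := hG
  have := Fintype.ofFinite ι
  obtain ⟨v0⟩ := hc.nonempty
  obtain ⟨r, hr⟩ := hV v0
  have hd := pathDist_PM hc hℓ
  set T : Fin 3 → V := fun _ => v0 with hT
  -- the base
  have hbase : ∃ tr, Ok (pathDist G ℓ) T tr ∧ (∀ j, T j ∉ tr.verts) ∧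
      (∀ x, All T tr x ↔ ∃ a ∈ ({r} : Finset ι), x ∈ B a) ∧
      ∀ a ∈ ({r} : Finset ι), InBag (B a) T tr := by
    have hBr : ({v0} : Finset V) ∪ (B r \ {v0}) = B r := by
      ext x
      simp only [Finset.mem_union, Finset.mem_singleton, Finset.mem_sdiff]
      constructor
      · rintro (h | h)
        · rw [h]; exact hr
        · exact h.1
      · intro h
        by_cases hx : x = v0
        · exact Or.inl hx
        · exact Or.inr ⟨h, hx⟩
    obtain ⟨tr', g1, g2, g3, g4, g5⟩ := insert_many hd (T := T) (t := .nil) (S := {v0}) trivial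
      (by simp [Tr.verts]) (fun x hx => ⟨0, by simpa [hT] using hx⟩) (B r \ {v0})
      (by rw [hBr]; exact hB4 r)
      (by
        rw [Finset.disjoint_left]
        intro x hx hx'
        exact (Finset.mem_sdiff.mp hx').2 hx)
      (by
        intro z hz hzall
        rcases hzall with ⟨j, h⟩ | h
        · exact (Finset.mem_sdiff.mp hz).2 (by simpa [hT] using h)
        · simp [Tr.verts] at h)
      (by
        intro z _ y hy
        rcases hy with ⟨j, h⟩ | h
        · refine ⟨v0, by simp, ?_⟩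
          rw [h]
          show pathDist G ℓ z v0 + pathDist G ℓ v0 v0 ≤ pathDist G ℓ z v0
          rw [hd.self]
          linarith only []
        · simp [Tr.verts] at h)
    rw [hBr] at g4
    refine ⟨tr', g1, g2, ?_, ?_⟩
    · intro x
      constructor
      · rintro (⟨j, h⟩ | h)
        · refine ⟨r, by simp, ?_⟩
          rw [h]
          exact hr
        · rw [g3, Finset.mem_union] at h
          rcases h with h | h
          · exact ⟨r, by simp, (Finset.mem_sdiff.mp h).1⟩
          · simp [Tr.verts] at h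
      · rintro ⟨a, ha, hx⟩
        rw [Finset.mem_singleton] at ha
        subst ha
        by_cases hx0 : x = v0
        · exact Or.inl ⟨0, hx0⟩
        · right
          rw [g3, Finset.mem_union]
          exact Or.inl (Finset.mem_sdiff.mpr ⟨hx, by simpa using hx0⟩)
    · intro a ha
      rw [Finset.mem_singleton] at ha
      subst ha
      exact g4
  have hgrow : ∀ n : ℕ, ∀ A : Finset ι, Fintype.card ι - A.card ≤ n → r ∈ A →
      (∀ a ∈ A, ∃ p : H.Walk r a, ∀ x ∈ p.support, x ∈ A) →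
      (∃ tr, Ok (pathDist G ℓ) T tr ∧ (∀ j, T j ∉ tr.verts) ∧
        (∀ x, All T tr x ↔ ∃ a ∈ A, x ∈ B a) ∧ ∀ a ∈ A, InBag (B a) T tr) →
      ∃ tr, Ok (pathDist G ℓ) T tr ∧ (∀ j, T j ∉ tr.verts) ∧ ∀ x, All T tr x := by
    intro n
    induction n with
    | zero =>
      rintro A hcard _ _ ⟨tr, h1, h2, h3, _⟩
      have hA : A = Finset.univ := by
        apply Finset.eq_univ_of_card
        have := Finset.card_le_univ A
        omega
      refine ⟨tr, h1, h2, ?_⟩
      intro x
      rw [h3 x, hA]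
      obtain ⟨a, ha⟩ := hV x
      exact ⟨a, Finset.mem_univ a, ha⟩
    | succ n ih =>
      rintro A hcard hrA hA ⟨tr, h1, h2, h3, h4⟩
      by_cases hAu : A = Finset.univ
      · refine ⟨tr, h1, h2, ?_⟩
        intro x
        rw [h3 x, hAu]
        obtain ⟨a, ha⟩ := hV x
        exact ⟨a, Finset.mem_univ a, ha⟩
      · have hex : ∃ a, a ∉ A := by
          by_contra hcon
          push Not at hcon
          exact hAu (Finset.eq_univ_iff_forall.mpr hcon)
        obtain ⟨a, ha⟩ := hex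
        obtain ⟨p⟩ := hH.connected r a
        obtain ⟨dd, _, hd1, hd2⟩ := p.exists_boundary_dart (A : Set ι)
          (Finset.mem_coe.mpr hrA) (fun h => ha (Finset.mem_coe.mp h))
        have hs : dd.fst ∈ A := Finset.mem_coe.mp hd1
        have ht : dd.snd ∉ A := fun h => hd2 (Finset.mem_coe.mpr h)
        have hst : H.Adj dd.fst dd.snd := dd.adj
        have hnew := grow hc hℓ hH hE hI hB4 hA hs ht hst h1 h2 h3 h4
        apply ih (insert dd.snd A) _ (Finset.mem_insert_of_mem hrA) _ hnew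
        · rw [Finset.card_insert_of_notMem ht]
          omega
        · intro b hb
          rcases Finset.mem_insert.mp hb with rfl | hb
          · obtain ⟨q, hq⟩ := hA _ hs
            refine ⟨q.concat hst, ?_⟩
            intro x hx
            rw [SimpleGraph.Walk.support_concat, List.mem_append,
              List.mem_singleton] at hx
            rcases hx with hx | hx
            · exact Finset.mem_insert_of_mem (hq x hx)
            · rw [hx]
              exact Finset.mem_insert_self _ _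
          · obtain ⟨q, hq⟩ := hA b hb
            exact ⟨q, fun x hx => Finset.mem_insert_of_mem (hq x hx)⟩
  obtain ⟨tr, h1, h2, h3⟩ := hgrow (Fintype.card ι) {r} (by omega) (by simp) (by
    intro a ha
    rw [Finset.mem_singleton] at ha
    subst ha
    exact ⟨SimpleGraph.Walk.nil, by simp⟩) hbase
  exact ⟨T, tr, h1, h2, h3⟩

end Vale.Agent.P235T3
end
end
end

section

section

section

namespace Vale.Agent.P235T3

open Vale.Agent.P235

theorem Phi_symm (K1 K3 K4 ov oj ok vv vj vk O pv pj pk : ℝ) :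
    Tri.Phi K1 K3 K4 ov oj ok vv vj vk O pv pj pk = Tri.Phi K1 K3 K4 ov ok oj vv vk vj O pv pk pj := by
  unfold Tri.Phi
  rw [min_comm (vj + oj / 32)]
  have e1 : oj + ok - vj - vk = ok + oj - vk - vj := by ring
  have e2 : ov + oj - vv - vj + (ov + ok - vv - vk) = ov + ok - vv - vk + (ov + oj - vv - vj) := by
    ring
  have e3 : 1 - pv - pj - pk = 1 - pv - pk - pj := by ring
  rw [e1, e2, e3]
  ring

theorem phi_nonneg (p : ℝ) : 0 ≤ Tri.phi p := by unfold Tri.phi; (clear * -; positivity)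

theorem phi_le {p : ℝ} (h0 : 0 ≤ p) : Tri.phi p ≤ 2 * p := by
  unfold Tri.phi
  have h1 : 0 ≤ min 1 (2 * p) := le_min (by norm_num) (by linarith only [h0])
  have h2 : min 1 (2 * p) ≤ 1 := min_le_left _ _
  have h3 : min 1 (2 * p) ≤ 2 * p := min_le_right _ _
  nlinarith only [h3, h1, h2]

theorem phi_le_one {p : ℝ} (h0 : 0 ≤ p) : Tri.phi p ≤ 1 := by
  unfold Tri.phi
  have h1 : 0 ≤ min 1 (2 * p) := le_min (by norm_num) (by linarith only [h0])
  have h2 : min 1 (2 * p) ≤ 1 := min_le_left _ _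
  linarith [mul_nonneg (sub_nonneg.2 h2) (sub_nonneg.2 h1), mul_nonneg (sub_nonneg.2 h2) (sub_nonneg.2 h2)]

theorem Phi_nonneg {K1 K3 K4 ov oj ok vv vj vk O pv pj pk : ℝ} (hK1 : 0 ≤ K1) (hK3 : 0 ≤ K3)
    (hK4 : 0 ≤ K4) (h1 : 0 ≤ ov) (h2 : 0 ≤ oj) (h3 : 0 ≤ ok) (h4 : 0 ≤ vv) (h5 : 0 ≤ vj)
    (h6 : 0 ≤ vk) (h7 : 0 ≤ O) (h8 : 0 ≤ pv ∧ pv ≤ 1) (h9 : 0 ≤ pj ∧ pj ≤ 1)
    (h10 : 0 ≤ pk ∧ pk ≤ 1) : 0 ≤ Tri.Phi K1 K3 K4 ov oj ok vv vj vk O pv pj pk := by
  obtain ⟨a1, a2⟩ := h8
  obtain ⟨b1, b2⟩ := h9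
  obtain ⟨c1, c2⟩ := h10
  have a3 : 0 ≤ 1 - pv := by linarith only [a2]
  have b3 : 0 ≤ 1 - pj := by linarith only [b2]
  have c3 : 0 ≤ 1 - pk := by linarith only [c2]
  have p1 := phi_nonneg pj
  have p2 := phi_nonneg pk
  unfold Tri.Phi
  (clear * - hK3 h7 h4 h1 a1 a2 h5 h2 b1 b2 h6 h3 c1 c2 hK1 p1 p2 hK4; (clear * - hK3 h7 h4 h1 a1 a2 h5 h2 b1 b2 h6 h3 c1 c2 hK1 p1 p2 hK4; positivity))

theorem Phi_le {K1 K3 K4 ov oj ok vv vj vk O pv pj pk : ℝ} (hK1 : 0 ≤ K1) (hK3 : 0 ≤ K3)
    (hK4 : 0 ≤ K4) (h1 : 0 ≤ ov) (h2 : 0 ≤ oj) (h3 : 0 ≤ ok) (h4 : 0 ≤ vv) (h5 : 0 ≤ vj)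
    (h6 : 0 ≤ vk) (h7 : 0 ≤ O) (h8 : 0 ≤ pv ∧ pv ≤ 1) (h9 : 0 ≤ pj ∧ pj ≤ 1)
    (h10 : 0 ≤ pk ∧ pk ≤ 1) (d1 : vv + vj ≤ ov + oj) (d2 : vv + vk ≤ ov + ok) :
    Tri.Phi K1 K3 K4 ov oj ok vv vj vk O pv pj pk ≤ (K3 + 2 * K1 + 2 * K4) *
      (O + (vv + ov/32) * (1 - pv) + (vj + oj/32) * pj + (vk + ok/32) * pk) := by
  obtain ⟨a1, a2⟩ := h8
  obtain ⟨b1, b2⟩ := h9
  obtain ⟨c1, c2⟩ := h10
  have a3 : 0 ≤ 1 - pv := by linarith only [a2]
  have b3 : 0 ≤ 1 - pj := by linarith only [b2]
  have c3 : 0 ≤ 1 - pk := by linarith only [c2]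
  have p1 := phi_nonneg pj
  have p2 := phi_nonneg pk
  have p3 := phi_le b1
  have p4 := phi_le_one c1
  have wv : 0 ≤ vv + ov/32 := by linarith only [h1, h4]
  have wj : 0 ≤ vj + oj/32 := by linarith only [h2, h5]
  have wk : 0 ≤ vk + ok/32 := by linarith only [h3, h6]
  set F := O + (vv + ov/32) * (1 - pv) + (vj + oj/32) * pj + (vk + ok/32) * pk with hF
  have f1 : 0 ≤ (vv + ov/32) * (1 - pv) := mul_nonneg wv a3
  have f2 : 0 ≤ (vj + oj/32) * pj := mul_nonneg wj b1
  have f3 : 0 ≤ (vk + ok/32) * pk := mul_nonneg wk c1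
  have F0 : 0 ≤ F := by rw [hF]; linarith only [h7, f1, f2, f3]
  -- K3 term
  have t3 : O + (vv + ov/32) * (pv * (1 - pv)) + (vj + oj/32) * (pj * (1 - pj))
      + (vk + ok/32) * (pk * (1 - pk)) ≤ F := by
    have g1 : (vv + ov/32) * (pv * (1 - pv)) ≤ (vv + ov/32) * (1 - pv) := by
      apply mul_le_mul_of_nonneg_left _ wv
      linarith only [mul_nonneg (sub_nonneg.2 a2) (sub_nonneg.2 a2)]
    have g2 : (vj + oj/32) * (pj * (1 - pj)) ≤ (vj + oj/32) * pj := by
      apply mul_le_mul_of_nonneg_left _ wj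
      nlinarith only [b1]
    have g3 : (vk + ok/32) * (pk * (1 - pk)) ≤ (vk + ok/32) * pk := by
      apply mul_le_mul_of_nonneg_left _ wk
      nlinarith only [c1]
    linarith only [hF, g1, g2, g3]
  -- min term
  have t2 : max 0 (min (vj + oj/32) (vk + ok/32) - (vv + ov/32)) * (Tri.phi pj * Tri.phi pk)
      ≤ 2 * F := by
    have g1 : max 0 (min (vj + oj/32) (vk + ok/32) - (vv + ov/32)) ≤ vj + oj/32 := by
      apply max_le wj
      have := min_le_left (vj + oj/32) (vk + ok/32)
      linarith only [this, h4, h1]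
    have g2 : Tri.phi pj * Tri.phi pk ≤ 2 * pj := by linarith only [mul_nonneg (sub_nonneg.2 p1) (sub_nonneg.2 p4), p3]
    have g3 : 0 ≤ Tri.phi pj * Tri.phi pk := mul_nonneg p1 p2
    calc _ ≤ (vj + oj/32) * (2 * pj) := mul_le_mul g1 g2 g3 wj
      _ = 2 * ((vj + oj/32) * pj) := by ring
      _ ≤ 2 * F := by linarith only [h7, hF, f1, f3]
  -- K4 term
  have t4 : max 0 ((oj + ok - vj - vk) - 4 * ((ov + oj - vv - vj) + (ov + ok - vv - vk)))
      * (max 0 (1 - pv - pj - pk)) ^ 2 ≤ 2 * F := by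
    have g1 : max 0 ((oj + ok - vj - vk) - 4 * ((ov + oj - vv - vj) + (ov + ok - vv - vk)))
        ≤ 2 * (vv + ov/32) := by
      apply max_le (by linarith only [h1, h4])
      linarith only [d2, d1, h1]
    have m0 : 0 ≤ max 0 (1 - pv - pj - pk) := le_max_left _ _
    have m1 : max 0 (1 - pv - pj - pk) ≤ 1 - pv := max_le a3 (by linarith only [b1, c1])
    have g2 : (max 0 (1 - pv - pj - pk)) ^ 2 ≤ 1 - pv := by nlinarith only [m1, a1, m0]
    calc _ ≤ 2 * (vv + ov/32) * (1 - pv) := mul_le_mul g1 g2 (by (clear * -; positivity)) (by linarith only [h1, h4])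
      _ = 2 * ((vv + ov/32) * (1 - pv)) := by ring
      _ ≤ 2 * F := by linarith only [f3, f2, hF, h7]
  unfold Tri.Phi
  have s3 := mul_le_mul_of_nonneg_left t3 hK3
  have s2 := mul_le_mul_of_nonneg_left t2 (show 0 ≤ K1/2 by linarith only [hK1])
  have s4 := mul_le_mul_of_nonneg_left t4 hK4
  rw [← hF]
  linarith only [s3, s2, s4]

/-- the potential in index form -/
noncomputable def PhiT (K1 K3 K4 : ℝ) (w om : Fin 3 → ℝ) (O : ℝ) (p : Fin 3 → ℝ) (v : Fin 3) : ℝ :=
  Tri.Phi K1 K3 K4 (om v) (om (v + 1)) (om (v + 2)) (w v - om v / 32)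
    (w (v + 1) - om (v + 1) / 32) (w (v + 2) - om (v + 2) / 32) O (p v) (p (v + 1)) (p (v + 2))

def GoodT (w om : Fin 3 → ℝ) : Prop :=
  Tri.Good (om 0) (om 1) (om 2) (w 0 - om 0 / 32) (w 1 - om 1 / 32) (w 2 - om 2 / 32)

theorem frac_ex {w P : ℝ} (h0 : 0 ≤ P) (h1 : P ≤ w) : ∃ p, 0 ≤ p ∧ p ≤ 1 ∧ w * p = P := by
  refine ⟨P / w, div_nonneg h0 (h0.trans h1), div_le_one_of_le₀ h1 (h0.trans h1), ?_⟩
  rcases eq_or_lt_of_le (h0.trans h1) with h | h
  · rw [← h] at h1 ⊢
    simp only [zero_mul]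
    linarith only [h1, h0]
  · (clear * - h; field_simp)

theorem stepC_pot {K1 K3 K4 : ℝ} {om v y x t : Fin 3 → ℝ} {mu nu : ℝ} (k : Fin 3)
    (hx0 : ∀ i, 0 ≤ x i) (hxv : ∀ i, x i ≤ v i) (ht0 : ∀ i, 0 ≤ t i) (hto : ∀ i, t i ≤ om i)
    (hmu : 0 ≤ mu) (hnu : 0 ≤ nu)
    (hD : ∀ i, nu + (om i - t i) + t (i + 1) + t (i + 2) = y i)
    (h : Tri.StepC K1 K3 K4 (om (k + 1)) (om (k + 2)) (om k) (v (k + 1)) (v (k + 2)) (v k)
      (y (k + 1)) (y (k + 2)) (y k) mu (x (k + 1)) (x (k + 2)) (x k) nu (t (k + 1)) (t (k + 2))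
      (t k)) (O : ℝ) (p : Fin 3 → ℝ) (hO : 0 ≤ O) (hp : ∀ k, 0 ≤ p k ∧ p k ≤ 1) :
    PotStep (PhiT K1 K3 K4) (fun i => v i + om i / 32) om y (fun i => x i + t i / 32)
      (mu + nu / 32) O p k := by
  have D0 := hD k
  have D1 := hD (k + 1)
  have D2 := hD (k + 2)
  rw [rot12, rot13] at D1
  rw [rot21, rot22] at D2
  have X0 : ∀ i, 0 ≤ x i + t i / 32 := fun i => by linarith only [hx0 i, ht0 i]
  have M0 : ∀ i, 0 ≤ (v i - x i) + (om i - t i) / 32 := fun i => by linarith only [hxv i, hto i]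
  have P0 : ∀ i, 0 ≤ 1 - p i := fun i => by linarith [(hp i).2]
  obtain ⟨qz, qz0, qz1, qz2⟩ := frac_ex (w := (mu + nu/32) + (x k + t k/32))
    (P := (x k + t k/32) * p k) (mul_nonneg (X0 k) (hp k).1) (by
      linarith only [mul_nonneg (X0 k) (P0 k), hnu, hmu])
  obtain ⟨qa, qa0, qa1, qa2⟩ := frac_ex
    (w := ((v (k+1) - x (k+1)) + (om (k+1) - t (k+1))/32) + (x (k+2) + t (k+2)/32))
    (P := ((v (k+1) - x (k+1)) + (om (k+1) - t (k+1))/32) * p (k+1)
      + (x (k+2) + t (k+2)/32) * (1 - p (k+2)))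
    (add_nonneg (mul_nonneg (M0 _) (hp _).1) (mul_nonneg (X0 _) (P0 _))) (by
      linarith only [mul_nonneg (X0 (k+2)) (hp (k+2)).1, mul_nonneg (M0 (k+1)) (P0 (k+1))])
  obtain ⟨qb, qb0, qb1, qb2⟩ := frac_ex
    (w := ((v (k+2) - x (k+2)) + (om (k+2) - t (k+2))/32) + (x (k+1) + t (k+1)/32))
    (P := ((v (k+2) - x (k+2)) + (om (k+2) - t (k+2))/32) * p (k+2)
      + (x (k+1) + t (k+1)/32) * (1 - p (k+1)))
    (add_nonneg (mul_nonneg (M0 _) (hp _).1) (mul_nonneg (X0 _) (P0 _))) (by
      linarith only [mul_nonneg (X0 (k+1)) (hp (k+1)).1, mul_nonneg (M0 (k+2)) (P0 (k+2))])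
  obtain ⟨r1, r2, r3⟩ := h.pot O (p (k+1)) (p (k+2)) (p k) qz qa qb hO (hp _).1 (hp _).2 (hp _).1
    (hp _).2 (hp _).1 (hp _).2 qz0 qz1 qa0 qa1 qb0 qb1 qz2 qa2 qb2
  have w0 : wf (fun i => v i + om i / 32) (fun i => x i + t i / 32) (mu + nu / 32) k 0
      = (mu + nu/32) + (x k + t k/32) := rfl
  have w1 : wf (fun i => v i + om i / 32) (fun i => x i + t i / 32) (mu + nu / 32) k 1
      = ((v (k+1) - x (k+1)) + (om (k+1) - t (k+1))/32) + (x (k+2) + t (k+2)/32) := by
    show (v (k+1) + om (k+1)/32 - (x (k+1) + t (k+1)/32)) + (x (k+2) + t (k+2)/32) = _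
    ring
  have w2 : wf (fun i => v i + om i / 32) (fun i => x i + t i / 32) (mu + nu / 32) k 2
      = ((v (k+2) - x (k+2)) + (om (k+2) - t (k+2))/32) + (x (k+1) + t (k+1)/32) := by
    show (v (k+2) + om (k+2)/32 - (x (k+2) + t (k+2)/32)) + (x (k+1) + t (k+1)/32) = _
    ring
  have o0 : omf om y k 0 = (y (k+1) + y (k+2) - om (k+1) - om (k+2))/2 := by
    show (y (k + 1) + y (k + 2) - (om (k + 1) + om (k + 2))) / 2 = _
    ring
  have o1 : omf om y k 1 = (om (k+1) + om (k+2) + y (k+1) - y (k+2))/2 := by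
    show (y (k + 1) + (om (k + 1) + om (k + 2)) - y (k + 2)) / 2 = _
    ring
  have o2 : omf om y k 2 = (om (k+1) + om (k+2) + y (k+2) - y (k+1))/2 := by
    show (y (k + 2) + (om (k + 1) + om (k + 2)) - y (k + 1)) / 2 = _
    ring
  have e0 : wf (fun i => v i + om i / 32) (fun i => x i + t i / 32) (mu + nu / 32) k 0
      - omf om y k 0 / 32 = mu + x k := by
    rw [w0, o0]; (clear * - D1 D2; linarith)
  have e1 : wf (fun i => v i + om i / 32) (fun i => x i + t i / 32) (mu + nu / 32) k 1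
      - omf om y k 1 / 32 = v (k+1) - x (k+1) + x (k+2) := by
    rw [w1, o1]; linarith only [D1, D2]
  have e2 : wf (fun i => v i + om i / 32) (fun i => x i + t i / 32) (mu + nu / 32) k 2
      - omf om y k 2 / 32 = v (k+2) - x (k+2) + x (k+1) := by
    rw [w2, o2]; linarith only [D1, D2]
  have eO : Of (fun i => v i + om i / 32) (fun i => x i + t i / 32) O p k
      = O + ((v k - x k) + (om k - t k)/32) * p k := by
    show O + (v k + om k/32 - (x k + t k/32)) * p k = _
    ring
  have ew : ∀ i, v i + om i / 32 - om i / 32 = v i := fun i => by ring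
  -- old potentials
  have A1 : PhiT K1 K3 K4 (fun i => v i + om i / 32) om O p (k + 1)
      = Tri.Phi K1 K3 K4 (om (k+1)) (om (k+2)) (om k) (v (k+1)) (v (k+2)) (v k) O (p (k+1))
        (p (k+2)) (p k) := by
    unfold PhiT
    simp only [rot12, rot13, ew]
  have A2 : PhiT K1 K3 K4 (fun i => v i + om i / 32) om O p (k + 2)
      = Tri.Phi K1 K3 K4 (om (k+2)) (om (k+1)) (om k) (v (k+2)) (v (k+1)) (v k) O (p (k+2))
        (p (k+1)) (p k) := by
    unfold PhiT
    simp only [rot21, rot22, ew]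
    rw [Phi_symm]
  have A0 : PhiT K1 K3 K4 (fun i => v i + om i / 32) om O p k
      = Tri.Phi K1 K3 K4 (om k) (om (k+1)) (om (k+2)) (v k) (v (k+1)) (v (k+2)) O (p k)
        (p (k+1)) (p (k+2)) := by
    unfold PhiT
    simp only [ew]
  refine ⟨![qz, qa, qb], ?_, ?_, ?_⟩
  · intro j
    fin_cases j
    · exact ⟨qz0, qz1⟩
    · exact ⟨qa0, qa1⟩
    · exact ⟨qb0, qb1⟩
  · intro j
    fin_cases j
    · exact qz2
    · show wf (fun i => v i + om i / 32) (fun i => x i + t i / 32) (mu + nu / 32) k 1 * qa = _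
      rw [w1, qa2]
      show _ = (v (k+1) + om (k+1)/32 - (x (k+1) + t (k+1)/32)) * p (k+1)
        + (x (k+2) + t (k+2)/32) * (1 - p (k+2))
      ring
    · show wf (fun i => v i + om i / 32) (fun i => x i + t i / 32) (mu + nu / 32) k 2 * qb = _
      rw [w2, qb2]
      show _ = (v (k+2) + om (k+2)/32 - (x (k+2) + t (k+2)/32)) * p (k+2)
        + (x (k+1) + t (k+1)/32) * (1 - p (k+1))
      ring
  · have B0 : PhiT K1 K3 K4 (wf (fun i => v i + om i / 32) (fun i => x i + t i / 32) (mu + nu / 32) k)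
        (omf om y k) (Of (fun i => v i + om i / 32) (fun i => x i + t i / 32) O p k)
        ![qz, qa, qb] 0 =
        Tri.Phi K1 K3 K4 (omf om y k 0) (omf om y k 1) (omf om y k 2)
        (wf (fun i => v i + om i / 32) (fun i => x i + t i / 32) (mu + nu / 32) k 0
          - omf om y k 0/32)
        (wf (fun i => v i + om i / 32) (fun i => x i + t i / 32) (mu + nu / 32) k 1
          - omf om y k 1/32)
        (wf (fun i => v i + om i / 32) (fun i => x i + t i / 32) (mu + nu / 32) k 2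
          - omf om y k 2/32)
        (Of (fun i => v i + om i / 32) (fun i => x i + t i / 32) O p k) qz qa qb := rfl
    have B1 : PhiT K1 K3 K4 (wf (fun i => v i + om i / 32) (fun i => x i + t i / 32) (mu + nu / 32) k)
        (omf om y k) (Of (fun i => v i + om i / 32) (fun i => x i + t i / 32) O p k)
        ![qz, qa, qb] 1 =
        Tri.Phi K1 K3 K4 (omf om y k 1) (omf om y k 2) (omf om y k 0)
        (wf (fun i => v i + om i / 32) (fun i => x i + t i / 32) (mu + nu / 32) k 1
          - omf om y k 1/32)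
        (wf (fun i => v i + om i / 32) (fun i => x i + t i / 32) (mu + nu / 32) k 2
          - omf om y k 2/32)
        (wf (fun i => v i + om i / 32) (fun i => x i + t i / 32) (mu + nu / 32) k 0
          - omf om y k 0/32)
        (Of (fun i => v i + om i / 32) (fun i => x i + t i / 32) O p k) qa qb qz := rfl
    have B2 : PhiT K1 K3 K4 (wf (fun i => v i + om i / 32) (fun i => x i + t i / 32) (mu + nu / 32) k)
        (omf om y k) (Of (fun i => v i + om i / 32) (fun i => x i + t i / 32) O p k)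
        ![qz, qa, qb] 2 =
        Tri.Phi K1 K3 K4 (omf om y k 2) (omf om y k 0) (omf om y k 1)
        (wf (fun i => v i + om i / 32) (fun i => x i + t i / 32) (mu + nu / 32) k 2
          - omf om y k 2/32)
        (wf (fun i => v i + om i / 32) (fun i => x i + t i / 32) (mu + nu / 32) k 0
          - omf om y k 0/32)
        (wf (fun i => v i + om i / 32) (fun i => x i + t i / 32) (mu + nu / 32) k 1
          - omf om y k 1/32)
        (Of (fun i => v i + om i / 32) (fun i => x i + t i / 32) O p k) qb qz qa := rfl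
    rw [e0, e1, e2, o0, o1, o2, eO] at B0 B1
    rw [Phi_symm, e0, e1, e2, o0, o1, o2, eO] at B2
    have C0 : ∀ m, (∀ i, m ≤ PhiT K1 K3 K4 (fun i => v i + om i / 32) om O p i +
        dface om y k i 0) → m ≤ PhiT K1 K3 K4
        (wf (fun i => v i + om i / 32) (fun i => x i + t i / 32) (mu + nu / 32) k)
        (omf om y k) (Of (fun i => v i + om i / 32) (fun i => x i + t i / 32) O p k)
        ![qz, qa, qb] 0 := by
      intro m hm
      have m1 := hm (k + 1)
      have m2 := hm (k + 2)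
      have m0 := hm k
      have g : ∀ i, dface om y k i 0 = y i := fun i => rfl
      rw [A1, g] at m1
      rw [A2, g] at m2
      rw [A0, g] at m0
      rw [eO, B0]
      rcases r3 with r | r | r
      · exact m1.trans r
      · exact m2.trans r
      · exact m0.trans r
    have C1 : ∀ m, (∀ i, m ≤ PhiT K1 K3 K4 (fun i => v i + om i / 32) om O p i +
        dface om y k i 1) → m ≤ PhiT K1 K3 K4
        (wf (fun i => v i + om i / 32) (fun i => x i + t i / 32) (mu + nu / 32) k)
        (omf om y k) (Of (fun i => v i + om i / 32) (fun i => x i + t i / 32) O p k)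
        ![qz, qa, qb] 1 := by
      intro m hm
      have m1 := hm (k + 1)
      have g : dface om y k (k+1) 1 = 0 := by
        show dT om (k + 1) (k + 1) = 0
        simp only [dT, Fin.isValue, ↓reduceIte]
      rw [A1, g] at m1
      rw [eO, B1]
      linarith only [m1, r1]
    have C2 : ∀ m, (∀ i, m ≤ PhiT K1 K3 K4 (fun i => v i + om i / 32) om O p i +
        dface om y k i 2) → m ≤ PhiT K1 K3 K4
        (wf (fun i => v i + om i / 32) (fun i => x i + t i / 32) (mu + nu / 32) k)
        (omf om y k) (Of (fun i => v i + om i / 32) (fun i => x i + t i / 32) O p k)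
        ![qz, qa, qb] 2 := by
      intro m hm
      have m2 := hm (k + 2)
      have g : dface om y k (k+2) 2 = 0 := by
        show dT om (k + 2) (k + 2) = 0
        simp [dT]
      rw [A2, g] at m2
      rw [eO, B2]
      linarith only [r2, m2]
    intro j
    fin_cases j
    · exact C0
    · exact C1
    · exact C2

/-- the assembled local theory -/
theorem exists_loc {K1 K3 K4 : ℝ} (hK1 : 0 ≤ K1) (hK3 : 0 ≤ K3) (hK4 : 0 ≤ K4)
    (h : Tri.OneStep K1 K3 K4) : ∃ M : Loc, ∀ w om, M.Good w om ↔ GoodT w om := by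
  have hlegs : ∀ w om : Fin 3 → ℝ, GoodT w om → ∀ k, 0 ≤ om k ∧ 0 ≤ w k - om k / 32 ∧
      (w (k + 1) - om (k + 1)/32) + (w (k + 2) - om (k + 2)/32) ≤ om (k + 1) + om (k + 2) := by
    intro w om hg k
    fin_cases k
    · exact ⟨hg.oa0, hg.va0, hg.dbc⟩
    · exact ⟨hg.ob0, hg.vb0, hg.dca⟩
    · exact ⟨hg.oc0, hg.vc0, hg.dab⟩
  refine ⟨{ Good := GoodT, Φ := PhiT K1 K3 K4, c0 := 1/32, C := K3 + 2 * K1 + 2 * K4,
            cu := 33/32, c0_pos := by norm_num, cu_nonneg := by norm_num,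
            C_nonneg := by (clear * - hK3 hK1 hK4; positivity), lo := ?_, hi := ?_, Φ_nonneg := ?_, Φ_le := ?_,
            init := ?_, step := ?_ }, fun _ _ => Iff.rfl⟩
  · intro w om hg k
    have h1 := (hlegs w om hg (k + 1)).2.1
    have h2 := (hlegs w om hg (k + 2)).2.1
    linarith only [h1, h2]
  · intro w om hg k
    have h1 := (hlegs w om hg k).2.2
    linarith
  · intro w om hg O p hO hp v
    exact Phi_nonneg hK1 hK3 hK4 (hlegs w om hg v).1 (hlegs w om hg _).1 (hlegs w om hg _).1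
      (hlegs w om hg v).2.1 (hlegs w om hg _).2.1 (hlegs w om hg _).2.1 hO (hp _) (hp _) (hp _)
  · intro w om hg O p hO hp v
    have h1 := (hlegs w om hg (v + 1)).2.2
    have h2 := (hlegs w om hg (v + 2)).2.2
    rw [rot12, rot13] at h1
    rw [rot21, rot22] at h2
    have h3 := Phi_le (O := O) (pv := p v) (pj := p (v + 1)) (pk := p (v + 2)) hK1 hK3 hK4
      (hlegs w om hg v).1 (hlegs w om hg (v + 1)).1 (hlegs w om hg (v + 2)).1
      (hlegs w om hg v).2.1 (hlegs w om hg (v + 1)).2.1 (hlegs w om hg (v + 2)).2.1 hO (hp _)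
      (hp _) (hp _) (by linarith only [h2]) (by linarith only [h1])
    have ew : ∀ i, w i - om i / 32 + om i / 32 = w i := fun i => by ring
    rw [ew, ew, ew] at h3
    exact h3
  · intro om hom
    refine ⟨fun k => om k / 32, fun k => by have := hom k; positivity, ?_⟩
    have h0 := hom 0
    have h1 := hom 1
    have h2 := hom 2
    refine ⟨h0, h1, h2, by simp, by simp, by simp, by simp only [Fin.isValue, sub_self, add_zero]; linarith only [h0, h1], by simp only [Fin.isValue, sub_self, add_zero]; linarith,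
      by simp only [Fin.isValue, sub_self, add_zero]; linarith, ?_⟩
    simp only [sub_self, mul_zero, sub_zero]
    have e1 := mul_nonneg h0 h1
    have e2 := mul_nonneg h1 h2
    have e3 := mul_nonneg h2 h0
    have e4 := mul_nonneg e1 h2
    linarith [mul_nonneg (sub_nonneg.2 h0) (sub_nonneg.2 e3), mul_nonneg (sub_nonneg.2 h0) (sub_nonneg.2 e1), mul_nonneg (sub_nonneg.2 h2) (sub_nonneg.2 e3), mul_nonneg (sub_nonneg.2 h2) (sub_nonneg.2 e1), mul_nonneg (sub_nonneg.2 e2) (sub_nonneg.2 h2), mul_nonneg (sub_nonneg.2 h1) (sub_nonneg.2 e1), mul_nonneg (sub_nonneg.2 h1) (sub_nonneg.2 e2)]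
  · intro w om hg hw hom y hy t1 t2 t3
    have hext : Tri.Ext (om 0) (om 1) (om 2) (y 0) (y 1) (y 2) := by
      have a0 := t1 0
      have a1 := t1 1
      have a2 := t1 2
      have b0 := t2 0
      have b1 := t2 1
      have b2 := t2 2
      have c0 := t3 0
      have c1 := t3 1
      have c2 := t3 2
      simp only [Fin.isValue, zero_add, Fin.reduceAdd] at a0 a1 a2 b0 b1 b2 c0 c1 c2
      constructor <;> linarith
    obtain ⟨mu, xa, xb, xc, nu, ta, tb, tc, hM, s2, s0, s1⟩ := h _ _ _ _ _ _ _ _ _ hg hext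
    set v : Fin 3 → ℝ := fun i => w i - om i / 32 with hv
    have hwv : w = fun i => v i + om i / 32 := by
      funext i
      rw [hv]
      ring
    set x : Fin 3 → ℝ := ![xa, xb, xc] with hx
    set t : Fin 3 → ℝ := ![ta, tb, tc] with ht
    have hx0 : ∀ i, 0 ≤ x i := by
      intro i; fin_cases i
      · exact hM.xa0
      · exact hM.xb0
      · exact hM.xc0
    have hxv : ∀ i, x i ≤ v i := by
      intro i; fin_cases i
      · exact hM.xav
      · exact hM.xbv
      · exact hM.xcv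
    have ht0 : ∀ i, 0 ≤ t i := by
      intro i; fin_cases i
      · exact hM.ta0
      · exact hM.tb0
      · exact hM.tc0
    have hto : ∀ i, t i ≤ om i := by
      intro i; fin_cases i
      · exact hM.tao
      · exact hM.tbo
      · exact hM.tco
    have hD : ∀ i, nu + (om i - t i) + t (i + 1) + t (i + 2) = y i := by
      intro i; fin_cases i
      · exact hM.Da
      · exact hM.Db
      · exact hM.Dc
    have hS : ∀ k, Tri.StepC K1 K3 K4 (om (k + 1)) (om (k + 2)) (om k) (v (k + 1)) (v (k + 2))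
        (v k) (y (k + 1)) (y (k + 2)) (y k) mu (x (k + 1)) (x (k + 2)) (x k) nu (t (k + 1))
        (t (k + 2)) (t k) := by
      intro k; fin_cases k
      · exact s0
      · exact s1
      · exact s2
    refine ⟨fun i => x i + t i / 32, mu + nu / 32, ?_, ?_, ?_, ?_⟩
    · intro k
      have a1 := hx0 k
      have a2 := hxv k
      have a3 := ht0 k
      have a4 := hto k
      have a5 : w k = v k + om k / 32 := by rw [hwv]
      constructor
      · show 0 ≤ x k + t k / 32
        linarith only [a1, a3]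
      · show x k + t k / 32 ≤ w k
        linarith only [a2, a4, a5]
    · have := hM.mu0
      have := hM.nu0
      (clear K1 K3 K4 hK1 hK3 hK4 h hlegs hg hw hom hy t1 t2 t3 hext s2 s0 s1 v hv hwv x hx t ht hx0 hxv ht0 hto hD hS; linarith)
    · intro k
      have hg' := (hS k).good
      have D0 := hD k
      have D1 := hD (k + 1)
      have D2 := hD (k + 2)
      rw [rot12, rot13] at D1
      rw [rot21, rot22] at D2
      have w1 : w (k + 1) = v (k + 1) + om (k + 1) / 32 := by rw [hwv]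
      have w2 : w (k + 2) = v (k + 2) + om (k + 2) / 32 := by rw [hwv]
      have o0 : omf om y k 0 = (y (k+1) + y (k+2) - om (k+1) - om (k+2))/2 := by
        show (y (k + 1) + y (k + 2) - (om (k + 1) + om (k + 2))) / 2 = _
        ring
      have o1 : omf om y k 1 = (om (k+1) + om (k+2) + y (k+1) - y (k+2))/2 := by
        show (y (k + 1) + (om (k + 1) + om (k + 2)) - y (k + 2)) / 2 = _
        ring
      have o2 : omf om y k 2 = (om (k+1) + om (k+2) + y (k+2) - y (k+1))/2 := by
        show (y (k + 2) + (om (k + 1) + om (k + 2)) - y (k + 1)) / 2 = _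
        ring
      have e0 : wf w (fun i => x i + t i / 32) (mu + nu / 32) k 0
          - omf om y k 0 / 32 = mu + x k := by
        rw [o0]
        show (mu + nu/32) + (x k + t k/32) - _ = _
        linarith only [D1, D2]
      have e1 : wf w (fun i => x i + t i / 32) (mu + nu / 32) k 1
          - omf om y k 1 / 32 = v (k+1) - x (k+1) + x (k+2) := by
        rw [o1]
        show (w (k+1) - (x (k+1) + t (k+1)/32)) + (x (k+2) + t (k+2)/32) - _ = _
        rw [w1]
        linarith only [D1, D2]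
      have e2 : wf w (fun i => x i + t i / 32) (mu + nu / 32) k 2
          - omf om y k 2 / 32 = v (k+2) - x (k+2) + x (k+1) := by
        rw [o2]
        show (w (k+2) - (x (k+2) + t (k+2)/32)) + (x (k+1) + t (k+1)/32) - _ = _
        rw [w2]
        linarith only [D1, D2]
      show Tri.Good _ _ _ _ _ _
      rw [e0, e1, e2, o0, o1, o2]
      exact hg'
    · intro O p hO hp k
      have := stepC_pot (v := v) k hx0 hxv ht0 hto hM.mu0 hM.nu0 hD (hS k) O p hO hp
      rw [← hwv] at this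
      exact this

end Vale.Agent.P235T3
end
end
end

section

section

section

namespace Vale.Agent.P235.Tri

/-- context for the potential inequality, step drop `c`, in mass variables. -/
structure Ctx (oa ob oc va vb vc ya yb yc oz oa' ob' vz va' vb' ma mb mc mz Xa Xb Xc
    pa pb pc qa qb qz : ℝ) : Prop where
  ma0 : 0 ≤ ma
  mb0 : 0 ≤ mb
  mc0 : 0 ≤ mc
  mz0 : 0 ≤ mz
  Xa0 : 0 ≤ Xa
  Xb0 : 0 ≤ Xb
  Xc0 : 0 ≤ Xc
  oa0 : 0 ≤ oa
  ob0 : 0 ≤ ob
  oc0 : 0 ≤ oc
  va0 : 0 ≤ va
  vb0 : 0 ≤ vb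
  vc0 : 0 ≤ vc
  dab : va + vb ≤ oa + ob
  dbc : vb + vc ≤ ob + oc
  dca : vc + va ≤ oc + oa
  oz0 : 0 ≤ oz
  oa'0 : 0 ≤ oa'
  ob'0 : 0 ≤ ob'
  vz0 : 0 ≤ vz
  va'0 : 0 ≤ va'
  vb'0 : 0 ≤ vb'
  hza : oz + oa' = ya
  hzb : oz + ob' = yb
  hab : oa' + ob' = oa + ob
  tbc : ob + oc ≤ yb + yc
  tca : oc + oa ≤ yc + ya
  ybc : yb ≤ yc + (ob + oc)
  ycb : yc ≤ yb + (ob + oc)
  yca : yc ≤ ya + (oc + oa)
  yac : ya ≤ yc + (oc + oa)
  wa : ma + Xa = va + oa/32
  wb : mb + Xb = vb + ob/32
  wc : mc + Xc = vc + oc/32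
  wz : mz + Xc = vz + oz/32
  wa' : ma + Xb = va' + oa'/32
  wb' : mb + Xa = vb' + ob'/32
  hab' : va' + vb' = va + vb
  Fza : vz + va' ≤ ya
  Fzb : vz + vb' ≤ yb
  Fup : mz + mc + Xa + Xb ≤ (33/32) * yc
  Flo : yc/32 ≤ mz + mc + Xa + Xb
  ca1 : vz + va' ≤ vc + va + yc
  ca2 : vc + va ≤ vz + va' + yc
  cb1 : vz + vb' ≤ vc + vb + yc
  cb2 : vc + vb ≤ vz + vb' + yc
  pa0 : 0 ≤ pa
  pa1 : pa ≤ 1
  pb0 : 0 ≤ pb
  pb1 : pb ≤ 1
  pc0 : 0 ≤ pc
  pc1 : pc ≤ 1
  qa0 : 0 ≤ qa
  qa1 : qa ≤ 1
  qb0 : 0 ≤ qb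
  qb1 : qb ≤ 1
  qz0 : 0 ≤ qz
  qz1 : qz ≤ 1
  ez : (mz + Xc) * qz = Xc * pc
  ea : (ma + Xb) * qa = ma * pa + Xb * (1 - pb)
  eb : (mb + Xa) * qb = mb * pb + Xa * (1 - pa)

theorem Ctx.swap {oa ob oc va vb vc ya yb yc oz oa' ob' vz va' vb' ma mb mc mz Xa Xb Xc
    pa pb pc qa qb qz : ℝ}
    (h : Ctx oa ob oc va vb vc ya yb yc oz oa' ob' vz va' vb' ma mb mc mz Xa Xb Xc
      pa pb pc qa qb qz) :
    Ctx ob oa oc vb va vc yb ya yc oz ob' oa' vz vb' va' mb ma mc mz Xb Xa Xc
      pb pa pc qb qa qz := by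
  constructor
  · exact h.mb0
  · exact h.ma0
  · exact h.mc0
  · exact h.mz0
  · exact h.Xb0
  · exact h.Xa0
  · exact h.Xc0
  · exact h.ob0
  · exact h.oa0
  · exact h.oc0
  · exact h.vb0
  · exact h.va0
  · exact h.vc0
  · linarith only [h.dab]
  · linarith only [h.dca]
  · linarith [h.dbc]
  · exact h.oz0
  · exact h.ob'0
  · exact h.oa'0
  · exact h.vz0
  · exact h.vb'0
  · exact h.va'0
  · exact h.hzb
  · exact h.hza
  · linarith [h.hab]
  · linarith [h.tca]
  · linarith only [h.tbc]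
  · linarith [h.yac]
  · linarith [h.yca]
  · linarith [h.ycb]
  · linarith [h.ybc]
  · exact h.wb
  · exact h.wa
  · exact h.wc
  · exact h.wz
  · exact h.wb'
  · exact h.wa'
  · linarith [h.hab']
  · exact h.Fzb
  · exact h.Fza
  · linarith only [h.Fup]
  · linarith [h.Flo]
  · exact h.cb1
  · exact h.cb2
  · exact h.ca1
  · exact h.ca2
  · exact h.pb0
  · exact h.pb1
  · exact h.pa0
  · exact h.pa1
  · exact h.pc0
  · exact h.pc1
  · exact h.qb0
  · exact h.qb1
  · exact h.qa0
  · exact h.qa1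
  · exact h.qz0
  · exact h.qz1
  · exact h.ez
  · exact h.eb
  · exact h.ea

/-- build the context from the original data -/
theorem ctx_of {oa ob oc va vb vc ya yb yc mu xa xb xc nu ta tb tc pa pb pc qa qb qz : ℝ}
    (hG : Good oa ob oc va vb vc) (hX : Ext oa ob oc ya yb yc)
    (hM : Mass oa ob oc va vb vc ya yb yc mu xa xb xc nu ta tb tc)
    (pa0 : 0 ≤ pa) (pa1 : pa ≤ 1) (pb0 : 0 ≤ pb) (pb1 : pb ≤ 1) (pc0 : 0 ≤ pc) (pc1 : pc ≤ 1)
    (qz0 : 0 ≤ qz) (qz1 : qz ≤ 1) (qa0 : 0 ≤ qa) (qa1 : qa ≤ 1) (qb0 : 0 ≤ qb) (qb1 : qb ≤ 1)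
    (ez : ((mu + nu/32) + (xc + tc/32)) * qz = (xc + tc/32) * pc)
    (ea : (((va - xa) + (oa - ta)/32) + (xb + tb/32)) * qa
        = ((va - xa) + (oa - ta)/32) * pa + (xb + tb/32) * (1 - pb))
    (eb : (((vb - xb) + (ob - tb)/32) + (xa + ta/32)) * qb
        = ((vb - xb) + (ob - tb)/32) * pb + (xa + ta/32) * (1 - pa)) :
    Ctx oa ob oc va vb vc ya yb yc ((ya + yb - oa - ob)/2) ((oa + ob + ya - yb)/2)
      ((oa + ob + yb - ya)/2) (mu + xc) (va - xa + xb) (vb - xb + xa)
      ((va - xa) + (oa - ta)/32) ((vb - xb) + (ob - tb)/32) ((vc - xc) + (oc - tc)/32)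
      (mu + nu/32) (xa + ta/32) (xb + tb/32) (xc + tc/32) pa pb pc qa qb qz := by
  have i1 := hM.Da
  have i2 := hM.Db
  have i3 := hM.Dc
  constructor
  · (clear * - hM; linarith only [hM.xav, hM.tao])
  · linarith only [hM.xbv, hM.tbo]
  · linarith only [hM.xcv, hM.tco]
  · linarith only [hM.mu0, hM.nu0]
  · linarith only [hM.xa0, hM.ta0]
  · linarith only [hM.xb0, hM.tb0]
  · linarith only [hM.xc0, hM.tc0]
  · exact hG.oa0
  · exact hG.ob0
  · exact hG.oc0
  · exact hG.va0
  · exact hG.vb0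
  · exact hG.vc0
  · exact hG.dab
  · exact hG.dbc
  · exact hG.dca
  · linarith only [hX.tab]
  · linarith only [hX.yba]
  · linarith only [hX.yab]
  · linarith only [hM.mu0, hM.xc0]
  · linarith only [hM.xav, hM.xb0]
  · linarith only [hM.xbv, hM.xa0]
  · ring
  · ring
  · ring
  · exact hX.tbc
  · exact hX.tca
  · exact hX.ybc
  · exact hX.ycb
  · exact hX.yca
  · exact hX.yac
  · ring
  · ring
  · ring
  · linarith only [i1, i2]
  · linarith only [i1, i2]
  · linarith only [i1, i2]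
  · ring
  · linarith only [hM.Fa]
  · linarith only [hM.Fb]
  · linarith only [i3, hM.Fc]
  · linarith only [i3, hM.mu0, hM.xa0, hM.xb0, hM.xcv]
  · linarith only [hM.Fc, hM.xa0, hM.xcv]
  · linarith only [hM.Fc, hM.mu0, hM.xb0]
  · linarith only [hM.Fc, hM.xb0, hM.xcv]
  · linarith only [hM.Fc, hM.mu0, hM.xa0]
  · exact pa0
  · exact pa1
  · exact pb0
  · exact pb1
  · exact pc0
  · exact pc1
  · exact qa0
  · exact qa1
  · exact qb0
  · exact qb1
  · exact qz0
  · exact qz1
  · exact ez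
  · exact ea
  · exact eb

end Vale.Agent.P235.Tri
end
end
end

section

section

section

namespace Vale.Agent.P235.Tri

variable {oa ob oc va vb vc ya yb yc oz oa' ob' vz va' vb' ma mb mc mz Xa Xb Xc
    pa pb pc qa qb qz : ℝ}

/-- consequence of (P1) for the kept legs -/
theorem wgap (h : Ctx oa ob oc va vb vc ya yb yc oz oa' ob' vz va' vb' ma mb mc mz Xa Xb Xc
      pa pb pc qa qb qz)
    (hP : P1 oa ob oc va vb vc ya yb yc mc mz Xa Xb Xc) :
    min yc (mc + Xc) ≤ 10^6 * (mc + harm mz Xc) ∨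
      ((mc + Xc) - (ma + Xa) ≤ 13 * (mc + harm mz Xc) ∧
       (mc + Xc) - (mb + Xb) ≤ 13 * (mc + harm mz Xc)) := by
  obtain ⟨al, hal⟩ : ∃ al, al = mc + harm mz Xc := ⟨_, rfl⟩
  unfold P1 at hP
  rw [← hal] at hP ⊢
  rw [h.wc, h.wa, h.wb]
  rcases hP with hP | hP | hP
  · left; exact hP
  · right
    have := hP.hvb
    have := hP.hvc
    have := hP.s2
    have := hP.al0
    constructor
    · (clear hal this; linarith [h.dab, h.tbc, h.va0])
    · linarith [h.tbc, h.oc0, h.ob0]
  · right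
    have := hP.hvb
    have := hP.hvc
    have := hP.s2
    have := hP.al0
    constructor
    · linarith [h.tca, h.oc0, h.oa0]
    · (clear hal this; linarith [h.dab, h.tca, h.vb0])

/-- kept vertex `a`: the loss of the E-term is paid by `α pc²`. -/
theorem keptE (h : Ctx oa ob oc va vb vc ya yb yc oz oa' ob' vz va' vb' ma mb mc mz Xa Xb Xc
      pa pb pc qa qb qz)
    (hP : P1 oa ob oc va vb vc ya yb yc mc mz Xa Xb Xc) :
    max 0 (min (mb + Xb) (mc + Xc) - (ma + Xa)) * (phi pb * phi pc)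
      ≤ max 0 (min (mb + Xa) (mz + Xc) - (ma + Xb)) * (phi qb * phi qz)
        + 25 * 10^6 * ((mc + harm mz Xc) * pc ^ 2) := by
  have hcore := keptE_core h.ma0 h.mb0 h.mc0 h.mz0 h.Xa0 h.Xb0 h.Xc0 h.pa0 h.pa1 h.pb0 h.pb1
    h.pc0 h.qb0 h.ez h.eb
  have hg := wgap h hP
  have hal0 : 0 ≤ mc + harm mz Xc := add_nonneg h.mc0 (harm_nonneg h.mz0 h.Xc0)
  obtain ⟨al, hal⟩ : ∃ al, al = mc + harm mz Xc := ⟨_, rfl⟩
  rw [← hal] at hg hal0 ⊢
  obtain ⟨E, hE⟩ : ∃ E, E = max 0 (min (mb + Xb) (mc + Xc) - (ma + Xa)) := ⟨_, rfl⟩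
  obtain ⟨E', hE'⟩ : ∃ E', E' = max 0 (min (mb + Xa) (mz + Xc) - (ma + Xb)) := ⟨_, rfl⟩
  rw [← hE, ← hE'] at hcore ⊢
  have hE0 : 0 ≤ E := by rw [hE]; exact le_max_left _ _
  have hE'0 : 0 ≤ E' := by rw [hE']; exact le_max_left _ _
  have hR0 : 0 ≤ E' * (phi qb * phi qz) :=
    mul_nonneg hE'0 (mul_nonneg (phi_nonneg _) (phi_nonneg _))
  have hpc2 : phi pc ≤ 4 * pc ^ 2 := phi_le_sq h.pc0
  have hphi : phi pb * phi pc ≤ 4 * pc ^ 2 := by
    have h1 := phi_le_one h.pb0
    have h2 := phi_nonneg pc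
    linarith only [mul_nonneg (sub_nonneg.2 h1) (sub_nonneg.2 h2), hpc2]
  have hsq : 0 ≤ pc ^ 2 := sq_nonneg _
  -- E ≤ wc bound
  have key : ∀ W : ℝ, E ≤ W → E * (phi pb * phi pc) ≤ 4 * (W * pc ^ 2) := by
    intro W hW
    have h1 : E * (phi pb * phi pc) ≤ E * (4 * pc ^ 2) := mul_le_mul_of_nonneg_left hphi hE0
    have h2 : E * (4 * pc ^ 2) ≤ W * (4 * pc ^ 2) := mul_le_mul_of_nonneg_right hW (by (clear * -; positivity))
    linarith only [h1, h2]
  rcases hg with hg | ⟨hg, -⟩
  · rcases le_total yc (mc + Xc) with hc | hc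
    · rw [min_eq_left hc] at hg
      have hf : mz + mc + Xa + Xb ≤ (33/32) * (10^6 * al) := by linarith only [hg, h.Fup]
      have : 24 * (mz + mc + Xa + Xb) * pc ^ 2 ≤ 25 * 10^6 * (al * pc ^ 2) := by
        have h1 : 24 * (mz + mc + Xa + Xb) ≤ 25 * 10^6 * al := by linarith only [hal0, hf]
        have := mul_le_mul_of_nonneg_right h1 hsq
        linarith only [this]
      linarith only [hcore, this]
    · rw [min_eq_right hc] at hg
      have hEw : E ≤ mc + Xc := by
        rw [hE]; apply max_le (by linarith only [h.mc0, h.Xc0])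
        have := min_le_right (mb + Xb) (mc + Xc)
        linarith only [this, h.ma0, h.Xa0]
      have h1 := key _ (hEw.trans hg)
      have h2 : 0 ≤ al * pc ^ 2 := mul_nonneg hal0 hsq
      linarith only [hR0, h1, h2]
  · have hEw : E ≤ 13 * al := by
      rw [hE]; apply max_le (by (clear * - hal0; positivity))
      have := min_le_right (mb + Xb) (mc + Xc)
      linarith only [hg, this]
    have h1 := key _ hEw
    have h2 : 0 ≤ al * pc ^ 2 := mul_nonneg hal0 hsq
    linarith only [hR0, h1, h2]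

/-- general lemma on the loss of a G-term -/
theorem gloss {g g' B1 B2 s s' u r : ℝ} (hB1 : 0 ≤ B1) (hB2 : 0 ≤ B2) (hg : g - g' ≤ B1)
    (hr : 0 < g' → g' * r ≤ B2) (hr0 : 0 ≤ r) (hs : s ≤ |u|)
    (hss : 0 < g' → 0 < s → s - s' ≤ r * |u|) :
    max 0 g * (max 0 s) ^ 2 ≤ max 0 g' * (max 0 s') ^ 2 + (B1 + 2 * B2) * u ^ 2 := by
  have hu2 : u ^ 2 = |u| ^ 2 := (sq_abs u).symm
  rw [hu2]
  have hu0 : 0 ≤ |u| := abs_nonneg u
  rcases le_or_gt s 0 with hs0 | hs0
  · rw [max_eq_left hs0]
    have : 0 ≤ max 0 g' * (max 0 s') ^ 2 := by (clear * -; positivity)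
    have : 0 ≤ (B1 + 2 * B2) * |u| ^ 2 := by (clear * - hB1 hB2; positivity)
    (clear s r hg hr hr0 hs hss hu2 hu0 hs0; nlinarith)
  rw [max_eq_right hs0.le]
  rcases le_or_gt g' 0 with hg'0 | hg'0
  · rw [max_eq_left hg'0]
    have h1 : max 0 g ≤ B1 := max_le hB1 (by linarith only [hg, hg'0])
    have h2 : max 0 g * s ^ 2 ≤ B1 * |u| ^ 2 := by
      apply mul_le_mul h1 (pow_le_pow_left₀ hs0.le hs 2) (by positivity) hB1
    linarith only [mul_nonneg (sq_nonneg (|u| : ℝ)) (sub_nonneg.2 hB2), h2]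
  · rw [max_eq_right hg'0.le]
    have h1 : max 0 g ≤ B1 + g' := max_le (by linarith only [hB1, hg'0]) (by linarith)
    have hs2 : s ^ 2 ≤ |u| ^ 2 := pow_le_pow_left₀ hs0.le hs 2
    have h2 : max 0 g * s ^ 2 ≤ (B1 + g') * s ^ 2 := mul_le_mul_of_nonneg_right h1 (by positivity)
    have h3 : B1 * s ^ 2 ≤ B1 * |u| ^ 2 := mul_le_mul_of_nonneg_left hs2 hB1
    -- s² - s'² ≤ 2 r u²
    have h4 : g' * s ^ 2 ≤ g' * (max 0 s') ^ 2 + 2 * B2 * |u| ^ 2 := by
      have h5 := hss hg'0 hs0
      have h6 := hr hg'0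
      obtain ⟨t, ht⟩ : ∃ t, t = max 0 s' := ⟨_, rfl⟩
      rw [← ht]
      have ht0 : 0 ≤ t := by rw [ht]; exact le_max_left _ _
      have hts : s' ≤ t := by rw [ht]; exact le_max_right _ _
      rcases le_total s t with hst | hst
      · have : s ^ 2 ≤ t ^ 2 := pow_le_pow_left₀ hs0.le hst 2
        have : g' * s ^ 2 ≤ g' * t ^ 2 := mul_le_mul_of_nonneg_left this hg'0.le
        have : 0 ≤ 2 * B2 * |u| ^ 2 := by (clear * - hB2; positivity)
        (clear g B1 s' r hB1 hg hr hr0 hs hss hu2 hu0 h1 hs2 h2 h3 h5 h6 ht ht0 hts; linarith)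
      · have h7 : s ^ 2 - t ^ 2 ≤ (r * |u|) * (2 * |u|) := by
          have : s ^ 2 - t ^ 2 = (s - t) * (s + t) := by ring
          rw [this]
          apply mul_le_mul (by linarith only [h5, hts]) (by linarith only [hs, hst]) (by linarith only [hs0, ht0]) (by (clear * - hr0; positivity))
        have h8 : g' * (s ^ 2 - t ^ 2) ≤ g' * ((r * |u|) * (2 * |u|)) :=
          mul_le_mul_of_nonneg_left h7 hg'0.le
        have h9 : g' * ((r * |u|) * (2 * |u|)) = (g' * r) * (2 * |u| ^ 2) := by ring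
        have h10 : (g' * r) * (2 * |u| ^ 2) ≤ B2 * (2 * |u| ^ 2) :=
          mul_le_mul_of_nonneg_right h6 (by (clear * -; positivity))
        linarith only [h8, h10]
    linarith only [h2, h3, h4]

/-- bounds for `g'` of the new face (kept vertex `a`) -/
theorem ga'_bounds (h : Ctx oa ob oc va vb vc ya yb yc oz oa' ob' vz va' vb' ma mb mc mz Xa Xb Xc
      pa pb pc qa qb qz) :
    (yb - vz - vb') - 4 * ((oa + ob - va - vb) + (ya - vz - va')) ≤ 2 * (ma + Xb) ∧
    (yb - vz - vb') - 4 * ((oa + ob - va - vb) + (ya - vz - va')) ≤ 64 * (mb + Xa) ∧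
    (yb - vz - vb') - 4 * ((oa + ob - va - vb) + (ya - vz - va')) ≤ 64 * (mz + Xc) := by
  have := h.hza
  have := h.hzb
  have := h.hab
  have := h.hab'
  have := h.Fza
  have := h.Fzb
  have := h.dab
  have := h.wa'
  have := h.wb'
  have := h.wz
  have := h.oa'0
  have := h.ob'0
  have := h.oz0
  have := h.va'0
  have := h.vb'0
  have := h.vz0
  refine ⟨by linarith, by linarith, by linarith⟩

/-- `s - s' ≤ r |u|` when all new legs are positive -/
theorem s_loss (h : Ctx oa ob oc va vb vc ya yb yc oz oa' ob' vz va' vb' ma mb mc mz Xa Xb Xc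
      pa pb pc qa qb qz) (h1 : 0 < ma + Xb) (h2 : 0 < mb + Xa) (h3 : 0 < mz + Xc)
    (hs : 0 < 1 - pa - pb - pc) :
    (1 - pa - pb - pc) - (1 - qa - qb - qz)
      ≤ (Xb / (ma + Xb) + Xa / (mb + Xa)) * |pa + pb - 1| := by
  have e1 : qa = pa - Xb / (ma + Xb) * (pa + pb - 1) := by
    have := h.ea; field_simp; linarith only [this]
  have e2 : qb = pb - Xa / (mb + Xa) * (pa + pb - 1) := by
    have := h.eb; field_simp; linarith only [this]
  have e3 : qz ≤ pc := by
    have := h.ez
    have h4 : (mz + Xc) * qz ≤ (mz + Xc) * pc := by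
      rw [this]; exact mul_le_mul_of_nonneg_right (by linarith only [h.mz0]) h.pc0
    exact le_of_mul_le_mul_left h4 h3
  have e4 : |pa + pb - 1| = -(pa + pb - 1) := abs_of_nonpos (by linarith only [hs, h.pc0])
  rw [e1, e2, e4]
  linarith only [e3]

/-- kept vertex `a`: the loss of the G-term is paid by `β u²`. -/
theorem keptG (h : Ctx oa ob oc va vb vc ya yb yc oz oa' ob' vz va' vb' ma mb mc mz Xa Xb Xc
      pa pb pc qa qb qz)
    (hP : P2 oa ob oc va vb vc ya yb yc ma mb Xa Xb vz va' vb') :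
    max 0 ((ob + oc - vb - vc) - 4 * ((oa + ob - va - vb) + (oa + oc - va - vc)))
        * (max 0 (1 - pa - pb - pc)) ^ 2
      ≤ max 0 ((yb - vz - vb') - 4 * ((oa + ob - va - vb) + (ya - vz - va')))
          * (max 0 (1 - qa - qb - qz)) ^ 2
        + 15 * 10^6 * ((harm ma Xb + harm mb Xa) * (pa + pb - 1) ^ 2) := by
  have hbe0 : 0 ≤ harm ma Xb + harm mb Xa :=
    add_nonneg (harm_nonneg h.ma0 h.Xb0) (harm_nonneg h.mb0 h.Xa0)
  obtain ⟨be, hbe⟩ : ∃ be, be = harm ma Xb + harm mb Xa := ⟨_, rfl⟩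
  obtain ⟨g, hg⟩ : ∃ g, g = (ob + oc - vb - vc) - 4 * ((oa + ob - va - vb) + (oa + oc - va - vc)) :=
    ⟨_, rfl⟩
  obtain ⟨g', hg'⟩ : ∃ g', g' = (yb - vz - vb') - 4 * ((oa + ob - va - vb) + (ya - vz - va')) :=
    ⟨_, rfl⟩
  have hb := ga'_bounds h
  have hu : (1 - pa - pb - pc) ≤ |pa + pb - 1| := by
    have := neg_abs_le (pa + pb - 1); linarith only [this, h.pc0]
  have hr0 : 0 ≤ Xb / (ma + Xb) + Xa / (mb + Xa) := by
    have := h.ma0; have := h.mb0; have := h.Xa0; have := h.Xb0; (clear hP hbe0 be hbe g hg g' hg' hb hu; positivity)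
  have hss : 0 < g' → 0 < 1 - pa - pb - pc →
      (1 - pa - pb - pc) - (1 - qa - qb - qz)
      ≤ (Xb / (ma + Xb) + Xa / (mb + Xa)) * |pa + pb - 1| := by
    intro hg'0 hs
    rw [hg'] at hg'0
    exact s_loss h (by linarith only [hb, hg'0]) (by linarith only [hb, hg'0]) (by linarith only [hb, hg'0]) hs
  have husq : 0 ≤ (pa + pb - 1) ^ 2 := sq_nonneg _
  unfold P2 at hP
  rw [← hbe, ← hg] at hP
  rw [← hbe] at hbe0
  rw [← hbe, ← hg, ← hg']
  have hbu : 0 ≤ be * (pa + pb - 1) ^ 2 := mul_nonneg hbe0 husq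
  rcases hP with hP | hP
  · rcases le_total g yc with hgy | hgy
    · rw [min_eq_left hgy] at hP
      -- no loss from g'
      have h1 : max 0 g * (max 0 (1 - pa - pb - pc)) ^ 2 ≤ (10^5 * be) * (pa + pb - 1) ^ 2 := by
        have e1 : max 0 g ≤ 10^5 * be := max_le (by (clear * - hbe0; positivity)) hP
        have e2 : (max 0 (1 - pa - pb - pc)) ^ 2 ≤ (pa + pb - 1) ^ 2 := by
          rw [← sq_abs (pa + pb - 1)]
          apply pow_le_pow_left₀ (le_max_left _ _) (max_le (abs_nonneg _) hu)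
        exact mul_le_mul e1 e2 (by (clear * -; positivity)) (by (clear * - hbe0; positivity))
      have h2 : 0 ≤ max 0 g' * (max 0 (1 - qa - qb - qz)) ^ 2 := by (clear * -; positivity)
      linarith only [hbu, h1, h2]
    · rw [min_eq_right hgy] at hP
      have hyc0 : 0 ≤ yc := by linarith only [h.Fup, h.mz0, h.mc0, h.Xa0, h.Xb0]
      have hgg : g - g' ≤ 10 * yc := by
        rw [hg, hg']
        linarith only [h.ca2, h.cb1, h.yac, h.tbc]
      have hgr : 0 < g' → g' * (Xb / (ma + Xb) + Xa / (mb + Xa)) ≤ 66 * yc := by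
        intro hg'0
        have p1 : 0 < ma + Xb := by linarith only [hg', hb, hg'0]
        have p2 : 0 < mb + Xa := by linarith only [hg', hb, hg'0]
        have e1 : g' * (Xb / (ma + Xb)) ≤ 2 * Xb := by
          rw [← mul_div_assoc, div_le_iff₀ p1]
          have := mul_le_mul_of_nonneg_right (hg' ▸ hb.1 : g' ≤ 2 * (ma + Xb)) h.Xb0
          linarith only [this]
        have e2 : g' * (Xa / (mb + Xa)) ≤ 64 * Xa := by
          rw [← mul_div_assoc, div_le_iff₀ p2]
          have := mul_le_mul_of_nonneg_right (hg' ▸ hb.2.1 : g' ≤ 64 * (mb + Xa)) h.Xa0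
          linarith only [this]
        have := h.Fup
        have := h.mz0
        have := h.mc0
        have := h.Xa0
        have := h.Xb0
        (clear be hbe0 hbe g hg hu hr0 hss husq hbu hP hgy hyc0 hgg; linarith)
      have := gloss (by linarith only [hyc0]) (by linarith only [hyc0]) hgg hgr hr0 hu hss
      have e5 : (10 * yc + 2 * (66 * yc)) * (pa + pb - 1) ^ 2
          ≤ (142 * (10^5 * be)) * (pa + pb - 1) ^ 2 :=
        mul_le_mul_of_nonneg_right (by linarith only [hP]) husq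
      linarith only [hbu, this, e5]
  · have hgg : g - g' ≤ 10^5 * be := by rw [hg, hg']; exact hP.n1
    have hgr : 0 < g' → g' * (Xb / (ma + Xb) + Xa / (mb + Xa)) ≤ 100 * be := by
      intro hg'0
      have p1 : 0 < ma + Xb := by linarith only [hg', hb, hg'0]
      have p2 : 0 < mb + Xa := by linarith only [hg', hb, hg'0]
      have n2 : g' ≤ 100 * ma := by rw [hg']; exact hP.n2
      have n3 : g' ≤ 100 * mb := by rw [hg']; exact hP.n3
      have e1 : g' * (Xb / (ma + Xb)) ≤ 100 * harm ma Xb := by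
        unfold harm
        rw [← mul_div_assoc, div_le_iff₀ p1]
        have := mul_le_mul_of_nonneg_right n2 h.Xb0
        have e : 100 * (ma * Xb / (ma + Xb)) * (ma + Xb) = 100 * (ma * Xb) := by
          (clear * - p1; field_simp)
        rw [e]; linarith only [this]
      have e2 : g' * (Xa / (mb + Xa)) ≤ 100 * harm mb Xa := by
        unfold harm
        rw [← mul_div_assoc, div_le_iff₀ p2]
        have := mul_le_mul_of_nonneg_right n3 h.Xa0
        have e : 100 * (mb * Xa / (mb + Xa)) * (mb + Xa) = 100 * (mb * Xa) := by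
          (clear * - p2; field_simp)
        rw [e]; linarith only [this]
      rw [hbe]; linarith only [e1, e2]
    have := gloss (by (clear * - hbe0; positivity)) (by (clear * - hbe0; positivity)) hgg hgr hr0 hu hss
    have e5 : (10^5 * be + 2 * (100 * be)) * (pa + pb - 1) ^ 2
        ≤ (15 * 10^6 * be) * (pa + pb - 1) ^ 2 :=
      mul_le_mul_of_nonneg_right (by linarith only [hbe0]) husq
    linarith only [hbu, this]

end Vale.Agent.P235.Tri
end
end
end

section

section

section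

namespace Vale.Agent.P235.Tri

variable {oa ob oc va vb vc ya yb yc oz oa' ob' vz va' vb' ma mb mc mz Xa Xb Xc
    pa pb pc qa qb qz : ℝ}

/-- E-term -/
noncomputable def Et (w wj wk pj pk : ℝ) : ℝ := max 0 (min wj wk - w) * (phi pj * phi pk)

/-- G-term -/
noncomputable def Gt (g s : ℝ) : ℝ := max 0 g * (max 0 s) ^ 2

theorem Et_nonneg (w wj wk pj pk : ℝ) : 0 ≤ Et w wj wk pj pk :=
  mul_nonneg (le_max_left _ _) (mul_nonneg (phi_nonneg _) (phi_nonneg _))

theorem Gt_nonneg (g s : ℝ) : 0 ≤ Gt g s := by unfold Gt; positivity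

/-- total increment -/
noncomputable def Nn (ma mb mc mz Xa Xb Xc pa pb pc : ℝ) : ℝ :=
  (mc + harm mz Xc) * pc ^ 2 + (harm ma Xb + harm mb Xa) * (pa + pb - 1) ^ 2

/-- inequality for the new vertex via the kept vertex `a` -/
def NewA (oa ob oc va vb vc ya yb vz va' vb' ma mb mc mz Xa Xb Xc pa pb pc qa qb qz : ℝ) : Prop :=
  10^5/2 * Et (ma + Xa) (mb + Xb) (mc + Xc) pb pc
    + 10^18 * Gt ((ob + oc - vb - vc) - 4 * ((oa + ob - va - vb) + (oa + oc - va - vc)))
        (1 - pa - pb - pc) + ya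
  ≤ 10^100 * Nn ma mb mc mz Xa Xb Xc pa pb pc
    + 10^5 * ((mz + Xc) * (1 - 2 * qz) + (ma + Xb) * (2 * qa - 1))
    + 10^5/2 * Et (mz + Xc) (ma + Xb) (mb + Xa) qa qb
    + 10^18 * Gt ((oa + ob - va - vb) - 4 * ((ya - vz - va') + (yb - vz - vb')))
        (1 - qa - qb - qz)

/-- inequality for the new vertex via the dropped vertex `c` -/
def NewC (oa ob oc va vb vc ya yb yc vz va' vb' ma mb mc mz Xa Xb Xc pa pb pc qa qb qz : ℝ) :
    Prop :=
  10^5/2 * Et (mc + Xc) (ma + Xa) (mb + Xb) pa pb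
    + 10^18 * Gt ((oa + ob - va - vb) - 4 * ((oa + oc - va - vc) + (ob + oc - vb - vc)))
        (1 - pa - pb - pc) + yc
  ≤ 10^100 * Nn ma mb mc mz Xa Xb Xc pa pb pc
    + 10^5 * ((mz - mc) + 2 * mc * pc + Xb * (1 - 2 * pb) + Xa * (1 - 2 * pa))
    + 10^5/2 * Et (mz + Xc) (ma + Xb) (mb + Xa) qa qb
    + 10^18 * Gt ((oa + ob - va - vb) - 4 * ((ya - vz - va') + (yb - vz - vb')))
        (1 - qa - qb - qz)

theorem Nn_nonneg (h : Ctx oa ob oc va vb vc ya yb yc oz oa' ob' vz va' vb' ma mb mc mz Xa Xb Xc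
      pa pb pc qa qb qz) : 0 ≤ Nn ma mb mc mz Xa Xb Xc pa pb pc := by
  unfold Nn
  have h1 := harm_nonneg h.mz0 h.Xc0
  have h2 := harm_nonneg h.ma0 h.Xb0
  have h3 := harm_nonneg h.mb0 h.Xa0
  have h4 := h.mc0
  (clear * - h4 h1 h2 h3; (clear * - h4 h1 h2 h3; positivity))

theorem Nn_al (h : Ctx oa ob oc va vb vc ya yb yc oz oa' ob' vz va' vb' ma mb mc mz Xa Xb Xc
      pa pb pc qa qb qz) :
    (mc + harm mz Xc) * pc ^ 2 ≤ Nn ma mb mc mz Xa Xb Xc pa pb pc := by
  unfold Nn
  have h2 := harm_nonneg h.ma0 h.Xb0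
  have h3 := harm_nonneg h.mb0 h.Xa0
  have : 0 ≤ (harm ma Xb + harm mb Xa) * (pa + pb - 1) ^ 2 := by (clear * - h2 h3; (clear * - h2 h3; positivity))
  linarith only [this]

theorem Nn_be (h : Ctx oa ob oc va vb vc ya yb yc oz oa' ob' vz va' vb' ma mb mc mz Xa Xb Xc
      pa pb pc qa qb qz) :
    (harm ma Xb + harm mb Xa) * (pa + pb - 1) ^ 2 ≤ Nn ma mb mc mz Xa Xb Xc pa pb pc := by
  unfold Nn
  have h1 := harm_nonneg h.mz0 h.Xc0
  have h4 := h.mc0
  have : 0 ≤ (mc + harm mz Xc) * pc ^ 2 := by (clear * - h4 h1; positivity)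
  linarith only [this]

/-- comparison of the E-term of `c` with the E-term of `z` -/
theorem Ecz (h : Ctx oa ob oc va vb vc ya yb yc oz oa' ob' vz va' vb' ma mb mc mz Xa Xb Xc
      pa pb pc qa qb qz) {D : ℝ}
    (hD : max 0 (min (ma + Xa) (mb + Xb) - (mc + Xc))
      ≤ max 0 (min (ma + Xb) (mb + Xa) - (mz + Xc)) + D) :
    Et (mc + Xc) (ma + Xa) (mb + Xb) pa pb
      ≤ Et (mz + Xc) (ma + Xb) (mb + Xa) qa qb + D * (phi pa * phi pb)
        + 4 * (Xa + Xb) * |pa + pb - 1| := by
  unfold Et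
  obtain ⟨A, hA⟩ : ∃ A, A = max 0 (min (ma + Xa) (mb + Xb) - (mc + Xc)) := ⟨_, rfl⟩
  obtain ⟨B, hB⟩ : ∃ B, B = max 0 (min (ma + Xb) (mb + Xa) - (mz + Xc)) := ⟨_, rfl⟩
  rw [← hA, ← hB] at hD ⊢
  have hB0 : 0 ≤ B := by rw [hB]; exact le_max_left _ _
  have a0 := phi_nonneg pa
  have b0 := phi_nonneg pb
  have a1 := phi_le_one h.pa0
  have b1 := phi_le_one h.pb0
  have a0' := phi_nonneg qa
  have b0' := phi_nonneg qb
  have a1' := phi_le_one h.qa0
  have b1' := phi_le_one h.qb0
  have hpp : 0 ≤ phi pa * phi pb := mul_nonneg a0 b0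
  have hBa : B ≤ ma + Xb := by
    rw [hB]; apply max_le (by linarith only [h.ma0, h.Xb0])
    have := min_le_left (ma + Xb) (mb + Xa); linarith only [this, h.mz0, h.Xc0]
  have hBb : B ≤ mb + Xa := by
    rw [hB]; apply max_le (by linarith only [h.mb0, h.Xa0])
    have := min_le_right (ma + Xb) (mb + Xa); linarith only [this, h.mz0, h.Xc0]
  have la := phi_lip h.pa0 h.qa0
  have lb := phi_lip h.pb0 h.qb0
  have ha : B * |pa - qa| ≤ Xb * |pa + pb - 1| := by
    have e1 : B * |pa - qa| ≤ (ma + Xb) * |pa - qa| := mul_le_mul_of_nonneg_right hBa (abs_nonneg _)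
    have e2 : (ma + Xb) * |pa - qa| = |(ma + Xb) * (pa - qa)| := by
      rw [abs_mul, abs_of_nonneg (by linarith only [hB0, hBa] : 0 ≤ ma + Xb)]
    have e3 : (ma + Xb) * (pa - qa) = Xb * (pa + pb - 1) := by linarith only [h.ea]
    rw [e2, e3, abs_mul, abs_of_nonneg h.Xb0] at e1; exact e1
  have hb : B * |pb - qb| ≤ Xa * |pa + pb - 1| := by
    have e1 : B * |pb - qb| ≤ (mb + Xa) * |pb - qb| := mul_le_mul_of_nonneg_right hBb (abs_nonneg _)
    have e2 : (mb + Xa) * |pb - qb| = |(mb + Xa) * (pb - qb)| := by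
      rw [abs_mul, abs_of_nonneg (by linarith only [hB0, hBb] : 0 ≤ mb + Xa)]
    have e3 : (mb + Xa) * (pb - qb) = Xa * (pa + pb - 1) := by linarith only [h.eb]
    rw [e2, e3, abs_mul, abs_of_nonneg h.Xa0] at e1; exact e1
  have k1 : A * (phi pa * phi pb) ≤ B * (phi pa * phi pb) + D * (phi pa * phi pb) := by
    have := mul_le_mul_of_nonneg_right hD hpp; linarith only [this]
  have k2 : phi pa * phi pb ≤ phi qa * phi qb + 4 * |pa - qa| + 4 * |pb - qb| := by
    have e1 : phi pa * phi pb ≤ (phi qa + 4 * |pa - qa|) * phi pb :=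
      mul_le_mul_of_nonneg_right la b0
    have e2 : 4 * |pa - qa| * phi pb ≤ 4 * |pa - qa| * 1 :=
      mul_le_mul_of_nonneg_left b1 (by (clear * -; positivity))
    have e3 : phi qa * phi pb ≤ phi qa * (phi qb + 4 * |pb - qb|) :=
      mul_le_mul_of_nonneg_left lb a0'
    have e4 : phi qa * (4 * |pb - qb|) ≤ 1 * (4 * |pb - qb|) :=
      mul_le_mul_of_nonneg_right a1' (by (clear * -; positivity))
    linarith only [e1, e2, e3, e4]
  have k3 := mul_le_mul_of_nonneg_left k2 hB0
  linarith only [ha, hb, k1, k3]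

/-- comparison of the G-term of `c` with the G-term of `z`. -/
theorem Gcz (h : Ctx oa ob oc va vb vc ya yb yc oz oa' ob' vz va' vb' ma mb mc mz Xa Xb Xc
      pa pb pc qa qb qz) :
    Gt ((oa + ob - va - vb) - 4 * ((oa + oc - va - vc) + (ob + oc - vb - vc))) (1 - pa - pb - pc)
    ≤ Gt ((oa + ob - va - vb) - 4 * ((ya - vz - va') + (yb - vz - vb'))) (1 - qa - qb - qz)
      + 148 * yc := by
  unfold Gt
  obtain ⟨g, hg⟩ : ∃ g, g = (oa + ob - va - vb) - 4 * ((oa + oc - va - vc) + (ob + oc - vb - vc)) :=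
    ⟨_, rfl⟩
  obtain ⟨g', hg'⟩ : ∃ g', g' = (oa + ob - va - vb) - 4 * ((ya - vz - va') + (yb - vz - vb')) :=
    ⟨_, rfl⟩
  rw [← hg, ← hg']
  have hyc0 : 0 ≤ yc := by linarith only [h.Xb0, h.Xa0, h.mc0, h.mz0, h.Fup]
  have hu : (1 - pa - pb - pc) ≤ |pa + pb - 1| := by
    have := neg_abs_le (pa + pb - 1); linarith only [this, h.pc0]
  have hu1 : (pa + pb - 1) ^ 2 ≤ 1 := by linarith [mul_nonneg (sub_nonneg.2 h.pb0) (sub_nonneg.2 h.pb1), mul_nonneg (sub_nonneg.2 h.pa1) (sub_nonneg.2 h.pb0), mul_nonneg (sub_nonneg.2 h.pa0) (sub_nonneg.2 h.pb1), mul_nonneg (sub_nonneg.2 h.pa0) (sub_nonneg.2 h.pa1)]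
  have hr0 : 0 ≤ Xb / (ma + Xb) + Xa / (mb + Xa) := by
    have := h.ma0; have := h.mb0; have := h.Xa0; have := h.Xb0; (clear g hg g' hg' hyc0 hu hu1; positivity)
  have hgz1 : g' ≤ 2 * (mz + Xc) := by
    rw [hg']; linarith only [h.hza, h.hzb, h.hab, h.hab', h.Fza, h.Fzb, h.wz, h.oz0]
  have hgz2 : g' ≤ 64 * (ma + Xb) := by
    rw [hg']; linarith only [h.hza, h.hzb, h.hab, h.hab', h.Fza, h.Fzb, h.wa', h.va'0]
  have hgz3 : g' ≤ 64 * (mb + Xa) := by
    rw [hg']; linarith only [h.hza, h.hzb, h.hab, h.hab', h.Fza, h.Fzb, h.wb', h.vb'0]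
  have hgg : g - g' ≤ 16 * yc := by
    rw [hg, hg']
    linarith only [h.ca2, h.cb2, h.ybc, h.yac]
  have hgr : 0 < g' → g' * (Xb / (ma + Xb) + Xa / (mb + Xa)) ≤ 66 * yc := by
    intro hg'0
    have p1 : 0 < ma + Xb := by linarith only [hgz2, hg'0]
    have p2 : 0 < mb + Xa := by linarith only [hgz3, hg'0]
    have e1 : g' * (Xb / (ma + Xb)) ≤ 64 * Xb := by
      rw [← mul_div_assoc, div_le_iff₀ p1]
      have := mul_le_mul_of_nonneg_right hgz2 h.Xb0
      linarith only [this]
    have e2 : g' * (Xa / (mb + Xa)) ≤ 64 * Xa := by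
      rw [← mul_div_assoc, div_le_iff₀ p2]
      have := mul_le_mul_of_nonneg_right hgz3 h.Xa0
      linarith only [this]
    linarith only [e1, e2, h.Fup, h.mz0, h.mc0]
  have hss : 0 < g' → 0 < 1 - pa - pb - pc →
      (1 - pa - pb - pc) - (1 - qa - qb - qz)
      ≤ (Xb / (ma + Xb) + Xa / (mb + Xa)) * |pa + pb - 1| := by
    intro hg'0 hs
    exact s_loss h (by linarith only [hgz2, hg'0]) (by linarith only [hgz3, hg'0]) (by linarith only [hgz1, hg'0]) hs
  have := gloss (by linarith only [hyc0]) (by linarith only [hyc0]) hgg hgr hr0 hu hss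
  have e5 : (16 * yc + 2 * (66 * yc)) * (pa + pb - 1) ^ 2 ≤ (16 * yc + 2 * (66 * yc)) * 1 :=
    mul_le_mul_of_nonneg_left hu1 (by linarith only [hyc0])
  linarith only [this, e5]

/-- regime A, nearest vertex is `c` -/
theorem regA_c (h : Ctx oa ob oc va vb vc ya yb yc oz oa' ob' vz va' vb' ma mb mc mz Xa Xb Xc
      pa pb pc qa qb qz)
    (hN : yc ≤ 10^70 * Nn ma mb mc mz Xa Xb Xc pa pb pc) :
    NewC oa ob oc va vb vc ya yb yc vz va' vb' ma mb mc mz Xa Xb Xc pa pb pc qa qb qz := by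
  unfold NewC
  have hG := Gcz h
  have hyc0 : 0 ≤ yc := by linarith only [h.Fup, h.mz0, h.mc0, h.Xa0, h.Xb0]
  have hf := h.Fup
  have hE := Ecz h (D := mz + mc + Xa + Xb) (by
    apply max_le
    · have := le_max_left 0 (min (ma + Xb) (mb + Xa) - (mz + Xc))
      linarith only [this, h.mz0, h.mc0, h.Xa0, h.Xb0]
    · have h1 := le_max_right 0 (min (ma + Xb) (mb + Xa) - (mz + Xc))
      have h2 : min (ma + Xa) (mb + Xb) ≤ min (ma + Xb) (mb + Xa) + (Xa + Xb) := by
        rw [← min_add_add_right]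
        apply min_le_min <;> linarith only [h.Xa0, h.Xb0]
      linarith only [h1, h2, h.mc0])
  have hpp : phi pa * phi pb ≤ 1 := by
    have := phi_le_one h.pa0; have := phi_le_one h.pb0
    have := phi_nonneg pa; have := phi_nonneg pb
    (clear hN hG hyc0 hf hE; nlinarith)
  have hu1 : |pa + pb - 1| ≤ 1 := by
    rw [abs_le]; constructor <;> linarith only [h.pa0, h.pb0, h.pa1, h.pb1]
  have e1 : (mz + mc + Xa + Xb) * (phi pa * phi pb) ≤ (33/32) * yc := by
    have : (mz + mc + Xa + Xb) * (phi pa * phi pb) ≤ (mz + mc + Xa + Xb) * 1 :=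
      mul_le_mul_of_nonneg_left hpp (by linarith only [h.mz0, h.mc0, h.Xa0, h.Xb0])
    (clear * - hf this; linarith)
  have e2 : 4 * (Xa + Xb) * |pa + pb - 1| ≤ 5 * yc := by
    have : 4 * (Xa + Xb) * |pa + pb - 1| ≤ 4 * (Xa + Xb) * 1 :=
      mul_le_mul_of_nonneg_left hu1 (by linarith only [h.Xa0, h.Xb0])
    linarith only [hyc0, hf, this, h.mz0, h.mc0]
  have e3 : -((33/32) * yc) ≤ (mz - mc) + 2 * mc * pc + Xb * (1 - 2 * pb) + Xa * (1 - 2 * pa) := by
    have := mul_nonneg h.mc0 h.pc0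
    have := mul_nonneg h.Xb0 (by linarith only [h.pb1] : 0 ≤ 1 - pb)
    have := mul_nonneg h.Xa0 (by linarith only [h.pa1] : 0 ≤ 1 - pa)
    (clear hN hG hyc0 hE hpp hu1 e1 e2; linarith [h.mz0])
  obtain ⟨N, hNd⟩ : ∃ N, N = Nn ma mb mc mz Xa Xb Xc pa pb pc := ⟨_, rfl⟩
  rw [← hNd] at hN ⊢
  linarith only [hN, e3, e2, e1, hE, hyc0, hG]

/-- regime A, nearest vertex is `a` -/
theorem regA_a (h : Ctx oa ob oc va vb vc ya yb yc oz oa' ob' vz va' vb' ma mb mc mz Xa Xb Xc
      pa pb pc qa qb qz)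
    (hP1 : P1 oa ob oc va vb vc ya yb yc mc mz Xa Xb Xc)
    (hP2 : P2 oa ob oc va vb vc ya yb yc ma mb Xa Xb vz va' vb')
    (hac : ya ≤ yc)
    (hN : ya ≤ 10^70 * Nn ma mb mc mz Xa Xb Xc pa pb pc) :
    NewA oa ob oc va vb vc ya yb vz va' vb' ma mb mc mz Xa Xb Xc pa pb pc qa qb qz := by
  unfold NewA
  have hN0 := Nn_nonneg h
  have hNa := Nn_al h
  have hNb := Nn_be h
  have hya0 : 0 ≤ ya := by linarith only [h.hza, h.oz0, h.oa'0]
  obtain ⟨N, hNd⟩ : ∃ N, N = Nn ma mb mc mz Xa Xb Xc pa pb pc := ⟨_, rfl⟩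
  rw [← hNd] at hN hN0 hNa hNb ⊢
  have hEz := Et_nonneg (mz + Xc) (ma + Xb) (mb + Xa) qa qb
  have hGz := Gt_nonneg ((oa + ob - va - vb) - 4 * ((ya - vz - va') + (yb - vz - vb')))
        (1 - qa - qb - qz)
  -- E-term
  have hE : Et (ma + Xa) (mb + Xb) (mc + Xc) pb pc ≤ 9 * 10^6 * N := by
    have hg := wgap h hP1
    have hal0 : 0 ≤ mc + harm mz Xc := add_nonneg h.mc0 (harm_nonneg h.mz0 h.Xc0)
    obtain ⟨al, hal⟩ : ∃ al, al = mc + harm mz Xc := ⟨_, rfl⟩
    rw [← hal] at hg hal0 hNa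
    have hW : max 0 (min (mb + Xb) (mc + Xc) - (ma + Xa)) ≤ (9/4) * 10^6 * al := by
      apply max_le (by (clear * - hal0; positivity))
      have h0 := min_le_right (mb + Xb) (mc + Xc)
      rcases hg with hg | ⟨hg, -⟩
      · rcases le_total yc (mc + Xc) with hc | hc
        · rw [min_eq_left hc] at hg
          linarith only [hac, hal0, h0, hg, h.wc, h.dca, h.tca, h.oa0, h.va0, h.ma0, h.Xa0]
        · rw [min_eq_right hc] at hg
          linarith only [hal0, h0, hg, h.ma0, h.Xa0]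
      · linarith only [hal0, h0, hg]
    have hphi : phi pb * phi pc ≤ 4 * pc ^ 2 := by
      have h1 := phi_le_one h.pb0
      have h2 := phi_nonneg pc
      have h3 := phi_le_sq h.pc0
      linarith only [mul_nonneg (sub_nonneg.2 h1) (sub_nonneg.2 h2), h3]
    have h4 : Et (ma + Xa) (mb + Xb) (mc + Xc) pb pc ≤ ((9/4) * 10^6 * al) * (4 * pc ^ 2) := by
      unfold Et
      exact mul_le_mul hW hphi (mul_nonneg (phi_nonneg _) (phi_nonneg _)) (by (clear * - hal0; positivity))
    linarith only [hNa, h4]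
  -- G-term
  have hGa : Gt ((ob + oc - vb - vc) - 4 * ((oa + ob - va - vb) + (oa + oc - va - vc)))
        (1 - pa - pb - pc) ≤ 4 * 10^5 * N + 2 * ya := by
    have hbe0 : 0 ≤ harm ma Xb + harm mb Xa :=
      add_nonneg (harm_nonneg h.ma0 h.Xb0) (harm_nonneg h.mb0 h.Xa0)
    unfold P2 at hP2
    obtain ⟨be, hbe⟩ : ∃ be, be = harm ma Xb + harm mb Xa := ⟨_, rfl⟩
    obtain ⟨g, hg⟩ : ∃ g, g = (ob + oc - vb - vc) - 4 * ((oa + ob - va - vb) + (oa + oc - va - vc)) :=
      ⟨_, rfl⟩
    rw [← hbe] at hP2 hbe0 hNb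
    rw [← hg] at hP2 ⊢
    have hs2 : (max 0 (1 - pa - pb - pc)) ^ 2 ≤ (pa + pb - 1) ^ 2 := by
      have hu : (1 - pa - pb - pc) ≤ |pa + pb - 1| := by
        have := neg_abs_le (pa + pb - 1); linarith only [this, h.pc0]
      rw [← sq_abs (pa + pb - 1)]
      apply pow_le_pow_left₀ (le_max_left _ _) (max_le (abs_nonneg _) hu)
    have hs1 : (max 0 (1 - pa - pb - pc)) ^ 2 ≤ 1 := by
      have h1 : max 0 (1 - pa - pb - pc) ≤ 1 :=
        max_le (by norm_num) (by linarith only [h.pa0, h.pb0, h.pc0])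
      have h2 : 0 ≤ max 0 (1 - pa - pb - pc) := le_max_left _ _
      nlinarith only [h1, h2]
    unfold Gt
    rcases hP2 with hP2 | hP2
    · have hg4 : max 0 g ≤ 4 * 10^5 * be := by
        apply max_le (by (clear * - hbe0; positivity))
        rcases le_total g yc with hc | hc
        · rw [min_eq_left hc] at hP2; linarith only [hbe0, hP2]
        · rw [min_eq_right hc] at hP2
          rw [hg]
          linarith only [hac, hP2, h.dab, h.dca, h.tca, h.vc0, h.oa0]
      have : max 0 g * (max 0 (1 - pa - pb - pc)) ^ 2 ≤ (4 * 10^5 * be) * (pa + pb - 1) ^ 2 :=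
        mul_le_mul hg4 hs2 (by (clear * -; positivity)) (by (clear * - hbe0; positivity))
      linarith only [hya0, hNb, this]
    · have n4 := hP2.n4
      have hg2 : max 0 g ≤ 2 * ya := by
        apply max_le (by linarith only [hya0])
        rw [hg]; linarith only [n4, h.dab, h.dca, h.oa0]
      have : max 0 g * (max 0 (1 - pa - pb - pc)) ^ 2 ≤ (2 * ya) * 1 :=
        mul_le_mul hg2 hs1 (by (clear * -; positivity)) (by (clear * - hya0; positivity))
      linarith only [hN0, this]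
  have e3 : -((33/32) * ya) ≤ (mz + Xc) * (1 - 2 * qz) + (ma + Xb) * (2 * qa - 1) := by
    have := mul_nonneg (by linarith only [h.mz0, h.Xc0] : 0 ≤ mz + Xc) (by linarith only [h.qz1] : 0 ≤ 1 - qz)
    have := mul_nonneg (by linarith only [h.ma0, h.Xb0] : 0 ≤ ma + Xb) h.qa0
    (clear hP1 hP2 hac hya0 N hNb hNa hN0 hN hNd hEz hGz hE hGa; linarith [h.wz, h.wa', h.Fza, h.hza])
  linarith

end Vale.Agent.P235.Tri
end
end
end

section

section

section

namespace Vale.Agent.P235

open Finset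

theorem IsMet.nonneg {V : Type} {d : V → V → ℝ} (h : IsMet d) (x y : V) : 0 ≤ d x y := by
  by_cases hxy : x = y
  · rw [hxy, h.self]
  · exact (h.pos x y hxy).le

/-- metric with the pair `s t` shortened to `D` -/
noncomputable def short {V : Type} (d : V → V → ℝ) (s t : V) (D : ℝ) (x y : V) : ℝ :=
  min (d x y) (min (d x s + D + d t y) (d x t + D + d s y))

section
variable {V : Type} {d : V → V → ℝ} {s t : V} {D : ℝ}

theorem short_le (d : V → V → ℝ) (s t : V) (D : ℝ) (x y : V) : short d s t D x y ≤ d x y :=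
  min_le_left _ _

theorem short_isMet (h : IsMet d) (hD : 0 < D) : IsMet (short d s t D) := by
  constructor
  · intro x
    unfold short
    rw [h.self, min_eq_left]
    apply le_min
    · linarith only [hD, h.nonneg x s, h.nonneg t x]
    · linarith [h.nonneg x t, h.nonneg s x]
  · intro x y hxy
    unfold short
    apply lt_min (h.pos x y hxy)
    apply lt_min
    · linarith [h.nonneg x s, h.nonneg t y]
    · linarith [h.nonneg x t, h.nonneg s y]
  · intro x y
    unfold short
    rw [h.symm x y, min_comm (d x s + D + d t y), h.symm x t, h.symm s y, h.symm x s, h.symm t y]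
    congr 1
    congr 1 <;> ring
  · intro x y z
    unfold short
    have n := h.nonneg
    have T := h.tri
    rcases min_cases (d x y) (min (d x s + D + d t y) (d x t + D + d s y)) with ⟨h1, -⟩ | ⟨h1, -⟩
    · rw [h1]
      rcases min_cases (d y z) (min (d y s + D + d t z) (d y t + D + d s z)) with ⟨h2, -⟩ | ⟨h2, -⟩
      · rw [h2]
        exact (min_le_left _ _).trans (T x y z)
      · rw [h2]
        rcases min_cases (d y s + D + d t z) (d y t + D + d s z) with ⟨h3, -⟩ | ⟨h3, -⟩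
        · rw [h3]
          refine (min_le_right _ _).trans ((min_le_left _ _).trans ?_)
          linarith only [T x y s]
        · rw [h3]
          refine (min_le_right _ _).trans ((min_le_right _ _).trans ?_)
          linarith [T x y t]
    · rw [h1]
      rcases min_cases (d y z) (min (d y s + D + d t z) (d y t + D + d s z)) with ⟨h2, -⟩ | ⟨h2, -⟩
      · rw [h2]
        rcases min_cases (d x s + D + d t y) (d x t + D + d s y) with ⟨h3, -⟩ | ⟨h3, -⟩
        · rw [h3]
          refine (min_le_right _ _).trans ((min_le_left _ _).trans ?_)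
          linarith [T t y z]
        · rw [h3]
          refine (min_le_right _ _).trans ((min_le_right _ _).trans ?_)
          linarith [T s y z]
      · rw [h2]
        rcases min_cases (d x s + D + d t y) (d x t + D + d s y) with ⟨h3, -⟩ | ⟨h3, -⟩ <;>
        rcases min_cases (d y s + D + d t z) (d y t + D + d s z) with ⟨h4, -⟩ | ⟨h4, -⟩ <;>
        rw [h3, h4]
        · refine (min_le_right _ _).trans ((min_le_left _ _).trans ?_)
          linarith only [hD, n t y, n y s]
        · refine (min_le_left _ _).trans ?_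
          linarith only [hD, T x s z, n t y, n y t]
        · refine (min_le_left _ _).trans ?_
          linarith [T x t z, n s y, n y s]
        · refine (min_le_right _ _).trans ((min_le_right _ _).trans ?_)
          linarith [n s y, n y t]

theorem short_gen {G : SimpleGraph V} (hd : IsMet d) (hG : Gen G d) (hst : G.Adj s t) :
    Gen G (short d s t D) := by
  intro f hf x y
  have h1 : ∀ x y, |f x - f y| ≤ d x y :=
    hG f (fun u v huv => (hf u v huv).trans (short_le _ _ _ _ _ _))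
  have h2 : |f s - f t| ≤ D := by
    refine (hf s t hst).trans ?_
    unfold short
    refine (min_le_right _ _).trans ((min_le_left _ _).trans ?_)
    rw [hd.self, hd.self]; linarith only []
  unfold short
  apply le_min (h1 x y)
  apply le_min
  · calc |f x - f y| = |(f x - f s) + (f s - f t) + (f t - f y)| := by congr 1; ring
      _ ≤ |f x - f s| + |f s - f t| + |f t - f y| := abs_add_three _ _ _
      _ ≤ _ := by linarith [h1 x s, h1 t y]
  · calc |f x - f y| = |(f x - f t) + (f t - f s) + (f s - f y)| := by congr 1; ring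
      _ ≤ |f x - f t| + |f t - f s| + |f s - f y| := abs_add_three _ _ _
      _ ≤ _ := by
        rw [abs_sub_comm (f t) (f s)]
        linarith only [h2, h1 x t, h1 s y]

theorem short_self_s (hd : IsMet d) (hD : 0 < D) (x : V) :
    short d s t D x s = min (d x s) (d x t + D) := by
  unfold short
  rw [hd.self]
  apply le_antisymm
  · apply le_min (min_le_left _ _)
    refine (min_le_right _ _).trans ((min_le_right _ _).trans ?_)
    linarith only []
  · apply le_min (min_le_left _ _)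
    apply le_min
    · refine (min_le_left _ _).trans ?_
      linarith [hd.nonneg t s]
    · refine (min_le_right _ _).trans ?_
      linarith

theorem short_self_t (hd : IsMet d) (hD : 0 < D) (x : V) :
    short d s t D x t = min (d x t) (d x s + D) := by
  unfold short
  rw [hd.self]
  apply le_antisymm
  · apply le_min (min_le_left _ _)
    refine (min_le_right _ _).trans ((min_le_left _ _).trans ?_)
    linarith
  · apply le_min (min_le_left _ _)
    apply le_min
    · refine (min_le_right _ _).trans ?_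
      linarith
    · refine (min_le_left _ _).trans ?_
      linarith [hd.nonneg s t]

theorem short_st (hd : IsMet d) (hD : 0 < D) (hDd : D ≤ d s t) : short d s t D s t = D := by
  rw [short_self_t hd hD, hd.self, zero_add, min_eq_right hDd]

/-- the auxiliary line function -/
noncomputable def psi (d : V → V → ℝ) (s t : V) (D : ℝ) (x : V) : ℝ :=
  if D ≤ d s t / 2 then
    max (-min (d x s) (d s t / 8)) (min (D + d x t) (D + 2 * (d s t / 8) - d x t))
  else short d s t D x s

theorem abs_dist_sub (hd : IsMet d) (x y z : V) : |d x z - d y z| ≤ d x y := by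
  rw [abs_le]
  constructor
  · linarith [hd.tri y x z, hd.symm x y]
  · linarith [hd.tri x y z]

theorem psi_s (hd : IsMet d) (hD : 0 < D) (hDd : D ≤ d s t) : psi d s t D s = 0 := by
  unfold psi
  split_ifs with h
  · rw [hd.self]
    rw [min_eq_left (by linarith only [hD, h]), neg_zero, max_eq_left]
    refine (min_le_right _ _).trans ?_
    linarith only [hD, h]
  · rw [(short_isMet hd hD).self]

theorem psi_t (hd : IsMet d) (hD : 0 < D) (hDd : D ≤ d s t) : psi d s t D t = D := by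
  unfold psi
  have h0 : 0 < d s t := hD.trans_le hDd
  split_ifs with h
  · rw [hd.self, add_zero, sub_zero, min_eq_left (by linarith : D ≤ D + 2 * (d s t / 8)),
      max_eq_right]
    rw [hd.symm t s, min_eq_right (by linarith only [hD, h])]
    linarith
  · rw [(short_isMet hd hD).symm, short_st hd hD hDd]

theorem psi_lip (hd : IsMet d) (hD : 0 < D) (hDd : D ≤ d s t) (x y : V) :
    |psi d s t D x - psi d s t D y| ≤ short d s t D x y := by
  by_cases h : D ≤ d s t / 2
  · have h1 : ∀ x y, |psi d s t D x - psi d s t D y| ≤ d x y := by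
      intro x y
      unfold psi
      rw [if_pos h, if_pos h]
      refine (abs_max_sub_max_le_max _ _ _ _).trans (max_le ?_ ?_)
      · rw [neg_sub_neg, abs_sub_comm]
        refine (abs_min_sub_min_le_max _ _ _ _).trans (max_le (abs_dist_sub hd x y s) ?_)
        rw [sub_self, abs_zero]; exact hd.nonneg x y
      · refine (abs_min_sub_min_le_max _ _ _ _).trans (max_le ?_ ?_)
        · have : D + d x t - (D + d y t) = d x t - d y t := by ring
          rw [this]; exact abs_dist_sub hd x y t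
        · have : D + 2 * (d s t / 8) - d x t - (D + 2 * (d s t / 8) - d y t)
            = d y t - d x t := by ring
          rw [this, abs_sub_comm]; exact abs_dist_sub hd x y t
    have h2 : |psi d s t D s - psi d s t D t| ≤ D := by
      rw [psi_s hd hD hDd, psi_t hd hD hDd, zero_sub, abs_neg, abs_of_pos hD]
    unfold short
    apply le_min (h1 x y)
    apply le_min
    · calc |psi d s t D x - psi d s t D y| = |(psi d s t D x - psi d s t D s) +
            (psi d s t D s - psi d s t D t) + (psi d s t D t - psi d s t D y)| := by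
            congr 1; ring
        _ ≤ _ := abs_add_three _ _ _
        _ ≤ _ := by linarith only [h2, h1 x s, h1 t y]
    · calc |psi d s t D x - psi d s t D y| = |(psi d s t D x - psi d s t D t) +
            (psi d s t D t - psi d s t D s) + (psi d s t D s - psi d s t D y)| := by
            congr 1; ring
        _ ≤ _ := abs_add_three _ _ _
        _ ≤ _ := by
          rw [abs_sub_comm (psi d s t D t) (psi d s t D s)]
          linarith only [h2, h1 x t, h1 s y]
  · unfold psi
    rw [if_neg h, if_neg h]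
    exact abs_dist_sub (short_isMet hd hD) x y s

end

theorem phi_nonneg {D zs zt ws wt zw : ℝ} (hz : Tri D zs zt) (hs : Tri zw zs ws)
    (ht : Tri zw zt wt) : 0 ≤ zs + zt + (ws + wt) / 2 - D / 2 - zw := by
  obtain ⟨_, _, h1⟩ := hz
  obtain ⟨_, _, h2⟩ := hs
  obtain ⟨_, _, h3⟩ := ht
  linarith

theorem phi_plane {D a b e f : ℝ} (hz : Tri D a b) (hw : Tri D e f) :
    min a b ≤ a + b + (e + f) / 2 - D / 2 - max |a - e| |b - f| := by
  obtain ⟨h1, h2, h3⟩ := hz
  obtain ⟨h4, h5, h6⟩ := hw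
  rcases max_cases |a - e| |b - f| with ⟨h, -⟩ | ⟨h, -⟩ <;> rw [h]
  · rcases abs_cases (a - e) with ⟨h7, h8⟩ | ⟨h7, h8⟩ <;> rw [h7]
    · refine (min_le_right _ _).trans ?_
      linarith
    · refine (min_le_left _ _).trans ?_
      linarith only [h3, h4]
  · rcases abs_cases (b - f) with ⟨h7, h8⟩ | ⟨h7, h8⟩ <;> rw [h7]
    · refine (min_le_left _ _).trans ?_
      linarith only [h4, h6]
    · refine (min_le_right _ _).trans ?_
      linarith only [h3, h5]

theorem IsL1.Tri {V : Type} {F : V → V → ℝ} (h : IsL1 F) (x y z : V) :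
    Tri (F x y) (F z x) (F z y) :=
  ⟨by linarith [h.tri z y x, h.symm x y, h.symm y x], by linarith [h.tri z x y],
    by linarith [h.tri x z y, h.symm x z]⟩

theorem piece {V : Type} [Finite V] {G : SimpleGraph V} {c c0 : ℝ} (hc : 0 < c) (hc1 : c ≤ 1)
    (hc0 : c0 = c / 30) (hLL : LineLip G c) {d : V → V → ℝ} (hd : IsMet d) (hG : Gen G d)
    {s t : V} (hst : G.Adj s t) {D : ℝ} (hD1 : c0 * d s t ≤ D) (hD2 : D ≤ d s t) :
    ∃ ν : V → V → ℝ, IsL1 ν ∧ ν s t = D ∧ (∀ x y, c0 * d x y ≤ ν x y) ∧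
      (∀ x y, ν x y ≤ d x y) ∧
      (∀ z w, (1 / 3) * min (d z s) (d z t) ≤
        ν z s + ν z t + (ν w s + ν w t) / 2 - D / 2 - ν z w) := by
  have hΔ : 0 < d s t := hd.pos s t hst.ne
  have hc0' : 0 < c0 := by rw [hc0]; positivity
  have hD : 0 < D := (mul_pos hc0' hΔ).trans_le hD1
  set ρ := short d s t D with hρ
  have hρM : IsMet ρ := short_isMet hd hD
  have hρG : Gen G ρ := short_gen hd hG hst
  have hρst : ρ s t = D := short_st hd hD hD2
  have hρts : ρ t s = D := by rw [hρM.symm]; exact hρst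
  obtain ⟨ι, _, w, g, hw, hw1, hg, hlow⟩ := hLL ρ hρM hρG
  set ν1 : V → V → ℝ := fun x y => max |ρ x s - ρ y s| |ρ x t - ρ y t| with hν1
  set ν2 : V → V → ℝ := fun x y => ∑ i, w i * max |ρ x s - ρ y s| |g i x - g i y| with hν2
  set ψ := psi d s t D with hψ
  set ν3 : V → V → ℝ := fun x y => |ψ x - ψ y| with hν3
  have L1 : IsL1 ν1 := isL1_max _ _
  have L2 : IsL1 ν2 := by
    apply IsL1.sum
    intro i _
    exact (isL1_max (fun x => ρ x s) (g i)).smul (hw i)
  have L3 : IsL1 ν3 := isL1_line ψ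
  have U1 : ∀ x y, ν1 x y ≤ ρ x y := by
    intro x y
    exact max_le (abs_dist_sub hρM x y s) (abs_dist_sub hρM x y t)
  have U2 : ∀ x y, ν2 x y ≤ ρ x y := by
    intro x y
    calc ν2 x y ≤ ∑ i, w i * ρ x y := by
          apply Finset.sum_le_sum
          intro i _
          exact mul_le_mul_of_nonneg_left (max_le (abs_dist_sub hρM x y s) (hg i x y)) (hw i)
      _ = ρ x y := by rw [← Finset.sum_mul, hw1, one_mul]
  have U3 : ∀ x y, ν3 x y ≤ ρ x y := psi_lip hd hD hD2
  have B2 : ∀ x y, |ρ x s - ρ y s| ≤ ν2 x y := by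
    intro x y
    calc |ρ x s - ρ y s| = ∑ i, w i * |ρ x s - ρ y s| := by rw [← Finset.sum_mul, hw1, one_mul]
      _ ≤ ν2 x y := by
          apply Finset.sum_le_sum
          intro i _
          exact mul_le_mul_of_nonneg_left (le_max_left _ _) (hw i)
  have B2' : ∀ x y, c * ρ x y ≤ ν2 x y := by
    intro x y
    refine (hlow x y).trans ?_
    apply Finset.sum_le_sum
    intro i _
    exact mul_le_mul_of_nonneg_left (le_max_right _ _) (hw i)
  have R1 : ν1 s t = D := by
    rw [hν1]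
    show max |ρ s s - ρ t s| |ρ s t - ρ t t| = D
    rw [hρM.self, hρM.self, hρst, hρts, zero_sub, sub_zero, abs_neg, abs_of_pos hD, max_self]
  have R2 : ν2 s t = D := by
    apply le_antisymm
    · rw [← hρst]; exact U2 s t
    · have := B2 s t
      rw [hρM.self, hρts, zero_sub, abs_neg, abs_of_pos hD] at this
      exact this
  have R3 : ν3 s t = D := by
    show |psi d s t D s - psi d s t D t| = D
    rw [psi_s hd hD hD2, psi_t hd hD hD2, zero_sub, abs_neg, abs_of_pos hD]
  have F1 : ∀ z, ν1 z s = ρ z s := by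
    intro z
    show max |ρ z s - ρ s s| |ρ z t - ρ s t| = ρ z s
    rw [hρM.self, sub_zero, abs_of_nonneg (hρM.nonneg z s), max_eq_left]
    exact abs_dist_sub hρM z s t
  have F1' : ∀ z, ν1 z t = ρ z t := by
    intro z
    show max |ρ z s - ρ t s| |ρ z t - ρ t t| = ρ z t
    rw [hρM.self, sub_zero, abs_of_nonneg (hρM.nonneg z t), max_eq_right]
    exact abs_dist_sub hρM z t s
  have key : ∀ x y, d x s + D + d t y < d x y / 10 →
      c0 * d x y ≤ (1 / 3) * ν1 x y + (1 / 3) * ν2 x y + (1 / 3) * ν3 x y := by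
    intro x y hxy
    have t1 := hd.tri x s y
    have t2 := hd.tri s t y
    have t3 : d s t ≤ d x s + d x t := by
      have := hd.tri s x t
      rw [hd.symm s x] at this; exact this
    have t4 : d s t ≤ d y s + d t y := by
      have := hd.tri s y t
      rw [hd.symm s y, hd.symm y t] at this; exact this
    have n1 := hd.nonneg x s
    have n2 := hd.nonneg t y
    have sm : 9 * (d x s + d t y) + 10 * D < d s t := by linarith only [hxy, t1, t2]
    have r1 : ρ x s = d x s := by
      rw [hρ, short_self_s hd hD, min_eq_left]; linarith only [hD, hxy, t1, t2, t3, n1, n2]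
    have r2 : ρ y s = d t y + D := by
      rw [hρ, short_self_s hd hD, hd.symm y t, min_eq_right]; linarith only [hD, hxy, t1, t2, t4, n1, n2]
    have r3 : ρ x t = d x s + D := by
      rw [hρ, short_self_t hd hD, min_eq_right]; linarith only [hD, hxy, t1, t2, t3, n1, n2]
    have r4 : ρ y t = d t y := by
      rw [hρ, short_self_t hd hD, hd.symm y t, min_eq_left]; linarith only [hD, hxy, t1, t2, t4, n1, n2]
    have a1 : d x s + D - d t y ≤ ν1 x y := by
      refine le_trans ?_ (le_max_right _ _)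
      rw [r3, r4]; exact le_abs_self _
    have a2 : d t y + D - d x s ≤ ν2 x y := by
      refine le_trans ?_ (B2 x y)
      rw [r1, r2]
      have := neg_abs_le (d x s - (d t y + D))
      linarith only [this]
    have p1 : ψ x = -(d x s) := by
      rw [hψ]
      unfold psi
      rw [if_pos (by linarith only [hD, hxy, t1, t2, n1, n2]), min_eq_left (by linarith only [hD, hxy, t1, t2, n1, n2] : d x s ≤ d s t / 8), max_eq_left]
      refine (min_le_right _ _).trans ?_
      linarith only [hD, hxy, t1, t2, t3, n1, n2]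
    have p2 : ψ y = D + d t y := by
      rw [hψ]
      unfold psi
      rw [if_pos (by linarith only [hD, hxy, t1, t2, n1, n2]), hd.symm y t,
        min_eq_left (by linarith only [hD, hxy, t1, t2, n1, n2] : D + d t y ≤ D + 2 * (d s t / 8) - d t y), max_eq_right]
      have : 0 ≤ min (d y s) (d s t / 8) := le_min (hd.nonneg y s) (by linarith only [hD, hxy, t1, t2, n1, n2])
      linarith only [hD, n2, this]
    have a3 : d x s + D + d t y ≤ ν3 x y := by
      show _ ≤ |ψ x - ψ y|
      rw [p1, p2]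
      have := neg_abs_le (-(d x s) - (D + d t y))
      linarith only [this]
    have c01 : c0 ≤ 1 / 30 := by rw [hc0]; linarith only [hc1]
    have : c0 * d x y ≤ c0 * d s t + (d x s + d t y) / 3 := by
      have h1 : d x y ≤ d s t + (d x s + d t y) := by linarith only [t1, t2]
      calc c0 * d x y ≤ c0 * (d s t + (d x s + d t y)) :=
            mul_le_mul_of_nonneg_left h1 hc0'.le
        _ = c0 * d s t + c0 * (d x s + d t y) := by ring
        _ ≤ c0 * d s t + (1 / 30) * (d x s + d t y) := by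
            have := mul_le_mul_of_nonneg_right c01 (add_nonneg n1 n2)
            linarith only [this]
        _ ≤ _ := by linarith only [n1, n2]
    linarith only [hD1, a1, a2, a3, this]
  refine ⟨fun x y => (1 / 3) * ν1 x y + (1 / 3) * ν2 x y + (1 / 3) * ν3 x y, ?_, ?_, ?_, ?_, ?_⟩
  · exact ((L1.smul (by norm_num)).add (L2.smul (by norm_num))).add (L3.smul (by norm_num))
  · show (1 / 3) * ν1 s t + (1 / 3) * ν2 s t + (1 / 3) * ν3 s t = D
    rw [R1, R2, R3]; ring
  · intro x y
    show c0 * d x y ≤ (1 / 3) * ν1 x y + (1 / 3) * ν2 x y + (1 / 3) * ν3 x y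
    by_cases h : d x y / 10 ≤ ρ x y
    · have e1 := B2' x y
      have e2 := L1.nonneg x y
      have e3 := L3.nonneg x y
      have e4 : c * (d x y / 10) ≤ c * ρ x y := mul_le_mul_of_nonneg_left h hc.le
      rw [hc0]
      linarith only [e1, e2, e3, e4]
    · push Not at h
      have hdn := hd.nonneg x y
      rw [hρ] at h
      unfold short at h
      rcases min_lt_iff.mp h with h | h
      · linarith only [hdn, h]
      · rcases min_lt_iff.mp h with h | h
        · exact key x y h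
        · have := key y x (by rw [hd.symm y s, hd.symm t x, hd.symm y x]; linarith only [h])
          rw [L1.symm x y, L2.symm x y, L3.symm x y, hd.symm x y]
          exact this
  · intro x y
    show (1 / 3) * ν1 x y + (1 / 3) * ν2 x y + (1 / 3) * ν3 x y ≤ d x y
    have := U1 x y
    have := U2 x y
    have := U3 x y
    have : ρ x y ≤ d x y := short_le _ _ _ _ _ _
    (clear hc1 hLL hG hρ hρG hρst hρts hlow hν1 hν2 hψ hν3 L1 L2 L3 B2 B2' R1 R2 R3 F1 F1' key; linarith)
  · intro z w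
    show (1 / 3) * min (d z s) (d z t) ≤
        ((1 / 3) * ν1 z s + (1 / 3) * ν2 z s + (1 / 3) * ν3 z s) +
        ((1 / 3) * ν1 z t + (1 / 3) * ν2 z t + (1 / 3) * ν3 z t) +
        (((1 / 3) * ν1 w s + (1 / 3) * ν2 w s + (1 / 3) * ν3 w s) +
          ((1 / 3) * ν1 w t + (1 / 3) * ν2 w t + (1 / 3) * ν3 w t)) / 2 - D / 2 -
        ((1 / 3) * ν1 z w + (1 / 3) * ν2 z w + (1 / 3) * ν3 z w)
    have P2 : 0 ≤ ν2 z s + ν2 z t + (ν2 w s + ν2 w t) / 2 - D / 2 - ν2 z w := by
      apply phi_nonneg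
      · rw [← R2]; exact L2.Tri s t z
      · have := L2.Tri z w s
        rw [L2.symm z s, L2.symm w s]; exact this
      · have := L2.Tri z w t
        rw [L2.symm z t, L2.symm w t]; exact this
    have P3 : 0 ≤ ν3 z s + ν3 z t + (ν3 w s + ν3 w t) / 2 - D / 2 - ν3 z w := by
      apply phi_nonneg
      · rw [← R3]; exact L3.Tri s t z
      · have := L3.Tri z w s
        rw [L3.symm z s, L3.symm w s]; exact this
      · have := L3.Tri z w t
        rw [L3.symm z t, L3.symm w t]; exact this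
    have P1 : min (d z s) (d z t) ≤
        ν1 z s + ν1 z t + (ν1 w s + ν1 w t) / 2 - D / 2 - ν1 z w := by
      have T : ∀ z, Tri D (ρ z s) (ρ z t) := by
        intro z
        have := L1.Tri s t z
        rw [R1, F1, F1'] at this
        exact this
      have := phi_plane (T z) (T w)
      rw [F1, F1', F1, F1']
      refine le_trans ?_ this
      apply le_min
      · rw [hρ, short_self_s hd hD]
        exact le_min (min_le_left _ _) ((min_le_right _ _).trans (by linarith only [hD]))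
      · rw [hρ, short_self_t hd hD]
        exact le_min (min_le_right _ _) ((min_le_left _ _).trans (by linarith only [hD]))
    linarith

end Vale.Agent.P235
end
end
end

section

section

section

namespace Vale.Agent.P235

open Finset

/-- scale index -/
noncomputable def jj (r : ℕ) (h : ℝ) : ℤ := 3 * Int.log 8 (h / 2 ^ r) + r

theorem pow8 (q : ℤ) (r : ℕ) : (2 : ℝ) ^ (3 * q + r) = 8 ^ q * 2 ^ r := by
  rw [zpow_add₀ (by norm_num), zpow_mul, zpow_natCast]; norm_num

theorem jj_le {r : ℕ} {h : ℝ} (hh : 0 < h) : (2 : ℝ) ^ jj r h ≤ h := by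
  unfold jj
  rw [pow8]
  have := Int.zpow_log_le_self (b := 8) (r := h / 2 ^ r) (by norm_num) (by positivity)
  rw [le_div_iff₀ (by positivity)] at this
  exact_mod_cast this

theorem lt_jj {r : ℕ} {h : ℝ} : h < (2 : ℝ) ^ (jj r h + 3) := by
  unfold jj
  have := Int.lt_zpow_succ_log_self (b := 8) (by norm_num) (h / 2 ^ r)
  rw [div_lt_iff₀ (by positivity)] at this
  have h2 : 3 * Int.log 8 (h / 2 ^ r) + r + 3 = 3 * (Int.log 8 (h / 2 ^ r) + 1) + r := by ring
  rw [h2, pow8]
  exact_mod_cast this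

theorem jj_eq {r : ℕ} {q : ℤ} {h : ℝ} (h1 : (2 : ℝ) ^ (3 * q + r) ≤ h)
    (h2 : h < 2 ^ (3 * q + r + 3)) : jj r h = 3 * q + r := by
  have hh : 0 < h := lt_of_lt_of_le (by positivity) h1
  have h3 := jj_le (r := r) hh
  have h4 := lt_jj (r := r) (h := h)
  have h5 : 3 * q + r < jj r h + 3 :=
    (zpow_lt_zpow_iff_right₀ (by norm_num : (1 : ℝ) < 2)).1 (h1.trans_lt h4)
  have h6 : jj r h < 3 * q + r + 3 :=
    (zpow_lt_zpow_iff_right₀ (by norm_num : (1 : ℝ) < 2)).1 (h3.trans_lt h2)
  unfold jj at *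
  omega

theorem jj_gap {r : ℕ} {h h' : ℝ} (hlt : jj r h < jj r h') : jj r h + 3 ≤ jj r h' := by
  unfold jj at *
  omega

/-- cell index along the line -/
noncomputable def mm (a s : ℝ) : ℤ := ⌊s / (2 * a)⌋

theorem mm_le {a s : ℝ} (ha : 0 < a) : 2 * a * mm a s ≤ s := by
  have := Int.floor_le (s / (2 * a))
  rw [le_div_iff₀ (by positivity)] at this
  unfold mm
  linarith only [this]

theorem lt_mm {a s : ℝ} (ha : 0 < a) : s < 2 * a * (mm a s + 1) := by
  have := Int.lt_floor_add_one (s / (2 * a))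
  rw [div_lt_iff₀ (by positivity)] at this
  unfold mm
  linarith

theorem mm_eq {a s : ℝ} {m : ℤ} (ha : 0 < a) (h1 : 2 * a * m ≤ s) (h2 : s < 2 * a * (m + 1)) :
    mm a s = m := by
  unfold mm
  rw [Int.floor_eq_iff, le_div_iff₀ (by positivity), div_lt_iff₀ (by positivity)]
  constructor <;> linarith

/-- distance to the nearest cell boundary -/
noncomputable def zz (a s : ℝ) : ℝ := min (s - 2 * a * mm a s) (2 * a * (mm a s + 1) - s)

theorem zz_nonneg {a s : ℝ} (ha : 0 < a) : 0 ≤ zz a s :=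
  le_min (by linarith [mm_le (s := s) ha]) (by linarith [lt_mm (s := s) ha])

theorem zz_le {a s : ℝ} : zz a s ≤ a := by
  have h1 : zz a s ≤ s - 2 * a * mm a s := min_le_left _ _
  have h2 : zz a s ≤ 2 * a * (mm a s + 1) - s := min_le_right _ _
  linarith

theorem zz_lip {a s s' : ℝ} (h : mm a s = mm a s') : |zz a s - zz a s'| ≤ |s - s'| := by
  unfold zz
  rw [h]
  refine (abs_min_sub_min_le_max _ _ _ _).trans (max_le (le_of_eq ?_) (le_of_eq ?_))
  · congr 1; ring
  · rw [abs_sub_comm s s']; congr 1; ring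

theorem zz_far {a s s' : ℝ} (ha : 0 < a) (h : mm a s ≠ mm a s') : zz a s ≤ |s - s'| := by
  rcases lt_or_gt_of_ne h with h | h
  · have h1 : ((mm a s : ℝ) + 1) ≤ mm a s' := by exact_mod_cast h
    have h2 := mm_le (s := s') ha
    have h3 : zz a s ≤ 2 * a * (mm a s + 1) - s := min_le_right _ _
    have h4 : 2 * a * ((mm a s : ℝ) + 1) ≤ 2 * a * mm a s' :=
      mul_le_mul_of_nonneg_left h1 (by positivity)
    rw [abs_sub_comm]
    exact le_trans (by linarith only [h2, h3, h4]) (le_abs_self _)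
  · have h1 : ((mm a s' : ℝ) + 1) ≤ mm a s := by exact_mod_cast h
    have h2 := lt_mm (s := s') ha
    have h3 : zz a s ≤ s - 2 * a * mm a s := min_le_left _ _
    have h4 : 2 * a * ((mm a s' : ℝ) + 1) ≤ 2 * a * mm a s :=
      mul_le_mul_of_nonneg_left h1 (by positivity)
    exact le_trans (by linarith) (le_abs_self _)

/-- cell data for one choice of parameters -/
theorem fan_cell {V κ : Type} (C : V → κ) (t H : V → ℝ) (hH : ∀ x, 0 ≤ H x) (r u : ℕ) :
    ∃ (K : Type) (cell : V → K) (b : V → ℝ), (∀ x, 0 ≤ b x) ∧ (∀ x, b x ≤ H x) ∧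
      (∀ x y, cell x = cell y → C x = C y) ∧
      (∀ x y, cell x = cell y → |b x - b y| ≤ max |t x - t y| |H x - H y|) ∧
      (∀ x y, C x = C y → cell x ≠ cell y → b x ≤ max |t x - t y| |H x - H y|) ∧
      (∀ x (q : ℤ), (3 / 2) * (2 : ℝ) ^ (3 * q + r) ≤ H x →
        H x ≤ (15 / 2) * (2 : ℝ) ^ (3 * q + r) →
        b x = zz ((1 / 2) * 2 ^ (3 * q + r)) (t x + u * ((1 / 2) * 2 ^ (3 * q + r)) / 2)) ∧
      (∀ x y (q : ℤ), (3 / 2) * (2 : ℝ) ^ (3 * q + r) ≤ H x →
        H x ≤ (15 / 2) * (2 : ℝ) ^ (3 * q + r) → (3 / 2) * (2 : ℝ) ^ (3 * q + r) ≤ H y →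
        H y ≤ (15 / 2) * (2 : ℝ) ^ (3 * q + r) → cell x = cell y →
        mm ((1 / 2) * 2 ^ (3 * q + r)) (t x + u * ((1 / 2) * 2 ^ (3 * q + r)) / 2) =
        mm ((1 / 2) * 2 ^ (3 * q + r)) (t y + u * ((1 / 2) * 2 ^ (3 * q + r)) / 2)) := by
  have hjj : ∀ x (q : ℤ), (3 / 2) * (2 : ℝ) ^ (3 * q + r) ≤ H x →
      H x ≤ (15 / 2) * (2 : ℝ) ^ (3 * q + r) → jj r (H x) = 3 * q + r := by
    intro x q h1 h2
    have h0 : (0 : ℝ) < 2 ^ (3 * q + r) := by positivity
    apply jj_eq
    · linarith only [h1, h0]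
    · rw [zpow_add₀ (by norm_num) _ 3]
      norm_num
      linarith only [h2, h0]
  have hpos : ∀ j : ℤ, (0 : ℝ) < (1 / 2) * 2 ^ j := fun j => by positivity
  refine ⟨κ × ℤ × ℤ, fun x => (C x, jj r (H x),
    mm ((1 / 2) * 2 ^ jj r (H x)) (t x + u * ((1 / 2) * 2 ^ jj r (H x)) / 2)),
    fun x => max 0 (min (H x - 2 ^ jj r (H x)) (min (8 * 2 ^ jj r (H x) - H x)
      (zz ((1 / 2) * 2 ^ jj r (H x)) (t x + u * ((1 / 2) * 2 ^ jj r (H x)) / 2)))),
    fun x => le_max_left _ _, ?_, ?_, ?_, ?_, ?_, ?_⟩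
  · intro x
    refine max_le (hH x) ((min_le_left _ _).trans ?_)
    have : (0 : ℝ) < 2 ^ jj r (H x) := by positivity
    linarith
  · intro x y h
    exact (Prod.ext_iff.1 h).1
  · intro x y h
    simp only [Prod.mk.injEq] at h
    obtain ⟨_, hj, hm⟩ := h
    simp only
    rw [hj] at hm ⊢
    have hz := zz_lip hm
    have e1 : t x + u * ((1 / 2) * 2 ^ jj r (H y)) / 2 - (t y + u * ((1 / 2) * 2 ^ jj r (H y)) / 2)
      = t x - t y := by ring
    rw [e1] at hz
    refine (abs_max_sub_max_le_max _ _ _ _).trans ?_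
    rw [sub_self, abs_zero]
    refine max_le (le_max_of_le_left (abs_nonneg _)) ?_
    refine (abs_min_sub_min_le_max _ _ _ _).trans (max_le (le_max_of_le_right (le_of_eq ?_)) ?_)
    · congr 1; ring
    refine (abs_min_sub_min_le_max _ _ _ _).trans (max_le (le_max_of_le_right (le_of_eq ?_))
      (le_max_of_le_left hz))
    rw [abs_sub_comm (H x)]; congr 1; ring
  · intro x y hC hne
    simp only [ne_eq, Prod.mk.injEq, not_and] at hne
    refine max_le (le_max_of_le_left (abs_nonneg _)) ?_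
    rcases (hH x).eq_or_lt with hx | hx
    · refine (min_le_left _ _).trans ?_
      have : (0 : ℝ) < 2 ^ jj r (H x) := by positivity
      have : (0 : ℝ) ≤ max |t x - t y| |H x - H y| := le_max_of_le_left (abs_nonneg _)
      (clear κ C hH u hjj hpos hC hne; linarith)
    rcases (hH y).eq_or_lt with hy | hy
    · refine (min_le_left _ _).trans (le_max_of_le_right ?_)
      have : (0 : ℝ) < 2 ^ jj r (H x) := by positivity
      rw [← hy, sub_zero, abs_of_pos hx]
      linarith
    rcases lt_trichotomy (jj r (H x)) (jj r (H y)) with hj | hj | hj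
    · have h1 := jj_gap hj
      have h2 : (2 : ℝ) ^ (jj r (H x) + 3) ≤ 2 ^ jj r (H y) :=
        zpow_le_zpow_right₀ (by norm_num) h1
      have h3 := jj_le (r := r) hy
      rw [zpow_add₀ (by norm_num)] at h2
      norm_num at h2
      refine (min_le_right _ _).trans ((min_le_left _ _).trans (le_max_of_le_right ?_))
      rw [abs_sub_comm]
      exact le_trans (by linarith) (le_abs_self _)
    · have hm := hne hC hj
      rw [hj] at hm ⊢
      have hz := zz_far (hpos _) hm
      have e1 : t x + u * ((1 / 2) * 2 ^ jj r (H y)) / 2 -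
        (t y + u * ((1 / 2) * 2 ^ jj r (H y)) / 2) = t x - t y := by ring
      rw [e1] at hz
      exact (min_le_right _ _).trans ((min_le_right _ _).trans (le_max_of_le_left hz))
    · have h1 := jj_gap hj
      have h2 : (2 : ℝ) ^ (jj r (H y) + 3) ≤ 2 ^ jj r (H x) :=
        zpow_le_zpow_right₀ (by norm_num) h1
      have h3 := lt_jj (r := r) (h := H y)
      refine (min_le_left _ _).trans (le_max_of_le_right ?_)
      exact le_trans (by linarith) (le_abs_self _)
  · intro x q h1 h2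
    simp only
    rw [hjj x q h1 h2]
    have h0 : (0 : ℝ) < 2 ^ (3 * q + r) := by positivity
    have h3 := zz_nonneg (s := t x + u * ((1 / 2) * 2 ^ (3 * q + r)) / 2) (hpos (3 * q + r))
    have h4 := zz_le (a := (1 / 2) * 2 ^ (3 * q + r))
      (s := t x + u * ((1 / 2) * 2 ^ (3 * q + r)) / 2)
    rw [min_eq_right (a := 8 * (2 : ℝ) ^ (3 * q + r) - H x) (by linarith only [h2, h4]),
      min_eq_right (by linarith only [h1, h4]), max_eq_right h3]
  · intro x y q h1 h2 h3 h4 h
    simp only [Prod.mk.injEq] at h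
    obtain ⟨_, _, hm⟩ := h
    rwa [hjj x q h1 h2, hjj y q h3 h4] at hm

/-- random signs on cells -/
theorem sign_avg {V K : Type} [Fintype V] [DecidableEq V] (cell : V → K) (b : V → ℝ)
    (hb : ∀ x, 0 ≤ b x) :
    ∃ g : (V → Bool) → V → ℝ, (∀ e x, |g e x| = (1 / 2) * b x) ∧
      (∀ e x y, cell x = cell y → |g e x - g e y| = (1 / 2) * |b x - b y|) ∧
      (∀ e x y, (1 / 2) * |b x - b y| ≤ |g e x - g e y|) ∧
      (∀ x y, cell x ≠ cell y →
        (Fintype.card (V → Bool) : ℝ) * ((1 / 2) * b x) ≤ ∑ e, |g e x - g e y|) := by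
  rcases isEmpty_or_nonempty V with hV | hV
  · exact ⟨fun _ x => hV.elim x, fun _ x => hV.elim x, fun _ x => hV.elim x,
      fun _ x => hV.elim x, fun x => hV.elim x⟩
  let rep : V → V := fun x => Function.invFun cell (cell x)
  have hrep : ∀ x, cell (rep x) = cell x := fun x => Function.invFun_eq ⟨x, rfl⟩
  let sg : Bool → ℝ := fun β => if β then 1 else -1
  have hsg : ∀ β, sg β = 1 ∨ sg β = -1 := by intro β; cases β <;> simp [sg]
  have hsgn : ∀ β, sg (!β) = -sg β := by intro β; cases β <;> simp [sg]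
  refine ⟨fun e x => (1 / 2) * (sg (e (rep x)) * b x), ?_, ?_, ?_, ?_⟩
  · intro e x
    have := hb x
    simp only
    rcases hsg (e (rep x)) with h | h
    · rw [h, one_mul, abs_of_nonneg (by positivity)]
    · rw [h, neg_one_mul, mul_neg, abs_neg, abs_of_nonneg (by positivity)]
  · intro e x y h
    have h1 : rep x = rep y := by simp only [rep, h]
    simp only [h1]
    rcases hsg (e (rep y)) with h | h
    · rw [h, ← mul_sub, abs_mul, one_mul, one_mul]; norm_num
    · rw [h, ← mul_sub, abs_mul, ← mul_sub, abs_mul]; norm_num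
  · intro e x y
    simp only
    rw [← mul_sub, abs_mul, abs_of_pos (by norm_num : (0 : ℝ) < 1 / 2)]
    have h0 := hb x
    have h1 := hb y
    refine mul_le_mul_of_nonneg_left ?_ (by norm_num)
    rcases hsg (e (rep x)) with h | h <;> rcases hsg (e (rep y)) with h' | h' <;> rw [h, h']
    · simp
    · rw [abs_le]
      have := le_abs_self (1 * b x - -1 * b y)
      constructor <;> linarith only [h0, this, h1]
    · rw [abs_le]
      have := neg_abs_le (-1 * b x - 1 * b y)
      constructor <;> linarith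
    · have : -1 * b x - -1 * b y = -(b x - b y) := by ring
      rw [this, abs_neg]
  · intro x y hne
    have hne' : rep y ≠ rep x := by
      intro h
      apply hne
      rw [← hrep x, ← hrep y, h]
    let fl : (V → Bool) → (V → Bool) := fun e => Function.update e (rep x) (!e (rep x))
    have hfl : Function.Involutive fl := by
      intro e
      simp [fl]
    have hsum : ∑ e : V → Bool, |(1 / 2) * (sg (e (rep x)) * b x) - (1 / 2) * (sg (e (rep y)) * b y)| =
        ∑ e, |(1 / 2) * (sg (fl e (rep x)) * b x) - (1 / 2) * (sg (fl e (rep y)) * b y)| :=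
      (Equiv.sum_comp hfl.toPerm
        (fun e => |(1 / 2) * (sg (e (rep x)) * b x) - (1 / 2) * (sg (e (rep y)) * b y)|)).symm
    have h2 : (Fintype.card (V → Bool) : ℝ) * b x ≤
        ∑ e : V → Bool, |(1 / 2) * (sg (e (rep x)) * b x) - (1 / 2) * (sg (e (rep y)) * b y)| +
        ∑ e : V → Bool, |(1 / 2) * (sg (fl e (rep x)) * b x) - (1 / 2) * (sg (fl e (rep y)) * b y)| := by
      rw [← Finset.sum_add_distrib, ← nsmul_eq_mul, ← Finset.card_univ, ← Finset.sum_const]
      refine Finset.sum_le_sum fun e _ => ?_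
      have e1 : fl e (rep x) = !e (rep x) := by simp [fl]
      have e2 : fl e (rep y) = e (rep y) := by simp [fl, Function.update_of_ne hne']
      rw [e1, e2, hsgn]
      have h3 := abs_sub_le ((1 / 2) * (sg (e (rep x)) * b x)) ((1 / 2) * (sg (e (rep y)) * b y))
        ((1 / 2) * (-sg (e (rep x)) * b x))
      rw [abs_sub_comm ((1 / 2) * (sg (e (rep y)) * b y))] at h3
      refine le_trans (le_of_eq ?_) h3
      have e3 : (1 / 2) * (sg (e (rep x)) * b x) - (1 / 2) * (-sg (e (rep x)) * b x) =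
        sg (e (rep x)) * b x := by ring
      rw [e3, abs_mul, abs_of_nonneg (hb x)]
      rcases hsg (e (rep x)) with h | h <;> rw [h] <;> simp
    rw [← hsum] at h2
    linarith only [h2]

theorem choose_u {a : ℝ} (ha : 0 < a) (τ : ℝ) (c : ℤ) :
    ∃ u : Fin 4, ∃ n : ℤ, a / 2 * (4 * n + c) ≤ τ + (u : ℕ) * a / 2 ∧
      τ + (u : ℕ) * a / 2 < a / 2 * (4 * n + c + 1) := by
  have h1 := Int.floor_le (τ / (a / 2))
  have h2 := Int.lt_floor_add_one (τ / (a / 2))
  rw [le_div_iff₀ (by positivity)] at h1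
  rw [div_lt_iff₀ (by positivity)] at h2
  set W := ⌊τ / (a / 2)⌋
  have h3 : 0 ≤ (c - W) % 4 := Int.emod_nonneg _ (by norm_num)
  have h4 : (c - W) % 4 < 4 := Int.emod_lt_of_pos _ (by norm_num)
  obtain ⟨u, hu⟩ := Int.eq_ofNat_of_zero_le h3
  refine ⟨⟨u, by omega⟩, -((c - W) / 4), ?_⟩
  have h5 : W + u = 4 * (-((c - W) / 4)) + c := by omega
  have h6 : ((W : ℝ) + u) = 4 * ((-((c - W) / 4) : ℤ) : ℝ) + c := by exact_mod_cast h5
  rw [← h6]
  constructor
  · simp only; linarith only [h1]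
  · simp only; linarith only [h2]

theorem mm_of_mem {a s : ℝ} {n : ℤ} (ha : 0 < a) {c : ℝ} (hc : 0 ≤ c) (hc3 : c ≤ 3)
    (h1 : a / 2 * (4 * n + c) ≤ s) (h2 : s < a / 2 * (4 * n + c + 1)) : mm a s = n := by
  apply mm_eq ha
  · linarith only [mul_nonneg (le_of_lt (sub_pos.2 ha)) (sub_nonneg.2 hc), h1]
  · nlinarith only [h2, ha, hc3]

/-- lower bound at one scale, close points -/
theorem fan_close {a sx sy : ℝ} {n : ℤ} (ha : 0 < a) (h1 : a / 2 * (4 * n + 3) ≤ sx)
    (h2 : sx < a / 2 * (4 * n + 3 + 1)) (hxy : sx ≤ sy) (hd : sy - sx < a) :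
    (sy - sx = |zz a sx - zz a sy|) ∨
      (mm a sx ≠ mm a sy ∧ sy - sx ≤ zz a sx + zz a sy) := by
  have hmx : mm a sx = n := mm_of_mem ha (by norm_num) le_rfl h1 h2
  have hzx : zz a sx = 2 * a * (n + 1) - sx := by
    unfold zz
    rw [hmx, min_eq_right]
    linarith only [ha, h1]
  rcases lt_or_ge sy (2 * a * (n + 1)) with h | h
  · left
    have hmy : mm a sy = n := mm_eq ha (by linarith only [h1, hxy, h]) h
    have hzy : zz a sy = 2 * a * (n + 1) - sy := by
      unfold zz
      rw [hmy, min_eq_right]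
      linarith only [h1, hxy, h]
    rw [hzx, hzy, abs_of_nonneg (by linarith only [hxy])]
    ring
  · right
    have hmy : mm a sy = n + 1 := by
      apply mm_eq ha
      · push_cast; linarith only [h]
      · push_cast; linarith only [h2, hd, h]
    refine ⟨by omega, ?_⟩
    have hzy : zz a sy = sy - 2 * a * (n + 1) := by
      unfold zz
      rw [hmy, min_eq_left]
      · push_cast; ring
      · push_cast; linarith only [h2, hd]
    rw [hzx, hzy]
    linarith only []

/-- lower bound at one scale, far points -/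
theorem fan_far {a sx : ℝ} {n : ℤ} (ha : 0 < a) (h1 : a / 2 * (4 * n + 2) ≤ sx)
    (h2 : sx < a / 2 * (4 * n + 2 + 1)) :
    a / 2 ≤ zz a sx ∧ ∀ sy, a ≤ sy - sx → mm a sx ≠ mm a sy := by
  have hmx : mm a sx = n := mm_of_mem ha (by norm_num) (by norm_num) h1 h2
  constructor
  · unfold zz
    rw [hmx]
    apply le_min <;> linarith only [h2, ha, h1]
  · intro sy hsy hne
    have := lt_mm (s := sy) ha
    rw [← hne, hmx] at this
    linarith only [h1, hsy, this]

theorem fan_scale {h h' : ℝ} (hh : 0 < h) (hlt : |h - h'| < (h + h') / 64) :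
    ∃ (r : Fin 3) (q : ℤ), (3 / 2) * (2 : ℝ) ^ (3 * q + (r : ℕ)) ≤ h ∧
      h ≤ (15 / 2) * (2 : ℝ) ^ (3 * q + (r : ℕ)) ∧ (3 / 2) * (2 : ℝ) ^ (3 * q + (r : ℕ)) ≤ h' ∧
      h' ≤ (15 / 2) * (2 : ℝ) ^ (3 * q + (r : ℕ)) ∧
      h + h' ≤ 17 * ((1 / 2) * 2 ^ (3 * q + (r : ℕ))) := by
  have h1 := Int.zpow_log_le_self (b := 2) (r := h) (by norm_num) hh
  have h2 := Int.lt_zpow_succ_log_self (b := 2) (by norm_num) h
  set k := Int.log 2 h
  have h3 : 0 ≤ (k - 1) % 3 := Int.emod_nonneg _ (by norm_num)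
  have h4 : (k - 1) % 3 < 3 := Int.emod_lt_of_pos _ (by norm_num)
  obtain ⟨r, hr⟩ := Int.eq_ofNat_of_zero_le h3
  refine ⟨⟨r, by omega⟩, (k - 1) / 3, ?_⟩
  simp only
  have h5 : 3 * ((k - 1) / 3) + (r : ℤ) = k - 1 := by omega
  rw [h5]
  set P : ℝ := 2 ^ (k - 1) with hP
  have hP0 : 0 < P := by positivity
  have h6 : (2 : ℝ) ^ k = 2 * P := by
    rw [hP, ← zpow_one_add₀ (by norm_num)]
    congr 1; ring
  have h7 : (2 : ℝ) ^ (k + 1) = 4 * P := by
    rw [zpow_add_one₀ (by norm_num), h6]; ring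
  have h1' : 2 * P ≤ h := by rw [← h6]; exact_mod_cast h1
  have h2' : h < 4 * P := by rw [← h7]; exact_mod_cast h2
  rw [abs_lt] at hlt
  obtain ⟨ha, hb⟩ := hlt
  refine ⟨by linarith only [hP0, h1'], by linarith only [hP0, h2'], by linarith only [hP0, h1', hb], by linarith only [hP0, h2', ha], by linarith only [hP0, h2', ha]⟩

theorem fan : FanStatement (1 / 2000) := by
  classical
  intro V _ κ C t H hH
  have := Fintype.ofFinite V
  choose K cell b h1 h2 h3 h4 h5 h6 h7 using
    fun (k : Fin 3 × Fin 4) => fan_cell C t H hH (k.1 : ℕ) (k.2 : ℕ)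
  choose g g1 g2 g3 g4 using fun k => sign_avg (cell k) (b k) (h1 k)
  set N : ℝ := ((Fintype.card (V → Bool) : ℕ) : ℝ) with hN
  have hN0 : 0 < N := by rw [hN]; exact_mod_cast Fintype.card_pos
  -- symmetric version of g4
  have g4' : ∀ k x y, cell k x ≠ cell k y →
      N * ((1 / 2) * b k y) ≤ ∑ e, |g k e x - g k e y| := by
    intro k x y hne
    have := g4 k y x (Ne.symm hne)
    simpa only [abs_sub_comm] using this
  have g3' : ∀ k x y, N * ((1 / 2) * |b k x - b k y|) ≤ ∑ e, |g k e x - g k e y| := by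
    intro k x y
    rw [hN, ← nsmul_eq_mul, ← Finset.card_univ, ← Finset.sum_const]
    exact Finset.sum_le_sum fun e _ => g3 k e x y
  -- the key geometric estimates
  have key1 : ∀ x y, 0 < H x → |H x - H y| < (H x + H y) / 64 → t x ≤ t y →
      ∃ k, N * ((1 / 4) * min (t y - t x) ((H x + H y) / 17)) ≤ ∑ e, |g k e x - g k e y| := by
    intro x y hx hlt hxy
    obtain ⟨r, q, e1, e2, e3, e4, e5⟩ := fan_scale hx hlt
    set a : ℝ := (1 / 2) * 2 ^ (3 * q + (r : ℕ)) with ha
    have ha0 : 0 < a := by positivity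
    rcases lt_or_ge (t y - t x) a with hd | hd
    · obtain ⟨u, n, u1, u2⟩ := choose_u ha0 (t x) 3
      push_cast at u1 u2
      refine ⟨(r, u), ?_⟩
      have f1 := h6 (r, u) x q e1 e2
      have f2 := h6 (r, u) y q e3 e4
      have f3 := h7 (r, u) x y q e1 e2 e3 e4
      simp only [← ha] at f1 f2 f3
      have hb1 := h1 (r, u) x
      have hb2 := h1 (r, u) y
      have hmin : min (t y - t x) ((H x + H y) / 17) ≤ t y - t x := min_le_left _ _
      rcases fan_close (sy := t y + (u : ℕ) * a / 2) ha0 u1 u2 (by linarith only [hxy]) (by linarith only [hd])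
        with h | ⟨h, h'⟩
      · rw [← f1, ← f2] at h
        refine le_trans ?_ (g3' (r, u) x y)
        refine mul_le_mul_of_nonneg_left ?_ hN0.le
        rw [← h]
        linarith only [hmin, hxy]
      · rw [← f1, ← f2] at h'
        have hne : cell (r, u) x ≠ cell (r, u) y := fun hh => h (f3 hh)
        have s1 := g4 (r, u) x y hne
        have s2 := g4' (r, u) x y hne
        have s3 : N * ((1 / 4) * min (t y - t x) ((H x + H y) / 17)) ≤
            N * ((1 / 4) * (b (r, u) x + b (r, u) y)) :=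
          mul_le_mul_of_nonneg_left (by linarith only [hmin, h']) hN0.le
        linarith only [s1, s2, s3]
    · obtain ⟨u, n, u1, u2⟩ := choose_u ha0 (t x) 2
      push_cast at u1 u2
      refine ⟨(r, u), ?_⟩
      have f1 := h6 (r, u) x q e1 e2
      have f3 := h7 (r, u) x y q e1 e2 e3 e4
      simp only [← ha] at f1 f3
      obtain ⟨f4, f5⟩ := fan_far ha0 u1 u2
      have hne : cell (r, u) x ≠ cell (r, u) y := by
        intro hh
        exact f5 (t y + (u : ℕ) * a / 2) (by linarith only [hd]) (f3 hh)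
      refine le_trans ?_ (g4 (r, u) x y hne)
      refine mul_le_mul_of_nonneg_left ?_ hN0.le
      rw [f1]
      have hmin : min (t y - t x) ((H x + H y) / 17) ≤ (H x + H y) / 17 := min_le_right _ _
      linarith only [e5, f4, hmin]
  have key2 : ∀ x y, 0 < H x → |H x - H y| < (H x + H y) / 64 → C x ≠ C y →
      ∃ k, N * ((1 / 4) * ((H x + H y) / 17)) ≤ ∑ e, |g k e x - g k e y| := by
    intro x y hx hlt hC
    obtain ⟨r, q, e1, e2, e3, e4, e5⟩ := fan_scale hx hlt
    set a : ℝ := (1 / 2) * 2 ^ (3 * q + (r : ℕ)) with ha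
    have ha0 : 0 < a := by positivity
    obtain ⟨u, n, u1, u2⟩ := choose_u ha0 (t x) 2
    push_cast at u1 u2
    refine ⟨(r, u), ?_⟩
    have f1 := h6 (r, u) x q e1 e2
    simp only [← ha] at f1
    obtain ⟨f4, f5⟩ := fan_far ha0 u1 u2
    have hne : cell (r, u) x ≠ cell (r, u) y := fun hh => hC (h3 (r, u) x y hh)
    refine le_trans ?_ (g4 (r, u) x y hne)
    refine mul_le_mul_of_nonneg_left ?_ hN0.le
    rw [f1]
    linarith only [f4, e5]
  -- the family
  refine ⟨Option ((Fin 3 × Fin 4) × (V → Bool)), inferInstance,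
    fun i => i.elim (1 / 2) (fun _ => 1 / 24 * (1 / N)),
    fun i => i.elim H (fun k => g k.1 k.2), ?_, ?_, ?_, ?_, ?_, ?_⟩
  · rintro (_ | i)
    · simp only [one_div, Option.elim_none, inv_nonneg, Nat.ofNat_nonneg]
    · simp only [Option.elim_some]
      positivity
  · rw [Fintype.sum_option]
    simp only [Option.elim_none, Option.elim_some]
    rw [Finset.sum_const, Finset.card_univ, Fintype.card_prod, Fintype.card_prod,
      Fintype.card_fin, Fintype.card_fin, nsmul_eq_mul]
    push_cast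
    rw [← hN]
    field_simp
    norm_num
  · rintro (_ | i) x
    · simp only [Option.elim_none]
      rw [abs_of_nonneg (hH x)]
    · simp only [Option.elim_some]
      rw [g1]
      linarith only [h1 i.1 x, h2 i.1 x]
  · rintro (_ | i) x y hC
    · exact le_max_right _ _
    · simp only [Option.elim_some]
      have hm0 : (0 : ℝ) ≤ max |t x - t y| |H x - H y| := le_max_of_le_left (abs_nonneg _)
      by_cases hc : cell i.1 x = cell i.1 y
      · rw [g2 i.1 i.2 x y hc]
        linarith only [h4 i.1 x y hc, hm0]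
      · have s1 := h5 i.1 x y hC hc
        have s2 := h5 i.1 y x hC.symm (Ne.symm hc)
        rw [abs_sub_comm (t y), abs_sub_comm (H y)] at s2
        have s3 := abs_sub (g i.1 i.2 x) (g i.1 i.2 y)
        rw [g1, g1] at s3
        linarith only [s3, s2, s1]
  all_goals
    have hlowH : ∀ x y, (1 / 2) * |H x - H y| ≤
        ∑ i : Option ((Fin 3 × Fin 4) × (V → Bool)),
          (i.elim (1 / 2) (fun _ => 1 / 24 * (1 / N)) : ℝ) *
          |(i.elim H (fun k => g k.1 k.2) : V → ℝ) x - (i.elim H (fun k => g k.1 k.2) : V → ℝ) y| := by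
      intro x y
      rw [Fintype.sum_option]
      simp only [Option.elim_none, Option.elim_some]
      have : 0 ≤ ∑ i : (Fin 3 × Fin 4) × (V → Bool),
          1 / 24 * (1 / N) * |g i.1 i.2 x - g i.1 i.2 y| :=
        Finset.sum_nonneg fun i _ => by (clear * -; positivity)
      linarith
    have hlow : ∀ x y k (B : ℝ), N * B ≤ ∑ e, |g k e x - g k e y| → 1 / 24 * B ≤
        ∑ i : Option ((Fin 3 × Fin 4) × (V → Bool)),
          (i.elim (1 / 2) (fun _ => 1 / 24 * (1 / N)) : ℝ) *
          |(i.elim H (fun k => g k.1 k.2) : V → ℝ) x - (i.elim H (fun k => g k.1 k.2) : V → ℝ) y| := by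
      intro x y k B hB
      rw [Fintype.sum_option, Fintype.sum_prod_type]
      simp only [Option.elim_none, Option.elim_some]
      have h0 : 0 ≤ (1 / 2) * |H x - H y| := by (clear * -; positivity)
      have h1 : ∑ e, 1 / 24 * (1 / N) * |g k e x - g k e y| ≤
          ∑ k : Fin 3 × Fin 4, ∑ e, 1 / 24 * (1 / N) * |g k e x - g k e y| :=
        Finset.single_le_sum (f := fun k : Fin 3 × Fin 4 =>
          ∑ e, 1 / 24 * (1 / N) * |g k e x - g k e y|)
          (fun k _ => Finset.sum_nonneg fun i _ => by (clear * -; positivity)) (Finset.mem_univ k)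
      rw [← Finset.mul_sum] at h1
      have h2 : 1 / 24 * (1 / N) * (N * B) ≤ 1 / 24 * (1 / N) * ∑ e, |g k e x - g k e y| :=
        mul_le_mul_of_nonneg_left hB (by positivity)
      have h3 : 1 / 24 * (1 / N) * (N * B) = 1 / 24 * B := by (clear * - hN0; field_simp)
      linarith
  · intro x y hC
    by_cases hlt : |H x - H y| < (min |t x - t y| (H x + H y)) / 64
    · have hm1 : min |t x - t y| (H x + H y) ≤ H x + H y := min_le_right _ _
      have hlt2 : |H x - H y| < (H x + H y) / 64 := by linarith only [hlt, hm1]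
      have hlt3 := abs_lt.1 hlt2
      have hx : 0 < H x := by linarith only [hlt3]
      have hy : 0 < H y := by linarith only [hlt3]
      rcases le_total (t x) (t y) with hxy | hxy
      · obtain ⟨k, hk⟩ := key1 x y hx hlt2 hxy
        refine le_trans ?_ (hlow x y k _ hk)
        have hm : 1 / 17 * min |t x - t y| (H x + H y) ≤ min (t y - t x) ((H x + H y) / 17) := by
          have ht : |t x - t y| = t y - t x := by rw [abs_sub_comm, abs_of_nonneg (by linarith only [hxy])]
          have hm2 : min |t x - t y| (H x + H y) ≤ |t x - t y| := min_le_left _ _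
          apply le_min
          · rw [ht] at hm2 ⊢
            linarith only [hxy, hm2]
          · linarith only [hm1]
        have hm0 : 0 ≤ min |t x - t y| (H x + H y) := le_min (abs_nonneg _) (by linarith only [hx, hy])
        linarith only [hm, hm0]
      · have hlt4 : |H y - H x| < (H y + H x) / 64 := by rw [abs_sub_comm, add_comm]; exact hlt2
        obtain ⟨k, hk⟩ := key1 y x hy hlt4 hxy
        simp only [abs_sub_comm (g k _ y)] at hk
        refine le_trans ?_ (hlow x y k _ hk)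
        have hm : 1 / 17 * min |t x - t y| (H x + H y) ≤ min (t x - t y) ((H y + H x) / 17) := by
          have ht : |t x - t y| = t x - t y := by rw [abs_of_nonneg (by linarith only [hxy])]
          have hm2 : min |t x - t y| (H x + H y) ≤ |t x - t y| := min_le_left _ _
          apply le_min
          · rw [ht] at hm2 ⊢
            linarith only [hxy, hm2]
          · linarith only [hm1]
        have hm0 : 0 ≤ min |t x - t y| (H x + H y) := le_min (abs_nonneg _) (by linarith only [hx, hy])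
        linarith only [hm, hm0]
    · refine le_trans ?_ (hlowH x y)
      have hm0 : 0 ≤ min |t x - t y| (H x + H y) :=
        le_min (abs_nonneg _) (by linarith only [hH x, hH y])
      linarith only [hlt, hm0]
  · intro x y hC
    by_cases hlt : |H x - H y| < (H x + H y) / 64
    · have hlt3 := abs_lt.1 hlt
      have hx : 0 < H x := by linarith only [hlt3]
      obtain ⟨k, hk⟩ := key2 x y hx hlt hC
      refine le_trans ?_ (hlow x y k _ hk)
      linarith only [hlt3]
    · refine le_trans ?_ (hlowH x y)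
      linarith [hH x, hH y]

end Vale.Agent.P235
end
end
end

section

section

section

/-!
Treewidth 3: fact P1 (A2) for the generic law.
-/

namespace Vale.Agent.P235.Tri

/-- case `(c|az) ≤ 64 α` -/
theorem p1_core {oa ob oc va vb vc ya yb yc mu xa xb xc nu ta tb tc al : ℝ}
    (G : Good oa ob oc va vb vc) (X : Ext oa ob oc ya yb yc)
    (M : MassF va vb vc ya yb yc mu xa xb xc) (N : MassD oa ob oc ya yb yc nu ta tb tc)
    (L : LawN va vb vc ya yb yc mu xa xb xc)
    (al0 : 0 ≤ al) (hmc : (vc - xc) + (oc - tc)/32 ≤ al)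
    (hH : harm (mu + nu/32) (xc + tc/32) ≤ al)
    (s1 : 10^6 * al < yc) (s2 : 10^6 * al < vc + oc/32) (hvc : vc ≤ 8 * al)
    (hca : (oc + oa + yc - ya)/2 ≤ 64 * al) :
    Lad oa ob oc va vb vc ya yb yc ((vc - xc) + (oc - tc)/32) (mu + nu/32) (xa + ta/32) al := by
  have hU := L.U
  clear L
  have vb0 := G.vb0
  have va0 := G.va0
  have dab := G.dab
  have dbc := G.dbc
  have dca := G.dca
  clear G
  obtain ⟨tab, tbc, tca, yab, yba, ybc, ycb, yca, yac⟩ := X
  obtain ⟨mu0, xa0, xb0, xc0, xav, xbv, xcv, Fa, Fb, Fc⟩ := M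
  obtain ⟨nu0, ta0, tb0, tc0, tao, tbo, tco, Da, Db, Dc, -, -, -, leafz⟩ := N
  have htc : oc - 64 * al ≤ tc := by (clear * - al0 hmc xcv; linarith)
  have hXc : 2 * al < xc + tc/32 := by linarith only [al0, hmc, s2]
  have hmz : mu + nu/32 ≤ 2 * al := by
    by_contra hcon
    push Not at hcon
    have h1 := harm_ge (x := mu + nu/32) (y := xc + tc/32) (by linarith only [mu0, nu0]) (by linarith only [al0, hmc, s2])
    have h2 : 2 * al < min (mu + nu/32) (xc + tc/32) := lt_min hcon hXc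
    linarith only [hH, h1, h2]
  have hmu : mu ≤ 2 * al := by linarith only [nu0, hmz]
  have hnu : nu ≤ 64 * al := by linarith only [mu0, hmz]
  have hzb : (yb + yc - ob - oc)/2 ≤ 128 * al := by
    by_contra hcon
    push Not at hcon
    have h2 : 128 * al < min ((ya + yb - oa - ob)/2)
        (min ((yb + yc - ob - oc)/2) ((yc + ya - oc - oa)/2)) :=
      lt_min (by linarith only [hca, mu0, tco, Da, Db, hmz, hcon]) (lt_min hcon (by linarith only [hca, mu0, tco, Da, Db, hmz, hcon]))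
    linarith only [hca, mu0, tco, Da, Db, hmz, hcon]
  have hyb : oc - 64 * al ≤ yb := by linarith only [hca, tbc, yab]
  have hya : yc - 128 * al ≤ ya - va := by linarith only [hca, dca, xc0, xcv]
  have hvb : yb + yc - vb ≤ 160 * al := by
    obtain ⟨ea, eb, ec, hea, heb, hec, hcase⟩ := hU
    clear hea hec
    have heb1 : 1000 * al < eb := by
      rw [heb]
      exact lt_min (lt_min (by linarith only [al0, s1, hvc]) (by linarith only [al0, s1, hca, dca, xc0, xcv])) (by linarith only [al0, s2, hvc, hca, vb0, tbc, yab])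
    rcases hcase with ⟨u1, u2, u3⟩ | ⟨u1, u2, u3⟩ | ⟨u1, u2, u3⟩
    · exfalso
      have : 100 * al < min ea ((ea + ya - va)/2) := lt_min (by linarith only [al0, heb1, u1]) (by linarith only [u1, heb1, xcv, xc0, dca, hca, s1, al0])
      linarith only [al0, nu0, hmz, u3, this]
    · have heb2 : yc - 128 * al ≤ eb ∨ eb = yb + vb := by
        rw [heb]
        rcases le_total (min (yc - vc) (ya - va)) (yb + vb) with h | h
        · left
          rw [min_eq_left h]
          exact le_min (by linarith only [al0, hvc]) hya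
        · right
          rw [min_eq_right h]
      have u4 : (eb + yb - vb)/2 ≤ (8/3) * al := by
        rcases le_total eb ((eb + yb - vb)/2) with h | h
        · rw [min_eq_left h] at u3
          linarith only [al0, nu0, hmz, heb1, u3]
        · rw [min_eq_right h] at u3
          linarith only [nu0, hmz, u3]
      rcases heb2 with h | h
      · linarith only [al0, u4, h]
      · (clear * - al0 s2 hvc hca tbc yab u4 h; linarith)
    · exfalso
      have : 100 * al < min ec ((ec + yc - vc)/2) := lt_min (by linarith only [al0, heb1, u2]) (by linarith only [al0, s1, hvc, heb1, u2])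
      (clear * - al0 nu0 hmz u3 this; linarith only [this, u3, hmz, nu0, al0])
  refine ⟨al0, s1.le, s2.le, hvc, hmc, hmz, ?_, hvb, ?_, hzb⟩
  · linarith only [al0, hca, mu0, xc0, xcv, Fb, Fc, tco, Da, Dc, hvb]
  · linarith only [hca]

/-- (A2) -/
theorem p1_N {oa ob oc va vb vc ya yb yc mu xa xb xc nu ta tb tc : ℝ}
    (G : Good oa ob oc va vb vc) (X : Ext oa ob oc ya yb yc)
    (M : MassF va vb vc ya yb yc mu xa xb xc) (N : MassD oa ob oc ya yb yc nu ta tb tc)
    (L : LawN va vb vc ya yb yc mu xa xb xc) :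
    P1 oa ob oc va vb vc ya yb yc ((vc - xc) + (oc - tc)/32) (mu + nu/32)
        (xa + ta/32) (xb + tb/32) (xc + tc/32) := by
  have hH0 : 0 ≤ harm (mu + nu/32) (xc + tc/32) :=
    harm_nonneg (by (clear * - M N; linarith [M.mu0, N.nu0])) (by linarith only [M.xc0, N.tc0])
  have hmc0 : 0 ≤ (vc - xc) + (oc - tc)/32 := by linarith only [M.xcv, N.tco]
  obtain ⟨al, hal⟩ : ∃ al, al = ((vc - xc) + (oc - tc)/32)
      + harm (mu + nu/32) (xc + tc/32) := ⟨_, rfl⟩
  unfold P1
  rw [← hal]
  by_cases hmain : min yc (vc + oc/32) ≤ 10^6 * al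
  · exact Or.inl hmain
  push Not at hmain
  right
  have s1 : 10^6 * al < yc := lt_of_lt_of_le hmain (min_le_left _ _)
  have s2 : 10^6 * al < vc + oc/32 := lt_of_lt_of_le hmain (min_le_right _ _)
  have al0 : 0 ≤ al := by linarith only [hH0, hmc0, hal]
  have hmc : (vc - xc) + (oc - tc)/32 ≤ al := by linarith only [hH0, hal]
  have hH : harm (mu + nu/32) (xc + tc/32) ≤ al := by linarith only [hmc0, hal]
  have hvc : vc ≤ 8 * al := by
    by_contra hcon
    push Not at hcon
    have h1 : 8 * al < min vc yc := lt_min hcon (by linarith only [hH0, hmc0, hal, s1])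
    have h2 := L.lc
    have h3 := N.tco
    linarith only [hH0, hal, h1, h2, h3]
  have hleaf := N.leafc
  have hc : (oc + oa + yc - ya)/2 ≤ 64 * al ∨ (oc + ob + yc - yb)/2 ≤ 64 * al := by
    by_contra hcon
    push Not at hcon
    obtain ⟨c1, c2⟩ := hcon
    have h1 : 64 * al < min oc (min ((oc + oa + yc - ya)/2) ((oc + ob + yc - yb)/2)) :=
      lt_min (by linarith only [hvc, s2, hal, hmc0, hH0]) (lt_min c1 c2)
    have h2 := M.xcv
    linarith only [hH0, hal, hleaf, h1, h2]
  rcases hc with hc | hc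
  · exact Or.inl (p1_core G X M N L al0 hmc hH s1 s2 hvc hc)
  · exact Or.inr (p1_core G.swap X.swap M.swap N.swap L.swap al0 hmc hH s1 s2 hvc hc)

end Vale.Agent.P235.Tri
end
end
end

section

section

section

/-!
Treewidth 3: facts P4I (A4) for the generic law.
-/

namespace Vale.Agent.P235.Tri

/-- In the third case of P4I: `Good.E` forces a reserve of `δab`. -/
theorem p4I_reserve {oa ob oc D Dac Dbc e : ℝ} (oa0 : 0 < oa) (ob0 : 0 < ob) (oc0 : 0 < oc)
    (D0 : 0 ≤ D) (h1 : Dac ≤ e) (h2 : Dbc ≤ e) (he : 0 ≤ e) (hoc : 4096 * e ≤ oc)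
    (E : (1/1024) * (oa * ob * oc) ≤ (D + Dac) * (ob * oc) + (Dbc + D) * (oc * oa)
      + (Dac + Dbc) * (oa * ob)) :
    (1/4096) * min oa ob ≤ D + e := by
  have hab : 0 < oa * ob := mul_pos oa0 ob0
  have k1 : (Dac + Dbc) * (oa * ob) ≤ (2 * e) * (oa * ob) :=
    mul_le_mul_of_nonneg_right (by linarith only [h1, h2]) hab.le
  have k2 : (2 * e) * (oa * ob) ≤ (oc/2048) * (oa * ob) :=
    mul_le_mul_of_nonneg_right (by linarith only [hoc]) hab.le
  have k3 : (D + Dac) * (ob * oc) ≤ (D + e) * (ob * oc) :=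
    mul_le_mul_of_nonneg_right (by linarith only [h1]) (mul_pos ob0 oc0).le
  have k4 : (Dbc + D) * (oc * oa) ≤ (D + e) * (oc * oa) :=
    mul_le_mul_of_nonneg_right (by linarith only [h2]) (mul_pos oc0 oa0).le
  have k5 : (1/2048) * (oa * ob) * oc ≤ (D + e) * (oa + ob) * oc := by linarith
  have k6 : (1/2048) * (oa * ob) ≤ (D + e) * (oa + ob) := le_of_mul_le_mul_right k5 oc0
  rcases le_total oa ob with h | h
  · rw [min_eq_left h]
    have k7 : (D + e) * (oa + ob) ≤ (D + e) * (2 * ob) :=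
      mul_le_mul_of_nonneg_left (by linarith only [h]) (by linarith only [D0, he])
    have k8 : ((1/4096) * oa) * ob ≤ (D + e) * ob := by linarith only [k7, k6]
    exact le_of_mul_le_mul_right k8 ob0
  · rw [min_eq_right h]
    have k7 : (D + e) * (oa + ob) ≤ (D + e) * (2 * oa) :=
      mul_le_mul_of_nonneg_left (by linarith only [h]) (by linarith only [D0, he])
    have k8 : ((1/4096) * ob) * oa ≤ (D + e) * oa := by linarith only [k7, k6]
    exact le_of_mul_le_mul_right k8 oa0

theorem p4I_N {oa ob oc va vb vc ya yb yc mu xa xb xc nu ta tb tc : ℝ}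
    (G : Good oa ob oc va vb vc) (X : Ext oa ob oc ya yb yc)
    (M : MassF va vb vc ya yb yc mu xa xb xc) (N : MassD oa ob oc ya yb yc nu ta tb tc)
    (L : LawN va vb vc ya yb yc mu xa xb xc) :
    P4I oa ob oc va vb vc ya yb yc ((va - xa) + (oa - ta)/32) ((vb - xb) + (ob - tb)/32)
        (mu + nu/32) (xa + ta/32) (xb + tb/32) (xc + tc/32) (mu + xc) (va - xa + xb)
        (vb - xb + xa) := by
  intro Y hY hYa hYb hYc h1 h2
  obtain ⟨mu0, xa0, xb0, xc0, xav, xbv, xcv, Fa, Fb, Fc⟩ := M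
  obtain ⟨nu0, ta0, tb0, tc0, tao, tbo, tco, Da, Db, Dc, -, -, -, -⟩ := N
  have hja := L.ja
  have hjb := L.jb
  have hzc := L.zc
  clear L
  have va0 := G.va0
  have vb0 := G.vb0
  have vc0 := G.vc0
  have dab := G.dab
  have dbc := G.dbc
  have dca := G.dca
  have tab := X.tab
  have tbc := X.tbc
  have tca := X.tca
  have hxa : xa ≤ (1/10^9) * Y := by linarith only [ta0, h1]
  have hxb : xb ≤ (1/10^9) * Y := by linarith only [h2, tb0]
  have hta : ta ≤ (32/10^9) * Y := by linarith only [h1, xa0]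
  have htb : tb ≤ (32/10^9) * Y := by linarith only [h2, xb0]
  have cA : va ≤ (24/10^9) * Y ∨ yb + yc - vb - vc ≤ (48/10^9) * Y := by
    by_contra hcon
    push Not at hcon
    obtain ⟨c1, c2⟩ := hcon
    have : (24/10^9) * Y < min (min va yb) (min yc ((yb + yc - vb - vc)/2)) :=
      lt_min (lt_min c1 (by linarith only [hY, hYb])) (lt_min (by linarith only [hY, hYc]) (by linarith only [c2]))
    linarith only [h1, ta0, hja, this]
  have cB : vb ≤ (24/10^9) * Y ∨ ya + yc - va - vc ≤ (48/10^9) * Y := by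
    by_contra hcon
    push Not at hcon
    obtain ⟨c1, c2⟩ := hcon
    have : (24/10^9) * Y < min (min vb yc) (min ya ((yc + ya - vc - va)/2)) :=
      lt_min (lt_min c1 (by linarith only [hY, hYc])) (lt_min (by linarith only [hY, hYa]) (by linarith only [c2]))
    linarith only [h2, tb0, hjb, this]
  clear hja hjb
  unfold C2
  by_cases hC : 3 * (((va - xa) + (oa - ta)/32) + (xb + tb/32)) ≤ (mu + nu/32) + (xc + tc/32) ∨
      3 * (((vb - xb) + (ob - tb)/32) + (xa + ta/32)) ≤ (mu + nu/32) + (xc + tc/32)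
  · exact Or.inl hC
  push Not at hC
  obtain ⟨hC1, hC2⟩ := hC
  right
  rcases cA with cA | cA
  · rcases cB with cB | cB
    · -- (i)
      left
      have m0 : vc - yc ≤ max 0 (vc - yc) := le_max_right _ _
      have m00 : 0 ≤ max 0 (vc - yc) := le_max_left _ _
      have m2 : max va vb ≤ (24/10^9) * Y := max_le cA cB
      have m10 : 0 ≤ min (min vc ya) (min yb ((ya + yb - va - vb)/2)) :=
        le_min (le_min (by linarith only [xc0, xcv]) (by linarith only [hY, hYa])) (le_min (by linarith only [hY, hYb]) (by linarith only [hY, hYa, hYb, cA, cB]))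
      rcases le_total (min (ya - va) (yb - vb)) (yc + vc) with h' | h'
      · exfalso
        rw [min_eq_left h'] at hzc
        rcases le_total (ya - va) (yb - vb) with h'' | h''
        · rw [min_eq_left h''] at hzc
          clear h' h'' m0
          linarith only [hY, hYa, xa0, xbv, nu0, tc0, Da, hzc, hC1, cA, cB, m00, m2, m10]
        · rw [min_eq_right h''] at hzc
          clear h' h'' m0
          linarith only [hY, hYb, xb0, xav, nu0, tc0, Db, hzc, hC2, cA, cB, m00, m2, m10]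
      · have g1 : yc + vc ≤ ya - va := le_trans h' (min_le_left _ _)
        have g2 : yc + vc ≤ yb - vb := le_trans h' (min_le_right _ _)
        rw [min_eq_right h'] at hzc
        have m1 : vc ≤ min (min vc ya) (min yb ((ya + yb - va - vb)/2)) :=
          le_min (le_min le_rfl (by linarith only [hY, hYa, hYc, Fa, nu0, tc0, Da, hzc, hC1, m0, m2, m10])) (le_min (by linarith only [m10, m2, m0, hC2, hzc, Db, tc0, nu0, Fb, hYc, hYb, hY]) (by linarith only [hY, hYc, h2, xa0, Fa, Fb, nu0, tb0, tc0, Da, hzc, hC1, cA, m0, m2, m10]))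
        clear h' m10
        refine ⟨by linarith only [m1, m2, m00, cB, cA, hC1, hzc, Da, tc0, nu0, Fa, xcv, xbv, xc0, xa0, hYa], by linarith only [hYb, h1, xb0, xc0, xcv, Fb, nu0, ta0, tc0, Db, hzc, hC2, cB, m00, m2, m1], ?_, ?_⟩
        · clear hC1 hC2
          linarith only [hY, hYc, nu0, ta0, tb0, Dc, hzc, m0, m2, m1]
        · by_contra hcon
          push Not at hcon
          clear m0
          have s1 : oa + ob ≥ 16 * (yc + vc) - Y / 1000 := by (clear * - hY hYb hYc h1 h2 xa0 xc0 xcv tc0 tco Db Dc hzc hC1 hC2 cA cB m00 m2 m1 hcon; linarith)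
          linarith only [hY, hYb, hYc, h1, h2, xa0, xc0, xcv, tc0, tco, Db, Dc, hzc, hC1, hC2, cA, cB, m00, m2, m1, hcon]
    · -- (ii) `va` small, `ya + yc - va - vc` small
      exfalso
      clear hzc
      (clear * - hY hYa mu0 xa0 Fa Fc nu0 tc0 Da hC1 cA cB; linarith)
  · rcases cB with cB | cB
    · exfalso
      clear hzc
      linarith only [hY, hYb, mu0, xb0, Fb, Fc, nu0, tc0, Db, hC2, cA, cB]
    · -- (iii)
      right
      clear hzc
      have s1 : ya - (mu + xc) - (va - xa + xb) ≤ (48/10^9) * Y := by linarith only [mu0, xb0, Fc, cB]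
      have s2 : yb - (mu + xc) - (vb - xb + xa) ≤ (48/10^9) * Y := by linarith only [mu0, xa0, Fc, cA]
      have oa' : Y/5 ≤ (oa + ob + ya - yb)/2 := by linarith only [hY, hYa, mu0, xa0, Fa, Fc, Da, Db, dab, hC1, cA]
      have ob' : Y/5 ≤ (oa + ob + yb - ya)/2 := by linarith only [hY, hYb, mu0, xb0, Fb, Fc, Da, Db, dab, hC2, cB]
      have oaY : Y/6 ≤ oa := by linarith only [hY, hYa, h2, mu0, xa0, xb0, Fc, nu0, ta0, Da, Db, Dc, dab, dca, hC1, cA]
      have obY : Y/6 ≤ ob := by linarith only [hY, hYb, h1, mu0, xb0, Fc, nu0, tb0, Da, Dc, dab, dbc, hC2, cA, cB]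
      have ocY : Y/2 ≤ oc := by linarith only [hY, hYc, h2, xb0, nu0, ta0, tc0, Db, dbc, cA]
      have dd1 : oa + oc - va - vc ≤ (48/10^9) * Y := by linarith only [nu0, tb0, Da, Dc, cB]
      have dd2 : ob + oc - vb - vc ≤ (48/10^9) * Y := by linarith only [nu0, ta0, Db, Dc, cA]
      have hE := G.E
      have res := p4I_reserve (oa := oa) (ob := ob) (oc := oc) (D := oa + ob - va - vb)
        (Dac := oa + oc - va - vc) (Dbc := ob + oc - vb - vc) (e := (48/10^9) * Y)
        (by linarith only [hY, hYa, h2, mu0, xa0, xb0, Fc, nu0, ta0, Da, Db, Dc, dab, dca, hC1, cA]) (by linarith only [hY, hYb, h1, mu0, xb0, Fc, nu0, tb0, Da, Dc, dab, dbc, hC2, cA, cB]) (by linarith only [hY, hYc, h2, xb0, nu0, ta0, tc0, Db, dbc, cA]) (by linarith only [dab]) dd1 dd2 (by linarith only [hY])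
        (by linarith only [hY, hYc, h2, xb0, nu0, ta0, tc0, Db, dbc, cA]) (by
          have e1 : oa + ob - va - vb + (oa + oc - va - vc) = 2*oa + ob + oc - 2*va - vb - vc := by
            ring
          have e2 : ob + oc - vb - vc + (oa + ob - va - vb) = 2*ob + oc + oa - 2*vb - vc - va := by
            ring
          have e3 : oa + oc - va - vc + (ob + oc - vb - vc) = 2*oc + oa + ob - 2*vc - va - vb := by
            ring
          rw [e1, e2, e3]
          exact hE)
      have hmin : Y/6 ≤ min oa ob := le_min oaY obY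
      refine ⟨?_, by linarith only [hmin, res, cA, hC1, Db, Da, ta0, Fc, Fa, xb0, xa0, mu0, h2, hYa, hY], by linarith only [hYb, h1, mu0, xb0, Fc, nu0, tb0, tbo, Da, Dc, dbc, hC2, cA, cB, res, hmin]⟩
      linarith only [hY, mu0, xa0, xb0, Fc, cA, cB, res, hmin]

end Vale.Agent.P235.Tri
end
end
end

section

section

section

/-!
Treewidth 3: facts P4II (A5) for the generic law.
-/

namespace Vale.Agent.P235.Tri

theorem p4II_N {oa ob oc va vb vc ya yb yc mu xa xb xc nu ta tb tc : ℝ}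
    (M : MassF va vb vc ya yb yc mu xa xb xc) (N : MassD oa ob oc ya yb yc nu ta tb tc)
    (L : LawN va vb vc ya yb yc mu xa xb xc) :
    P4II ya yb yc ((va - xa) + (oa - ta)/32) ((vb - xb) + (ob - tb)/32)
        (mu + nu/32) (xa + ta/32) (xb + tb/32) (xc + tc/32) := by
  intro Y hY hYa hYb hYc h1 h2
  obtain ⟨mu0, xa0, xb0, xc0, xav, xbv, xcv, Fa, Fb, Fc⟩ := M
  obtain ⟨nu0, ta0, tb0, tc0, tao, tbo, tco, Da, Db, Dc, -, -, -, -⟩ := N
  have hla := L.la
  have hlb := L.lb
  have hzc := L.zc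
  have v1 : va ≤ (8/10^9) * Y := by
    rcases le_total va ya with h' | h'
    · rw [min_eq_left h'] at hla
      linarith only [h1, tao, hla]
    · rw [min_eq_right h'] at hla
      (clear * - hY hYa h1 tao hla; linarith)
  have v2 : vb ≤ (8/10^9) * Y := by
    rcases le_total vb yb with h' | h'
    · rw [min_eq_left h'] at hlb
      linarith only [h2, tbo, hlb]
    · rw [min_eq_right h'] at hlb
      linarith only [hY, hYb, h2, tbo, hlb]
  have m0 : 0 ≤ max 0 (vc - yc) := le_max_left _ _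
  have m1 : 0 ≤ min (min vc ya) (min yb ((ya + yb - va - vb)/2)) := by
    refine le_min (le_min (by linarith only [xc0, xcv]) (by linarith only [hY, hYa])) (le_min (by linarith only [hY, hYb]) (by linarith only [mu0, xc0, Fa, Fb]))
  have m2 : max va vb ≤ (8/10^9) * Y := max_le v1 v2
  clear hla hlb
  unfold C2
  rcases le_total (min (ya - va) (yb - vb)) (yc + vc) with h' | h'
  · rw [min_eq_left h'] at hzc
    rcases le_total (ya - va) (yb - vb) with h'' | h''
    · rw [min_eq_left h''] at hzc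
      left
      linarith
    · rw [min_eq_right h''] at hzc
      right
      linarith only [hY, hYb, h2, xav, nu0, tc0, tbo, Db, hzc, v1, v2, m0, m1, m2]
  · rw [min_eq_right h'] at hzc
    left
    linarith only [m2, m1, m0, v2, hzc, Dc, Db, tco, ta0, nu0, xcv, xbv, xc0, h2, h1, hYc, hYb, hY]

end Vale.Agent.P235.Tri
end
end
end

section

section

section

/-!
Treewidth 3: the generic law keeps the reserve condition on the faces (A6).
-/

namespace Vale.Agent.P235.Tri

theorem faceN {oa ob oc va vb vc ya yb yc mu xa xb xc : ℝ}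
    (G : Good oa ob oc va vb vc) (X : Ext oa ob oc ya yb yc)
    (M : MassF va vb vc ya yb yc mu xa xb xc) (L : LawN va vb vc ya yb yc mu xa xb xc)
    (hc : vc ≤ yc ∨ (ya + yb - oa - ob)/2 ≤ 0 ∨ (oa + ob + ya - yb)/2 ≤ 0 ∨
      (oa + ob + yb - ya)/2 ≤ 0 ∨
      (1/128) * (((ya + yb - oa - ob)/2) * ((oa + ob + ya - yb)/2) * ((oa + ob + yb - ya)/2)) ≤
        (ya + yc - va - vc) * ((oa + ob + ya - yb)/2 + (ya + yb - oa - ob)/2)
            * ((oa + ob + yb - ya)/2)
          + (yb + yc - vb - vc) * ((oa + ob + yb - ya)/2 + (ya + yb - oa - ob)/2)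
            * ((oa + ob + ya - yb)/2) ∨
      (1/1024) * (((ya + yb - oa - ob)/2) * ((oa + ob + ya - yb)/2) * ((oa + ob + yb - ya)/2)) ≤
        (oa + ob - va - vb) * (((ya + yb - oa - ob)/2) *
          ((oa + ob + ya - yb)/2 + (oa + ob + yb - ya)/2))) :
    Good ((ya + yb - oa - ob)/2) ((oa + ob + ya - yb)/2) ((oa + ob + yb - ya)/2)
      (mu + xc) (va - xa + xb) (vb - xb + xa) := by
  have hh0 : 0 ≤ (ya + yb - oa - ob)/2 := by linarith only [X.tab]
  have ha0 : 0 ≤ (oa + ob + ya - yb)/2 := by linarith only [X.yba]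
  have hb0 : 0 ≤ (oa + ob + yb - ya)/2 := by linarith only [X.yab]
  have hra := L.ra
  have hrb := L.rb
  have Fa := M.Fa
  have Fb := M.Fb
  have dab := G.dab
  have dbc := G.dbc
  have dca := G.dca
  have tab := X.tab
  have tbc := X.tbc
  have tca := X.tca
  refine ⟨hh0, ha0, hb0, by (clear * - M; linarith [M.mu0, M.xc0]), by linarith only [M.xav, M.xb0],
    by linarith only [M.xbv, M.xa0], by linarith only [Fa], by linarith only [dab], by linarith only [Fb], ?_⟩
  -- abbreviations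
  obtain ⟨h, hh⟩ : ∃ h, h = (ya + yb - oa - ob)/2 := ⟨_, rfl⟩
  obtain ⟨p, hp⟩ : ∃ p, p = (oa + ob + ya - yb)/2 := ⟨_, rfl⟩
  obtain ⟨q, hq⟩ : ∃ q, q = (oa + ob + yb - ya)/2 := ⟨_, rfl⟩
  obtain ⟨dza, hdza⟩ : ∃ s, s = ya - (mu + (va - xa) + xb + xc) := ⟨_, rfl⟩
  obtain ⟨dzb, hdzb⟩ : ∃ s, s = yb - (mu + (vb - xb) + xc + xa) := ⟨_, rfl⟩
  obtain ⟨D, hD⟩ : ∃ s, s = oa + ob - va - vb := ⟨_, rfl⟩
  rw [← hh, ← hp, ← hq] at hc ⊢
  rw [← hh] at hh0
  rw [← hp] at ha0
  rw [← hq] at hb0
  rw [← hdza] at hra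
  rw [← hdzb] at hrb
  rw [← hD] at hc
  have hdza0 : 0 ≤ dza := by linarith only [Fa, hdza]
  have hdzb0 : 0 ≤ dzb := by linarith only [Fb, hdzb]
  have hD0 : 0 ≤ D := by linarith only [dab, hD]
  have hpq0 : 0 ≤ p * q := mul_nonneg ha0 hb0
  have hhq0 : 0 ≤ q * h := mul_nonneg hb0 hh0
  have hhp0 : 0 ≤ h * p := mul_nonneg hh0 ha0
  have e1 : 2 * h + p + q - 2 * (mu + xc) - (va - xa + xb) - (vb - xb + xa) = dza + dzb := by
    rw [hh, hp, hq, hdza, hdzb]; ring
  have e2 : 2 * p + q + h - 2 * (va - xa + xb) - (vb - xb + xa) - (mu + xc) = D + dza := by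
    rw [hh, hp, hq, hdza, hD]; ring
  have e3 : 2 * q + h + p - 2 * (vb - xb + xa) - (mu + xc) - (va - xa + xb) = dzb + D := by
    rw [hh, hp, hq, hdzb, hD]; ring
  rw [e1, e2, e3]
  have n1 : 0 ≤ (dza + dzb) * (p * q) := by (clear * - hdza0 hdzb0 ha0 hb0; positivity)
  have n2 : 0 ≤ (D + dza) * (q * h) := by (clear * - hD0 hdza0 hb0 hh0; positivity)
  have n3 : 0 ≤ (dzb + D) * (h * p) := by (clear * - hdzb0 hD0 hh0 ha0; positivity)
  rcases hc with hc | hc | hc | hc | hc | hc
  · -- vc ≤ yc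
    have m0 : max 0 (vc - yc) = 0 := max_eq_left (by linarith only [hc])
    have m1 : min va ya + max 0 (va - ya) = va := by
      rcases le_total va ya with h' | h'
      · rw [min_eq_left h', max_eq_left (by linarith only [h'])]; ring
      · rw [min_eq_right h', max_eq_right (by linarith only [h'])]; ring
    have m2 : min vb yb + max 0 (vb - yb) = vb := by
      rcases le_total vb yb with h' | h'
      · rw [min_eq_left h', max_eq_left (by linarith only [h'])]; ring
      · rw [min_eq_right h', max_eq_right (by linarith only [h'])]; ring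
    rw [m0] at hra hrb
    have hs : h / 4 ≤ dza + dzb := by
      have e4 : ya + yb = 2 * h + p + q := by rw [hh, hp, hq]; ring
      have e5 : oa + ob = p + q := by rw [hp, hq]; ring
      linarith only [dab, hh, hra, hrb, m1, m2]
    have h4 : h * (p * q) / 4 ≤ (dza + dzb) * (p * q) := by
      have := mul_le_mul_of_nonneg_right hs hpq0
      linarith only [this]
    have h5 : 0 ≤ h * (p * q) := by (clear * - hh0 ha0 hb0; positivity)
    have h6 : h * p * q = h * (p * q) := by ring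
    rw [h6]; linarith only [n1, n2, n3, h4]
  · have h0 : h = 0 := le_antisymm hc hh0
    have h1 : h * p * q = 0 := by rw [h0]; ring
    linarith only [n1, n2, n3, h1]
  · have h0 : p = 0 := le_antisymm hc ha0
    have h1 : h * p * q = 0 := by rw [h0]; ring
    linarith only [n1, n2, n3, h1]
  · have h0 : q = 0 := le_antisymm hc hb0
    have h1 : h * p * q = 0 := by rw [h0]; ring
    linarith only [n1, n2, n3, h1]
  · -- reserve at c
    rcases le_total vc yc with hv | hv
    · -- same as the first case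
      have m0 : max 0 (vc - yc) = 0 := max_eq_left (by linarith only [hv])
      have m1 : min va ya + max 0 (va - ya) = va := by
        rcases le_total va ya with h' | h'
        · rw [min_eq_left h', max_eq_left (by linarith only [h'])]; ring
        · rw [min_eq_right h', max_eq_right (by linarith only [h'])]; ring
      have m2 : min vb yb + max 0 (vb - yb) = vb := by
        rcases le_total vb yb with h' | h'
        · rw [min_eq_left h', max_eq_left (by linarith only [h'])]; ring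
        · rw [min_eq_right h', max_eq_right (by linarith only [h'])]; ring
      rw [m0] at hra hrb
      have hs : h / 4 ≤ dza + dzb := by
        have e4 : ya + yb = 2 * h + p + q := by rw [hh, hp, hq]; ring
        have e5 : oa + ob = p + q := by rw [hp, hq]; ring
        linarith only [dab, hh, hra, hrb, m1, m2]
      have h4 : h * (p * q) / 4 ≤ (dza + dzb) * (p * q) := by
        have := mul_le_mul_of_nonneg_right hs hpq0
        linarith only [this]
      have h5 : 0 ≤ h * (p * q) := by (clear * - hh0 ha0 hb0; positivity)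
      have h6 : h * p * q = h * (p * q) := by ring
      rw [h6]; linarith only [n1, n2, n3, h4]
    · have m0 : max 0 (vc - yc) = vc - yc := max_eq_right (by linarith only [hv])
      have m1 : max 0 (va - ya) = 0 := max_eq_left (by linarith only [dca, tca, hv])
      have m2 : max 0 (vb - yb) = 0 := max_eq_left (by linarith only [dbc, tbc, hv])
      have m3 : min va ya ≤ va := min_le_left _ _
      have m4 : min vb yb ≤ vb := min_le_left _ _
      rw [m0, m2] at hra
      rw [m0, m1] at hrb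
      have ga : (1/8) * (ya + yc - va - vc) ≤ dza := by linarith only [hra, m3]
      have gb : (1/8) * (yb + yc - vb - vc) ≤ dzb := by linarith only [hrb, m4]
      have k1 : (1/8) * (ya + yc - va - vc) * ((p + h) * q) ≤ dza * ((p + h) * q) :=
        mul_le_mul_of_nonneg_right ga (by (clear * - ha0 hh0 hb0; positivity))
      have k2 : (1/8) * (yb + yc - vb - vc) * ((q + h) * p) ≤ dzb * ((q + h) * p) :=
        mul_le_mul_of_nonneg_right gb (by (clear * - hb0 hh0 ha0; positivity))
      have k3 : 0 ≤ D * (h * (p + q)) := by (clear * - hD0 hh0 ha0 hb0; positivity)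
      have e6 : (dza + dzb) * (p * q) + (D + dza) * (q * h) + (dzb + D) * (h * p)
          = dza * ((p + h) * q) + dzb * ((q + h) * p) + D * (h * (p + q)) := by ring
      rw [e6]
      have e7 : (ya + yc - va - vc) * (p + h) * q = (ya + yc - va - vc) * ((p + h) * q) := by ring
      have e8 : (yb + yc - vb - vc) * (q + h) * p = (yb + yc - vb - vc) * ((q + h) * p) := by ring
      rw [e7, e8] at hc
      linarith only [hc, k1, k2, k3]
  · -- reserve δab
    have k1 : 0 ≤ dza * ((p + h) * q) := by (clear * - hdza0 ha0 hh0 hb0; positivity)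
    have k2 : 0 ≤ dzb * ((q + h) * p) := by (clear * - hdzb0 hb0 hh0 ha0; positivity)
    have e6 : (dza + dzb) * (p * q) + (D + dza) * (q * h) + (dzb + D) * (h * p)
        = dza * ((p + h) * q) + dzb * ((q + h) * p) + D * (h * (p + q)) := by ring
    rw [e6]
    linarith only [hc, k1, k2]

end Vale.Agent.P235.Tri
end
end
end

section

section

section

/-!
Treewidth 3: facts of the exceptional law, drop `c` (B3).
-/

namespace Vale.Agent.P235.Tri

theorem lawC_swap3 {oa ob oc va vb vc ya yb yc mu xa xb xc : ℝ}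
    (L : LawC oa ob oc va vb vc ya yb yc mu xa xb xc) :
    LawC ob oa oc vb va vc yb ya yc mu xb xa xc := by
  refine ⟨L.hvc, ?_, ?_, ?_, ?_, ?_, ?_, ?_, ?_, ?_, L.hmu, ?_, ?_, ?_⟩
  · linarith only [L.oz0]
  · linarith only [L.ob0]
  · linarith [L.oa0]
  · linarith only [L.A3]
  · linarith [L.A4]
  · linarith [L.A1]
  · linarith [L.A2]
  · linarith [L.B2]
  · linarith only [L.B1]
  · rw [L.hxa, add_comm ob oa]
  · rw [L.hxb, add_comm ob oa]
  · linarith only [L.hxc]

/-- numeric facts of the exceptional law -/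
structure CFacts3 (oa ob oc va vb vc ya yb yc xa xb xc : ℝ) : Prop where
  yc0 : 0 ≤ yc
  oc1 : yc + (127/128) * ((ya + yb - oa - ob)/2) ≤ oc
  e1 : 0 ≤ ya + yc - oa - oc
  e2 : 0 ≤ yb + yc - ob - oc
  e1y : ya + yc - oa - oc ≤ 2 * yc
  e2y : yb + yc - ob - oc ≤ 2 * yc
  xb1 : (ya + yc - oa - oc)/8 ≤ xb
  xa1 : (yb + yc - ob - oc)/8 ≤ xa
  xb2 : xb ≤ (ya + yc - oa - oc)/8 + (oa + oc - va - vc)/8
  xa2 : xa ≤ (yb + yc - ob - oc)/8 + (ob + oc - vb - vc)/8
  xb3 : xb ≤ (ya + yc - oa - oc)/8 + yc/800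
  xa3 : xa ≤ (yb + yc - ob - oc)/8 + yc/800
  nb : (oa + oc - va - vc) * yc * ((oa + ob + ya - yb)/2) ≤ 8 * xb * oc * ya
  na : (ob + oc - vb - vc) * yc * ((oa + ob + yb - ya)/2) ≤ 8 * xa * oc * yb

theorem lawC_half {oa oc yc ya p D e xb : ℝ} (hyc : 0 ≤ yc) (hoc : 0 < oc) (hya : 0 < ya)
    (hp : 0 < p) (hpy : p ≤ ya) (hyo : yc ≤ oc) (hD : 0 ≤ D) (hDo : 100 * D ≤ oc)
    (he : 0 ≤ e) (hx : xb = e/8 + (1/8) * D * (yc/oc) * (p/ya)) :
    e/8 ≤ xb ∧ xb ≤ e/8 + D/8 ∧ xb ≤ e/8 + yc/800 ∧ D * yc * p ≤ 8 * xb * oc * ya := by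
  have h1 : 0 ≤ yc/oc := by (clear * - hyc hoc; (clear * - hyc hoc; positivity))
  have h2 : yc/oc ≤ 1 := (div_le_one hoc).mpr hyo
  have h3 : 0 ≤ p/ya := by positivity
  have h4 : p/ya ≤ 1 := (div_le_one hya).mpr hpy
  have h5 : D * (yc/oc) ≤ yc/100 := by
    rw [mul_div_assoc', div_le_div_iff₀ hoc (by norm_num)]
    (clear * - hyc hDo; nlinarith)
  have h6 : 0 ≤ D * (yc/oc) := mul_nonneg hD h1
  have h7 : D * (yc/oc) ≤ D := by nlinarith only [hD, h2]
  have h8 : D * (yc/oc) * (p/ya) ≤ D * (yc/oc) := by nlinarith only [h4, h6]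
  have h9 : 0 ≤ D * (yc/oc) * (p/ya) := mul_nonneg h6 h3
  have h10 : xb = e/8 + (1/8) * (D * (yc/oc) * (p/ya)) := by rw [hx]; ring
  refine ⟨by linarith only [hx, h9], by linarith only [hx, h7, h8], by linarith only [h8, h5, hx], ?_⟩
  have h11 : D * (yc/oc) * (p/ya) * (oc * ya) = D * yc * p := by
    (clear * - hoc hya hp; (clear * - hoc hya hp; field_simp))
  have h12 : 8 * xb * oc * ya = e * (oc * ya) + D * (yc/oc) * (p/ya) * (oc * ya) := by
    rw [h10]; ring
  rw [h12, h11]
  have : 0 ≤ e * (oc * ya) := by (clear * - he hoc hya; (clear * - he hoc hya; positivity))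
  linarith only [this]

theorem lawC_facts {oa ob oc va vb vc ya yb yc mu xa xb xc : ℝ}
    (G : Good oa ob oc va vb vc) (X : Ext oa ob oc ya yb yc)
    (L : LawC oa ob oc va vb vc ya yb yc mu xa xb xc) :
    CFacts3 oa ob oc va vb vc ya yb yc xa xb xc := by
  have g1 := G.dab
  have g2 := G.dbc
  have g3 := G.dca
  have x1 := X.tab
  have x2 := X.tbc
  have x3 := X.tca
  have x4 := X.yac
  have x5 := X.ybc
  have x6 := X.ycb
  have x7 := X.yca
  have l1 := L.A1
  have l3 := L.A3
  have l5 := L.oz0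
  have l6 := L.oa0
  have l7 := L.ob0
  have yc0 : 0 ≤ yc := by linarith only [x2, x5]
  have oc1 : yc + (127/128) * ((ya + yb - oa - ob)/2) ≤ oc := by linarith only [g2, g3, l1, l3]
  have oc0 : 0 < oc := by linarith only [g3, x5, l1, l5]
  have ya0 : 0 < ya := by linarith only [l5, l6]
  have yb0 : 0 < yb := by linarith only [l5, l7]
  obtain ⟨b1, b2, b3, b4⟩ := lawC_half (oa := oa) (oc := oc) (yc := yc) (ya := ya)
    (p := (oa + ob + ya - yb)/2) (D := oa + oc - va - vc) (e := ya + yc - oa - oc) (xb := xb)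
    yc0 oc0 ya0 l6 (by linarith only [l5]) (by linarith only [l5, l3, l1, g3, g2]) (by linarith only [g3]) (by linarith only [oc0, l3, l1, x4, x3, g2]) (by linarith only [x3]) L.hxb
  obtain ⟨a1, a2, a3, a4⟩ := lawC_half (oa := ob) (oc := oc) (yc := yc) (ya := yb)
    (p := (oa + ob + yb - ya)/2) (D := ob + oc - vb - vc) (e := yb + yc - ob - oc) (xb := xa)
    yc0 oc0 yb0 l7 (by linarith only [l5]) (by linarith only [g2, g3, l1, l3, l5]) (by linarith only [g2]) (by linarith only [x2, x4, l3, oc0]) (by linarith only [x2]) L.hxa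
  exact ⟨yc0, oc1, by linarith only [x3], by linarith only [x2], by linarith only [x4], by linarith only [x5], b1, a1, b2, a2, b3, a3,
    b4, a4⟩

theorem harm_lo {x y m : ℝ} (hm0 : 0 ≤ m) (hx : m ≤ x) (hy : m ≤ y) : m / 2 ≤ harm x y := by
  have h := harm_ge (hm0.trans hx) (hm0.trans hy)
  have : m ≤ min x y := le_min hx hy
  linarith only [this, h]

/-- masses bounds for the exceptional law -/
theorem lawC_masses {oa ob oc va vb vc ya yb yc mu xa xb xc : ℝ}
    (G : Good oa ob oc va vb vc) (X : Ext oa ob oc ya yb yc)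
    (L : LawC oa ob oc va vb vc ya yb yc mu xa xb xc) :
    xa ≤ va / 2 ∧ xb ≤ vb / 2 ∧ xa ≤ vb / 2 ∧ xb ≤ va / 2 := by
  have F := lawC_facts G X L
  obtain ⟨yc0, oc1, e1, e2, e1y, e2y, xb1, xa1, xb2, xa2, xb3, xa3, nb, na⟩ := F
  have g1 := G.dab
  have g2 := G.dbc
  have g3 := G.dca
  have l1 := L.A1
  have l2 := L.A2
  have l3 := L.A3
  have l4 := L.A4
  have l5 := L.B1
  have l6 := L.B2
  have l7 := L.oz0
  have l8 := L.oa0
  have l9 := L.ob0
  refine ⟨by linarith only [l8, l5, l2, xa2, xa1, e2], by linarith only [e1, xb1, xb2, l4, l6, l9], by linarith only [e1, xb1, xb2, xa2, l4, l6, l9], by linarith only [e2, xa1, xb2, xa2, l2, l5, l8]⟩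

theorem p1_C {oa ob oc va vb vc ya yb yc mu xa xb xc nu ta tb tc Xa Xb : ℝ}
    (G : Good oa ob oc va vb vc) (X : Ext oa ob oc ya yb yc)
    (M : MassF va vb vc ya yb yc mu xa xb xc) (N : MassD oa ob oc ya yb yc nu ta tb tc)
    (L : LawC oa ob oc va vb vc ya yb yc mu xa xb xc) :
    P1 oa ob oc va vb vc ya yb yc ((vc - xc) + (oc - tc)/32) (mu + nu/32) Xa Xb
      (xc + tc/32) := by
  left
  have F := lawC_facts G X L
  have h1 : 0 ≤ harm (mu + nu/32) (xc + tc/32) :=
    harm_nonneg (by linarith only [M.mu0, N.nu0]) (by (clear * - M N; linarith [M.xc0, N.tc0]))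
  have h2 := min_le_left yc (vc + oc/32)
  have h3 := L.hxc
  have h4 := N.tco
  have h5 := F.xa3
  have h6 := F.xb3
  have h7 := F.e1y
  have h8 := F.e2y
  have h9 := F.yc0
  linarith only [h1, h2, h3, h4, h5, h6, h7, h8, h9]

theorem p2a_C {oa ob oc va vb vc ya yb yc mu xa xb xc nu ta tb tc : ℝ}
    (G : Good oa ob oc va vb vc) (X : Ext oa ob oc ya yb yc)
    (M : MassF va vb vc ya yb yc mu xa xb xc) (N : MassD oa ob oc ya yb yc nu ta tb tc)
    (L : LawC oa ob oc va vb vc ya yb yc mu xa xb xc) :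
    P2 oa ob oc va vb vc ya yb yc ((va - xa) + (oa - ta)/32) ((vb - xb) + (ob - tb)/32)
        (xa + ta/32) (xb + tb/32) (mu + xc) (va - xa + xb) (vb - xb + xa) := by
  right
  have F := lawC_facts G X L
  obtain ⟨yc0, oc1, e1, e2, e1y, e2y, xb1, xa1, xb2, xa2, xb3, xa3, nb, na⟩ := F
  obtain ⟨m1, m2, m3, m4⟩ := lawC_masses G X L
  have g1 := G.dab
  have g2 := G.dbc
  have g3 := G.dca
  have l1 := L.A1
  have l2 := L.A2
  have l3 := L.A3
  have l4 := L.A4
  have l5 := L.B1
  have l6 := L.B2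
  have l7 := L.oz0
  have l8 := L.oa0
  have l9 := L.ob0
  have l10 := L.hmu
  have l11 := L.hxc
  have n1 := N.tao
  have n2 := N.tbo
  have n3 := N.ta0
  have n4 := N.tb0
  have hxb0 : 0 ≤ xb := M.xb0
  have hxa0 : 0 ≤ xa := M.xa0
  -- harmonic bounds
  have H1 : xb / 2 ≤ harm ((va - xa) + (oa - ta)/32) (xb + tb/32) :=
    harm_lo hxb0 (by linarith only [n1, m4, m1]) (by linarith only [n4])
  have H2 : xa / 2 ≤ harm ((vb - xb) + (ob - tb)/32) (xa + ta/32) :=
    harm_lo hxa0 (by linarith only [m2, m3, n2]) (by linarith only [n3])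
  refine ⟨?_, ?_, ?_, ?_, ?_, ?_, ?_, ?_, ?_⟩
  · linarith only [e1, e2, xb1, xa1, l10, l11, H1, H2]
  · linarith only [n1, l11, l10, l8, l5, l2, xa2, xb2, xa1, e2]
  · linarith only [e1, e2, xb1, xa1, xb2, l4, l6, l9, l10, l11, n2]
  · linarith only [e1, xb1, xb2, g1, l3, l7]
  · linarith only [l7, l3, e2]
  · linarith only [e2, l4, l9]
  · have oc0 : 0 < oc := by linarith only [yc0, oc1, l7]
    have yb0 : 0 < yb := by linarith only [l7, l9]
    have h1 : 8 * xa * oc * yb ≤ 10^5 * (harm ((va - xa) + (oa - ta)/32) (xb + tb/32)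
        + harm ((vb - xb) + (ob - tb)/32) (xa + ta/32)) * oc * yb := by
      have h2 : 8 * xa ≤ 10^5 * (harm ((va - xa) + (oa - ta)/32) (xb + tb/32)
        + harm ((vb - xb) + (ob - tb)/32) (xa + ta/32)) := by linarith only [e1, e2, xb1, xa1, H1, H2]
      exact mul_le_mul_of_nonneg_right (mul_le_mul_of_nonneg_right h2 oc0.le) yb0.le
    exact na.trans h1
  · linarith only [e1, e2]
  · linarith only [e1, e2, xb1, xa1, g1, l1, l3, l7, l10, l11]

theorem p2b_C {oa ob oc va vb vc ya yb yc mu xa xb xc nu ta tb tc : ℝ}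
    (G : Good oa ob oc va vb vc) (X : Ext oa ob oc ya yb yc)
    (M : MassF va vb vc ya yb yc mu xa xb xc) (N : MassD oa ob oc ya yb yc nu ta tb tc)
    (L : LawC oa ob oc va vb vc ya yb yc mu xa xb xc) :
    P2 ob oa oc vb va vc yb ya yc ((vb - xb) + (ob - tb)/32) ((va - xa) + (oa - ta)/32)
        (xb + tb/32) (xa + ta/32) (mu + xc) (vb - xb + xa) (va - xa + xb) :=
  p2a_C G.swap X.swap M.swap N.swap (lawC_swap3 L)

theorem p4II_C {oa ob oc va vb vc ya yb yc mu xa xb xc nu ta tb tc : ℝ}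
    (G : Good oa ob oc va vb vc) (X : Ext oa ob oc ya yb yc)
    (M : MassF va vb vc ya yb yc mu xa xb xc) (N : MassD oa ob oc ya yb yc nu ta tb tc)
    (L : LawC oa ob oc va vb vc ya yb yc mu xa xb xc) :
    P4II ya yb yc ((va - xa) + (oa - ta)/32) ((vb - xb) + (ob - tb)/32)
        (mu + nu/32) (xa + ta/32) (xb + tb/32) (xc + tc/32) := by
  intro Y hY h1 h2 h3 h4 h5
  have F := lawC_facts G X L
  obtain ⟨yc0, oc1, e1, e2, e1y, e2y, xb1, xa1, xb2, xa2, xb3, xa3, nb, na⟩ := F
  obtain ⟨m1, m2, m3, m4⟩ := lawC_masses G X L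
  have g1 := G.dab
  have g2 := G.dbc
  have g3 := G.dca
  have l1 := L.A1
  have l2 := L.A2
  have l3 := L.A3
  have l4 := L.A4
  have l5 := L.B1
  have l6 := L.B2
  have l7 := L.oz0
  have l8 := L.oa0
  have l9 := L.ob0
  have l10 := L.hmu
  have l11 := L.hxc
  have n1 := N.tao
  have n2 := N.tbo
  have n3 := N.ta0
  have n4 := N.tb0
  have n5 := N.Da
  have n6 := N.Db
  have n7 := N.nu0
  left
  clear nb na
  linarith only [hY, h2, h4, h5, e2, xb1, xb2, xa2, l2, l6, l8, l10, l11, n1, n2, n6]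

/-- if a leg of the face is much smaller than the `z`-leg then `C2` -/
theorem c2_C {oa ob oc va vb vc ya yb yc mu xa xb xc nu ta tb tc : ℝ}
    (G : Good oa ob oc va vb vc) (X : Ext oa ob oc ya yb yc)
    (N : MassD oa ob oc ya yb yc nu ta tb tc)
    (L : LawC oa ob oc va vb vc ya yb yc mu xa xb xc)
    (h : 4 * ((oa + ob + ya - yb)/2) ≤ (ya + yb - oa - ob)/2) :
    3 * (((va - xa) + (oa - ta)/32) + (xb + tb/32)) ≤ (mu + nu/32) + (xc + tc/32) := by
  have F := lawC_facts G X L
  obtain ⟨yc0, oc1, e1, e2, e1y, e2y, xb1, xa1, xb2, xa2, xb3, xa3, nb, na⟩ := F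
  have g1 := G.dab
  have g2 := G.dbc
  have g3 := G.dca
  have l1 := L.A1
  have l2 := L.A2
  have l3 := L.A3
  have l4 := L.A4
  have l5 := L.B1
  have l6 := L.B2
  have l7 := L.oz0
  have l8 := L.oa0
  have l9 := L.ob0
  have l10 := L.hmu
  have l11 := L.hxc
  have n5 := N.Da
  have n6 := N.Db
  clear nb na
  linarith only [n6, n5, l11, l10, l8, l3, g1, xb2, xa1, xb1, e2, e1, h]

theorem p4I_C {oa ob oc va vb vc ya yb yc mu xa xb xc nu ta tb tc : ℝ}
    (G : Good oa ob oc va vb vc) (X : Ext oa ob oc ya yb yc)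
    (M : MassF va vb vc ya yb yc mu xa xb xc) (N : MassD oa ob oc ya yb yc nu ta tb tc)
    (L : LawC oa ob oc va vb vc ya yb yc mu xa xb xc) :
    P4I oa ob oc va vb vc ya yb yc ((va - xa) + (oa - ta)/32) ((vb - xb) + (ob - tb)/32)
        (mu + nu/32) (xa + ta/32) (xb + tb/32) (xc + tc/32) (mu + xc) (va - xa + xb)
        (vb - xb + xa) := by
  intro Y hY hYa hYb hYc h1 h2
  by_cases hc1 : 4 * ((oa + ob + ya - yb)/2) ≤ (ya + yb - oa - ob)/2
  · exact Or.inl (Or.inl (c2_C G X N L hc1))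
  by_cases hc2 : 4 * ((oa + ob + yb - ya)/2) ≤ (ya + yb - oa - ob)/2
  · left; right
    exact c2_C G.swap X.swap N.swap (lawC_swap3 L) (by linarith only [hc2])
  right; right
  push Not at hc1 hc2
  have F := lawC_facts G X L
  obtain ⟨yc0, oc1, e1, e2, e1y, e2y, xb1, xa1, xb2, xa2, xb3, xa3, nb, na⟩ := F
  have g1 := G.dab
  have g2 := G.dbc
  have g3 := G.dca
  have l7 := L.oz0
  have l8 := L.oa0
  have l9 := L.ob0
  have l10 := L.hmu
  have l11 := L.hxc
  have n3 := N.ta0
  have n4 := N.tb0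
  have oc0 : 0 < oc := by linarith only [e2, e1, oc1, hYc, hY]
  have ya0 : 0 < ya := by linarith only [hY, hYa]
  have yb0 : 0 < yb := by linarith only [hY, hYb]
  have hxb : 10^9 * xb ≤ Y := by linarith only [h2, n4]
  have hxa : 10^9 * xa ≤ Y := by linarith only [h1, n3]
  -- δac is tiny
  have key : ∀ D x p y, 0 ≤ D → 0 < p → 0 < y → y ≤ 5 * p → 10^9 * x ≤ Y → 0 ≤ x →
      D * yc * p ≤ 8 * x * oc * y → D ≤ (1/10^7) * ((ya + yb - oa - ob)/2 + Y) := by
    intro D x p y hD hp hy hyp hx hx0 hk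
    have k1 : x * y ≤ (Y/10^9) * (5 * p) := by
      apply mul_le_mul (by linarith only [hx]) hyp hy.le (by (clear * - hY; positivity))
    have k2 : 8 * x * oc * y ≤ 8 * ((Y/10^9) * (5 * p)) * oc := by
      have := mul_le_mul_of_nonneg_right k1 (show 0 ≤ 8 * oc by (clear * - oc0; positivity))
      linarith only [this]
    have k3 : D * yc * p ≤ (8 * (Y/10^9) * 5 * oc) * p := by linarith only [hk, k2]
    have k4 : D * yc ≤ 8 * (Y/10^9) * 5 * oc := le_of_mul_le_mul_right k3 hp
    have k5 : oc ≤ (ya + yb - oa - ob)/2 + yc := by linarith only [e1, e2]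
    have k6 : Y * oc ≤ Y * ((ya + yb - oa - ob)/2 + yc) := mul_le_mul_of_nonneg_left k5 hY.le
    have k7 : Y * ((ya + yb - oa - ob)/2) ≤ yc * ((ya + yb - oa - ob)/2) :=
      mul_le_mul_of_nonneg_right hYc l7.le
    have k8 : D * yc ≤ ((1/10^7) * ((ya + yb - oa - ob)/2 + Y)) * yc := by
      have k9 : 0 ≤ yc * ((ya + yb - oa - ob)/2 + Y) := by
        have : 0 ≤ (ya + yb - oa - ob)/2 + Y := by linarith only [e2, e1, oc1, hY]
        exact mul_nonneg yc0 this
      linarith only [k4, k6, k7, k9]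
    exact le_of_mul_le_mul_right k8 (lt_of_lt_of_le hY hYc)
  have d1 := key _ xb _ ya (show 0 ≤ oa + oc - va - vc by linarith only [xb1, xb2]) l8 ya0 (by linarith only [hc1]) hxb
    M.xb0 nb
  have d2 := key _ xa _ yb (show 0 ≤ ob + oc - vb - vc by linarith only [xa1, xa2]) l9 yb0 (by linarith only [hc2]) hxa
    M.xa0 na
  clear key nb na
  have oaY : ((ya + yb - oa - ob)/2 + Y)/10 ≤ oa := by linarith only [l8, e2, oc1, hc1, hYa]
  have obY : ((ya + yb - oa - ob)/2 + Y)/10 ≤ ob := by linarith only [hY, hYb, h1, hc2, e1, xa1, n3]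
  have hE := G.E
  have res := p4I_reserve (oa := oa) (ob := ob) (oc := oc) (D := oa + ob - va - vb)
    (Dac := oa + oc - va - vc) (Dbc := ob + oc - vb - vc)
    (e := (1/10^7) * ((ya + yb - oa - ob)/2 + Y))
    (by linarith only [hc1, oc1, e2, l8]) (by linarith only [hY, hYb, h1, hc2, e1, xa1, n3]) (by linarith only [hY, hYc, oc1, e1, e2]) (by linarith only [g1]) d1 d2 (by linarith only [hY, oc1, e1, e2])
    (by linarith only [hY, hYc, oc1, e1, e2]) (by
      have e1 : oa + ob - va - vb + (oa + oc - va - vc) = 2*oa + ob + oc - 2*va - vb - vc := by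
        ring
      have e2 : ob + oc - vb - vc + (oa + ob - va - vb) = 2*ob + oc + oa - 2*vb - vc - va := by
        ring
      have e3 : oa + oc - va - vc + (ob + oc - vb - vc) = 2*oc + oa + ob - 2*vc - va - vb := by
        ring
      rw [e1, e2, e3]
      exact hE)
  have hmin : ((ya + yb - oa - ob)/2 + Y)/10 ≤ min oa ob := le_min oaY obY
  clear hE
  refine ⟨?_, by linarith only [hc1, oc1, e2, l8], by linarith only [hY, hYb, h1, hc2, e1, xa1, n3]⟩
  linarith only [hY, h1, h2, oc1, xb1, xa1, l10, l11, n3, n4, d1, d2, res, hmin]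

end Vale.Agent.P235.Tri
end
end
end

section

section

section

namespace Vale.Agent.P235.Tri

variable {oa ob oc va vb vc ya yb yc oz oa' ob' vz va' vb' ma mb mc mz Xa Xb Xc
    pa pb pc qa qb qz Y : ℝ}

theorem le_of_sq_le {x y : ℝ} (hy : 0 ≤ y) (h : x ^ 2 ≤ y ^ 2) : x ≤ y := by
  by_contra hc
  push Not at hc
  linarith only [mul_pos (sub_pos.2 hc) (sub_pos.2 hc), mul_nonneg (sub_nonneg.2 hy) (le_of_lt (sub_pos.2 hc)), h]

/-- generic case: `pc` is tiny or `wc` is tiny. -/
theorem gen_small {W al : ℝ} (hY : 0 < Y) (hYc : Y ≤ yc)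
    (hmin : min yc W ≤ 10^6 * al) (hal : al * pc ^ 2 ≤ (1/10^70) * Y) :
    W * pc ^ 2 ≤ (1/10^64) * Y ∨ pc ^ 2 ≤ 1/10^64 := by
  have hsq : 0 ≤ pc ^ 2 := sq_nonneg _
  rcases le_total yc W with hc | hc
  · right
    rw [min_eq_left hc] at hmin
    have h1 : Y * pc ^ 2 ≤ (10^6 * al) * pc ^ 2 :=
      mul_le_mul_of_nonneg_right (hYc.trans hmin) hsq
    have h2 : Y * pc ^ 2 ≤ (1/10^64) * Y := by linarith
    by_contra hcon
    push Not at hcon
    nlinarith only [hal, h1, hY, hcon]
  · left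
    rw [min_eq_right hc] at hmin
    have h1 : W * pc ^ 2 ≤ (10^6 * al) * pc ^ 2 := mul_le_mul_of_nonneg_right hmin hsq
    linarith only [hal, h1]

/-- (Z) in the generic case -/
theorem Zgen (h : Ctx oa ob oc va vb vc ya yb yc oz oa' ob' vz va' vb' ma mb mc mz Xa Xb Xc
      pa pb pc qa qb qz) (hY : 0 < Y) (hYc : Y ≤ yc)
    (hN : 10^70 * Nn ma mb mc mz Xa Xb Xc pa pb pc ≤ Y)
    (hmin : min yc (mc + Xc) ≤ 10^6 * (mc + harm mz Xc)) :
    (mz + Xc) * qz ≤ (1/10^10) * ((mz + Xc) + Y) := by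
  have hal := Nn_al h
  have hg := gen_small (pc := pc) hY hYc hmin (by linarith)
  rw [h.ez]
  have hmz := h.mz0
  have hXc := h.Xc0
  have hpc := h.pc0
  rcases hg with hg | hg
  · apply le_of_sq_le (by (clear * - hmz hXc hY; positivity))
    have h1 : Xc * pc ^ 2 ≤ (1/10^64) * Y := by
      have : Xc * pc ^ 2 ≤ (mc + Xc) * pc ^ 2 :=
        mul_le_mul_of_nonneg_right (by linarith only [h.mc0]) (sq_nonneg _)
      linarith only [hg, this]
    have h2 : (Xc * pc) ^ 2 ≤ Xc * ((1/10^64) * Y) := by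
      have : (Xc * pc) ^ 2 = Xc * (Xc * pc ^ 2) := by ring
      rw [this]
      exact mul_le_mul_of_nonneg_left h1 hXc
    have h3 : Xc * ((1/10^64) * Y) ≤ (mz + Xc) * ((1/10^64) * Y) :=
      mul_le_mul_of_nonneg_right (by linarith only [hmz]) (by positivity)
    nlinarith only [h2, h3, sq_nonneg Y]
  · have h1 : pc ≤ 1/10^10 := by
      apply le_of_sq_le (by norm_num)
      refine hg.trans (by norm_num)
    have h2 : Xc * pc ≤ Xc * (1/10^10) := mul_le_mul_of_nonneg_left h1 hXc
    linarith only [hY, hmz, h2]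

/-- the E-term of a kept vertex is negligible in regime B -/
theorem Epay (h : Ctx oa ob oc va vb vc ya yb yc oz oa' ob' vz va' vb' ma mb mc mz Xa Xb Xc
      pa pb pc qa qb qz) (hY : 0 < Y) (hYc : Y ≤ yc)
    (hP1 : P1 oa ob oc va vb vc ya yb yc mc mz Xa Xb Xc)
    (hN : 10^70 * Nn ma mb mc mz Xa Xb Xc pa pb pc ≤ Y) :
    Et (ma + Xa) (mb + Xb) (mc + Xc) pb pc ≤ (1/10^50) * ((mz + Xc) + Y) := by
  have hal := Nn_al h
  have hg := wgap h hP1
  have hh0 := harm_nonneg h.mz0 h.Xc0
  have hal0 : 0 ≤ mc + harm mz Xc := add_nonneg h.mc0 hh0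
  have hmc : mc ≤ mc + harm mz Xc := by linarith only [hh0]
  obtain ⟨al, hald⟩ : ∃ al, al = mc + harm mz Xc := ⟨_, rfl⟩
  rw [← hald] at hg hal0 hal hmc
  have hmz := h.mz0
  have hXc := h.Xc0
  have hsq : 0 ≤ pc ^ 2 := sq_nonneg _
  have hphi : phi pb * phi pc ≤ 4 * pc ^ 2 := by
    have h1 := phi_le_one h.pb0
    have h2 := phi_nonneg pc
    have h3 := phi_le_sq h.pc0
    linarith only [mul_nonneg (sub_nonneg.2 h1) (sub_nonneg.2 h2), h3]
  have hE0 : 0 ≤ max 0 (min (mb + Xb) (mc + Xc) - (ma + Xa)) := le_max_left _ _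
  have key : ∀ W : ℝ, max 0 (min (mb + Xb) (mc + Xc) - (ma + Xa)) ≤ W →
      Et (ma + Xa) (mb + Xb) (mc + Xc) pb pc ≤ 4 * (W * pc ^ 2) := by
    intro W hW
    unfold Et
    have h1 : max 0 (min (mb + Xb) (mc + Xc) - (ma + Xa)) * (phi pb * phi pc)
        ≤ W * (4 * pc ^ 2) :=
      mul_le_mul hW hphi (mul_nonneg (phi_nonneg _) (phi_nonneg _)) (hE0.trans hW)
    linarith only [h1]
  have hWc : max 0 (min (mb + Xb) (mc + Xc) - (ma + Xa)) ≤ mc + Xc := by
    apply max_le (by linarith only [hXc, h.mc0])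
    have := min_le_right (mb + Xb) (mc + Xc)
    linarith only [this, h.ma0, h.Xa0]
  rcases hg with hg | ⟨hg, -⟩
  · rcases gen_small (pc := pc) hY hYc hg (by linarith only [hN, hal]) with h1 | h1
    · have := key _ hWc
      linarith only [hY, hmz, hXc, h1, this]
    · have h2 := key _ hWc
      have h3 : mc * pc ^ 2 ≤ al * pc ^ 2 := mul_le_mul_of_nonneg_right hmc hsq
      have h4 : Xc * pc ^ 2 ≤ Xc * (1/10^64) := mul_le_mul_of_nonneg_left h1 hXc
      linarith only [hY, hN, hal, hmz, hXc, h2, h3, h4]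
  · have hW : max 0 (min (mb + Xb) (mc + Xc) - (ma + Xa)) ≤ 13 * al := by
      apply max_le (by (clear * - hal0; positivity))
      have := min_le_right (mb + Xb) (mc + Xc)
      linarith only [hg, this]
    have h2 := key _ hW
    linarith only [h2, hXc, hmz, hal, hN, hY]

/-- the bound for `δbc` in the case NcF with `|u|` not tiny -/
theorem nc_small {D be : ℝ} (hY : 0 < Y) (hYc : Y ≤ yc) (hoz : 0 ≤ oz)
    (hbe : be ≤ (1/10^52) * Y)
    (hoc : 0 ≤ oc) (hyb : oz + ob' = yb)
    (n6 : 64 * D ≤ ob') (n7 : D * yc * ob' ≤ 10^5 * be * oc * yb) (n8 : oc ≤ oz + yc) :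
    D ≤ (1/10^20) * (oz + Y) := by
  have hyc : 0 < yc := lt_of_lt_of_le hY hYc
  rcases le_or_gt D 0 with hD | hD
  · have : 0 ≤ (1/10^20) * (oz + Y) := by (clear * - hoz hY; (clear * - hoz hY; positivity))
    linarith only [hY, hoz, hD]
  have hyb0 : 0 ≤ yb := by linarith only [hoz, hyb, n6, hD]
  have hob0 : 0 < ob' := by linarith only [n6, hD]
  -- D yc ob' ≤ 1e-47 Y oc yb ≤ 1e-47 yc (oz+Y) yb
  have h1 : 10^5 * be * oc * yb ≤ (1/10^47) * Y * oc * yb := by
    have e1 : 10^5 * be ≤ (1/10^47) * Y := by linarith only [hbe]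
    have e2 := mul_le_mul_of_nonneg_right e1 (mul_nonneg hoc hyb0)
    (clear * - e2; linarith)
  have h2 : Y * oc ≤ yc * (oz + Y) := by
    have e1 : Y * oc ≤ Y * (oz + yc) := mul_le_mul_of_nonneg_left n8 hY.le
    have e2 : Y * oz ≤ yc * oz := mul_le_mul_of_nonneg_right hYc hoz
    linarith only [e1, e2]
  have h3 : (1/10^47) * Y * oc * yb ≤ (1/10^47) * (yc * (oz + Y)) * yb := by
    have e1 := mul_le_mul_of_nonneg_right h2 (mul_nonneg (by norm_num : (0:ℝ) ≤ 1/10^47) hyb0)
    linarith only [e1]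
  have h4 : D * ob' ≤ (1/10^47) * (oz + Y) * yb := by
    have e1 : yc * (D * ob') ≤ yc * ((1/10^47) * (oz + Y) * yb) := by linarith only [n7, h1, h3]
    exact le_of_mul_le_mul_left e1 hyc
  rcases le_total oz (10^20 * ob') with hc | hc
  · have h5 : (1/10^47) * (oz + Y) * yb ≤ (1/10^47) * (oz + Y) * (2 * 10^20 * ob') := by
      apply mul_le_mul_of_nonneg_left _ (by (clear * - hoz hY; positivity))
      linarith only [hyb, n6, hD, hc]
    have h6 : D * ob' ≤ ((1/10^20) * (oz + Y)) * ob' := by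
      have : 0 ≤ (oz + Y) * ob' := by (clear * - hoz hY hob0; positivity)
      linarith only [h4, h5, this]
    exact le_of_mul_le_mul_right h6 hob0
  · linarith only [hY, n6, hD, hc]

/-- the G-term of a kept vertex is small in regime B -/
theorem Gpay (h : Ctx oa ob oc va vb vc ya yb yc oz oa' ob' vz va' vb' ma mb mc mz Xa Xb Xc
      pa pb pc qa qb qz) (hY : 0 < Y) (hYc : Y ≤ yc)
    (hP2 : P2 oa ob oc va vb vc ya yb yc ma mb Xa Xb vz va' vb')
    (hN : 10^70 * Nn ma mb mc mz Xa Xb Xc pa pb pc ≤ Y) :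
    10^18 * Gt ((ob + oc - vb - vc) - 4 * ((oa + ob - va - vb) + (oa + oc - va - vc)))
        (1 - pa - pb - pc) ≤ (1/10) * ((mz + Xc) + (ma + Xb) + Y) := by
  have hbu := Nn_be h
  have hbe0 : 0 ≤ harm ma Xb + harm mb Xa :=
    add_nonneg (harm_nonneg h.ma0 h.Xb0) (harm_nonneg h.mb0 h.Xa0)
  unfold P2 at hP2
  obtain ⟨be, hbe⟩ : ∃ be, be = harm ma Xb + harm mb Xa := ⟨_, rfl⟩
  obtain ⟨g, hg⟩ : ∃ g, g = (ob + oc - vb - vc) - 4 * ((oa + ob - va - vb) + (oa + oc - va - vc)) :=
    ⟨_, rfl⟩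
  rw [← hbe] at hP2 hbe0 hbu
  rw [← hg] at hP2 ⊢
  obtain ⟨U, hU⟩ : ∃ U, U = (pa + pb - 1) ^ 2 := ⟨_, rfl⟩
  have hU0 : 0 ≤ U := by rw [hU]; (clear * -; (clear * -; positivity))
  have hU1 : U ≤ 1 := by rw [hU]; linarith only [mul_nonneg (sub_nonneg.2 h.pb0) (sub_nonneg.2 h.pb1), mul_nonneg (sub_nonneg.2 h.pa1) (sub_nonneg.2 h.pb0), mul_nonneg (sub_nonneg.2 h.pa0) (sub_nonneg.2 h.pb1), mul_nonneg (sub_nonneg.2 h.pa0) (sub_nonneg.2 h.pa1)]
  have hs2 : (max 0 (1 - pa - pb - pc)) ^ 2 ≤ U := by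
    have hu : (1 - pa - pb - pc) ≤ |pa + pb - 1| := by
      have := neg_abs_le (pa + pb - 1); linarith only [this, h.pc0]
    rw [hU, ← sq_abs (pa + pb - 1)]
    apply pow_le_pow_left₀ (le_max_left _ _) (max_le (abs_nonneg _) hu)
  rw [← hU] at hbu
  have hbU : be * U ≤ (1/10^70) * Y := by linarith only [hN, hbu]
  have w1 : 0 ≤ mz + Xc := by linarith only [h.mz0, h.Xc0]
  have w2 : 0 ≤ ma + Xb := by linarith only [h.ma0, h.Xb0]
  have key : ∀ W : ℝ, max 0 g ≤ W → Gt g (1 - pa - pb - pc) ≤ W * U := by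
    intro W hW
    unfold Gt
    exact mul_le_mul hW hs2 (by (clear * -; (clear * -; positivity))) ((le_max_left _ _).trans hW)
  rcases hP2 with hP | hP
  · rcases le_total g (10 * yc) with hc | hc
    · -- g ≤ 10^6 be
      have h1 : max 0 g ≤ 10^6 * be := by
        apply max_le (by (clear * - hbe0; positivity))
        rcases le_total g yc with hc' | hc'
        · rw [min_eq_left hc'] at hP; linarith only [hbe0, hP]
        · rw [min_eq_right hc'] at hP; linarith only [hP, hc]
      have h2 := key _ h1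
      linarith only [hY, hN, hbu, w1, w2, h2]
    · -- yc ≤ g/10
      have hyc : 0 < yc := lt_of_lt_of_le hY hYc
      have h0 : yc ≤ 10^5 * be := by
        rw [min_eq_right (by linarith only [hY, hYc, hc])] at hP; exact hP
      have h1 : g ≤ 3 * (ma + Xb) := by
        have e1 : g ≤ 2 * va := by
          rw [hg]; linarith only [h.dab, h.dca, h.oa0]
        linarith only [h.Xb0, h.mc0, h.mz0, h.Fup, h.oa0, h.wa, e1, hc, hYc, hY]
      have h2 : U ≤ 1/10^65 := by
        have e1 : be * U ≤ (1/10^65) * be := by linarith only [hYc, hN, hbu, h0]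
        have e2 : 0 < be := by linarith only [hY, hYc, h0]
        have e3 : be * U ≤ be * (1/10^65) := by linarith only [hYc, hN, hbu, h0]
        exact le_of_mul_le_mul_left e3 e2
      have h3 := key _ (max_le (by (clear * - w2; positivity)) h1 : max 0 g ≤ 3 * (ma + Xb))
      have h4 : 3 * (ma + Xb) * U ≤ 3 * (ma + Xb) * (1/10^65) :=
        mul_le_mul_of_nonneg_left h2 (by (clear * - w2; positivity))
      linarith only [hY, hYc, w1, hc, h1, h3, h4]
  · have hgD : g ≤ ob + oc - vb - vc := by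
      rw [hg]; linarith only [h.dab, h.dca]
    have hD0 : 0 ≤ ob + oc - vb - vc := by linarith only [h.dbc]
    have hoz : (ya + yb - oa - ob)/2 = oz := by linarith only [h.hza, h.hzb, h.hab]
    have hob : (oa + ob + yb - ya)/2 = ob' := by linarith only [hoz, h.hzb]
    have n5 := hP.n5
    have n6 := hP.n6
    have n7 := hP.n7
    have n8 := hP.n8
    have n9 := hP.n9
    rw [hoz] at n5 n8 n9
    rw [hob] at n6 n7
    have hvz : vz ≤ mz + Xc := by linarith only [hD0, n5, h.wz]
    rcases le_total U (1/10^18) with hc | hc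
    · have h3 := key _ (max_le hD0 hgD)
      have h4 : (ob + oc - vb - vc) * U ≤ (ob + oc - vb - vc) * (1/10^18) :=
        mul_le_mul_of_nonneg_left hc hD0
      linarith only [hY, w1, w2, n5, n9, hvz, h3, h4]
    · have hbs : be ≤ (1/10^52) * Y := by
        have e1 : be * (1/10^18) ≤ be * U := mul_le_mul_of_nonneg_left hc hbe0
        linarith only [hN, hbu, e1]
      have h5 := nc_small hY hYc h.oz0 hbs h.oc0 h.hzb n6 n7 n8
      have h3 := key _ (max_le hD0 hgD)
      have h4 : (ob + oc - vb - vc) * U ≤ (ob + oc - vb - vc) * 1 :=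
        mul_le_mul_of_nonneg_left hU1 hD0
      linarith only [hY, w2, n5, n9, hvz, h5, h3, h4]

/-- reduced target via `a` in regime B -/
def TA (oa ob va vb ya yb vz va' vb' ma mb mz Xa Xb Xc qa qb qz : ℝ) : Prop :=
  (3/2) * ya ≤ 10^5 * ((mz + Xc) * (1 - 2 * qz) + (ma + Xb) * (2 * qa - 1))
    + 10^5/2 * Et (mz + Xc) (ma + Xb) (mb + Xa) qa qb
    + 10^18 * Gt ((oa + ob - va - vb) - 4 * ((ya - vz - va') + (yb - vz - vb')))
        (1 - qa - qb - qz)

theorem NewA_of_TA (h : Ctx oa ob oc va vb vc ya yb yc oz oa' ob' vz va' vb' ma mb mc mz Xa Xb Xc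
      pa pb pc qa qb qz) (hY : 0 < Y) (hYa : Y ≤ ya) (hYc : Y ≤ yc)
    (hP1 : P1 oa ob oc va vb vc ya yb yc mc mz Xa Xb Xc)
    (hP2 : P2 oa ob oc va vb vc ya yb yc ma mb Xa Xb vz va' vb')
    (hN : 10^70 * Nn ma mb mc mz Xa Xb Xc pa pb pc ≤ Y)
    (hT : TA oa ob va vb ya yb vz va' vb' ma mb mz Xa Xb Xc qa qb qz) :
    NewA oa ob oc va vb vc ya yb vz va' vb' ma mb mc mz Xa Xb Xc pa pb pc qa qb qz := by
  have h1 := Epay h hY hYc hP1 hN
  have h2 := Gpay h hY hYc hP2 hN
  have h3 := Nn_nonneg h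
  unfold TA at hT
  unfold NewA
  have h4 : (mz + Xc) + (ma + Xb) ≤ (33/32) * ya := by
    linarith only [h.hza, h.Fza, h.wa', h.wz]
  linarith only [hY, hYa, hT, h1, h2, h3, h4, h.ma0, h.Xb0]

end Vale.Agent.P235.Tri
end
end
end

section

section

section

namespace Vale.Agent.P235.Tri

variable {oa ob oc va vb vc ya yb yc oz oa' ob' vz va' vb' ma mb mc mz Xa Xb Xc
    pa pb pc qa qb qz Y al : ℝ}

/-- numeric lemma -/
theorem numLD (p1 : 1/3 ≤ pb) (p2 : pb ≤ 9/16) (hu : |pa + pb - 1| ≤ 1/10^20)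
    (ha : |qa - pa| ≤ 1/10^20) (hb : |qb - pb| ≤ 1/10^20) :
    1/4 ≤ (2 * qa - 1) + (1/2) * (phi qa * phi qb) := by
  rw [abs_le] at hu ha hb
  have pa0 := phi_nonneg qa
  have pb0 := phi_nonneg qb
  rcases le_total pb (1/2) with hc | hc
  · have h1 : 0.999 ≤ phi qa := by
      have e1 : phi (1/2 - 1/10^4) ≤ phi qa := phi_mono (by (clear * -; norm_num)) (by linarith only [hu, ha, hc])
      rw [phi_eq_of_le (by norm_num)] at e1
      refine le_trans (by (clear * -; norm_num)) e1
    have h2 : 4 * (pb - 1/10^20) ^ 2 ≤ phi qb := by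
      have e1 : phi (pb - 1/10^20) ≤ phi qb := phi_mono (by linarith only [p1]) (by linarith only [hb])
      rw [phi_eq_of_le (by linarith only [hc])] at e1
      exact e1
    have h3 : 0.999 * (4 * (pb - 1/10^20) ^ 2) ≤ phi qa * phi qb :=
      mul_le_mul h1 h2 (by (clear * -; positivity)) pa0
    nlinarith only [p2, hu, ha, h3]
  · have h1 : 0.765 ≤ phi qa := by
      have e1 : phi (7/16 - 1/10^5) ≤ phi qa := phi_mono (by norm_num) (by linarith only [p2, hu, ha])
      rw [phi_eq_of_le (by norm_num)] at e1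
      refine le_trans (by norm_num) e1
    have h2 : 0.999 ≤ phi qb := by
      have e1 : phi (1/2 - 1/10^4) ≤ phi qb := phi_mono (by (clear * -; norm_num)) (by linarith only [hb, hc])
      rw [phi_eq_of_le (by norm_num)] at e1
      refine le_trans (by norm_num) e1
    have h3 : 0.765 * 0.999 ≤ phi qa * phi qb :=
      mul_le_mul h1 h2 (by norm_num) pa0
    linarith only [p2, hu, ha, h3]

/-- derived facts in the ladder case -/
structure LF (oa ob oc va vb vc ya yb yc ma mb mc mz Xa Xb Xc pa pb qa qb al : ℝ) : Prop where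
  al0 : 0 ≤ al
  alyc : 10^6 * al ≤ yc
  ycX : yc ≤ 64 * Xb
  wbz : 31 * (mz + Xc) ≤ mb + Xa
  wca : (mc + Xc) - (ma + Xa) ≤ 13 * al
  hmc : mc ≤ al
  hmz : mz ≤ 2 * al
  hXa : Xa ≤ 100 * al
  hvc : vc ≤ oc
  hu : |pa + pb - 1| ≤ 1/10^20
  ha : |qa - pa| ≤ 1/10^20
  hb : |qb - pb| ≤ 1/10^20
  wz0 : 0 < mz + Xc

theorem lad_facts (h : Ctx oa ob oc va vb vc ya yb yc oz oa' ob' vz va' vb' ma mb mc mz Xa Xb Xc
      pa pb pc qa qb qz) (hY : 0 < Y) (hYc : Y ≤ yc)
    (hal : al = mc + harm mz Xc)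
    (hL : Lad oa ob oc va vb vc ya yb yc mc mz Xa al)
    (hN : 10^70 * Nn ma mb mc mz Xa Xb Xc pa pb pc ≤ Y)
    (hwz : (1/10^10) * Y < mz + Xc) :
    LF oa ob oc va vb vc ya yb yc ma mb mc mz Xa Xb Xc pa pb qa qb al := by
  have al0 := hL.al0
  have s1 := hL.s1
  have s2 := hL.s2
  have hvc := hL.hvc
  have hmc := hL.hmc
  have hmz := hL.hmz
  have hXa := hL.hXa
  have hvb := hL.hvb
  have hca := hL.hca
  have hzb := hL.hzb
  have hoc0 := h.oc0
  have hob0 := h.ob0
  have hwc := h.wc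
  have hXc0 := h.Xc0
  have hmz0 := h.mz0
  have hal2 : al * (10^6 - 8) ≤ oc / 32 := by linarith only [s2, hvc]
  have wca : (mc + Xc) - (ma + Xa) ≤ 13 * al := by
    rw [h.wc, h.wa]
    linarith only [hvc, hvb, h.dab, h.tbc, h.va0]
  have ycX : yc ≤ 64 * Xb := by linarith only [hY, hYc, s1, hmc, hmz, hXa, h.Flo]
  -- wb' ≥ 31 wz
  have hyb : oc - 64 * al ≤ yb := by
    linarith only [hca, h.tbc, h.hza, h.hzb, h.hab, h.ob'0]
  have hyc : yc ≤ ob + 192 * al := by
    (clear * - hca hzb h; linarith only [hca, hzb, h.hza, h.hzb, h.hab, h.ob'0])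
  have hwb : oc - 230 * al ≤ mb + Xa := by
    linarith only [hvb, hmz0, hyb, hyc, h.wb, h.Fup, h.mc0, h.Xa0]
  have wbz : 31 * (mz + Xc) ≤ mb + Xa := by linarith only [hY, hwz, s2, hvc, hmz, hwc, hwb, h.mc0]
  have wz0 : 0 < mz + Xc := lt_of_le_of_lt (by positivity) hwz
  have wb0 : 0 < mb + Xa := by linarith only [wbz, wz0]
  have Xb0 : 0 < Xb := by linarith only [hY, hYc, ycX]
  have wa0 : 0 < ma + Xb := by linarith only [hY, hYc, al0, s2, hXa, hwc, wca, ycX]
  -- smallness of u
  have hma : (1/4) * ((1/10^10) * Y) ≤ ma := by linarith only [h.mc0, wz0, wca, hwc, hXa, hmz, s2, hwz]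
  have hbu := Nn_be h
  have hbe : (1/8) * ((1/10^10) * Y) ≤ harm ma Xb + harm mb Xa := by
    have e1 := harm_ge h.ma0 h.Xb0
    have e2 := harm_nonneg h.mb0 h.Xa0
    have e3 : (1/4) * ((1/10^10) * Y) ≤ min ma Xb := le_min hma (by linarith only [hY, hYc, ycX])
    linarith only [e1, e2, e3]
  have hu : |pa + pb - 1| ≤ 1/10^20 := by
    apply le_of_sq_le (by norm_num)
    rw [sq_abs]
    have e1 : (1/8) * ((1/10^10) * Y) * (pa + pb - 1) ^ 2
        ≤ (harm ma Xb + harm mb Xa) * (pa + pb - 1) ^ 2 :=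
      mul_le_mul_of_nonneg_right hbe (sq_nonneg _)
    have e2 : Y * (pa + pb - 1) ^ 2 ≤ Y * (1/10^20) ^ 2 := by linarith only [e1, hbu, hN, hY]
    exact le_of_mul_le_mul_left e2 hY
  have ha : |qa - pa| ≤ 1/10^20 := by
    have e1 : (ma + Xb) * |qa - pa| ≤ (ma + Xb) * (1/10^20) := by
      have k1 : (ma + Xb) * |qa - pa| = |(ma + Xb) * (qa - pa)| := by
        rw [abs_mul, abs_of_nonneg wa0.le]
      have k2 : (ma + Xb) * (qa - pa) = -(Xb * (pa + pb - 1)) := by linarith only [h.ea]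
      rw [k1, k2, abs_neg, abs_mul, abs_of_nonneg h.Xb0]
      have k3 : Xb * |pa + pb - 1| ≤ Xb * (1/10^20) := mul_le_mul_of_nonneg_left hu h.Xb0
      linarith only [al0, s2, hXa, hwc, wca, k3]
    exact le_of_mul_le_mul_left e1 wa0
  have hb : |qb - pb| ≤ 1/10^20 := by
    have e1 : (mb + Xa) * |qb - pb| ≤ (mb + Xa) * (1/10^20) := by
      have k1 : (mb + Xa) * |qb - pb| = |(mb + Xa) * (qb - pb)| := by
        rw [abs_mul, abs_of_nonneg wb0.le]
      have k2 : (mb + Xa) * (qb - pb) = -(Xa * (pa + pb - 1)) := by linarith only [h.eb]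
      rw [k1, k2, abs_neg, abs_mul, abs_of_nonneg h.Xa0]
      have k3 : Xa * |pa + pb - 1| ≤ Xa * (1/10^20) := mul_le_mul_of_nonneg_left hu h.Xa0
      linarith only [al0, s2, hvc, hXa, hwb, k3]
    exact le_of_mul_le_mul_left e1 wb0
  exact ⟨al0, s1, ycX, wbz, wca, hmc, hmz, hXa, by linarith only [al0, s2, hvc], hu, ha, hb, wz0⟩

theorem Gc_zero (h : Ctx oa ob oc va vb vc ya yb yc oz oa' ob' vz va' vb' ma mb mc mz Xa Xb Xc
      pa pb pc qa qb qz) (hvc : vc ≤ oc) :
    Gt ((oa + ob - va - vb) - 4 * ((oa + oc - va - vc) + (ob + oc - vb - vc)))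
      (1 - pa - pb - pc) = 0 := by
  unfold Gt
  rw [max_eq_left (by linarith only [hvc, h.dbc, h.dca])]; ring

/-- ladder, `pb ≤ 1/3` -/
theorem lad_a (h : Ctx oa ob oc va vb vc ya yb yc oz oa' ob' vz va' vb' ma mb mc mz Xa Xb Xc
      pa pb pc qa qb qz)
    (hF : LF oa ob oc va vb vc ya yb yc ma mb mc mz Xa Xb Xc pa pb qa qb al)
    (hp : pb ≤ 1/3) :
    NewC oa ob oc va vb vc ya yb yc vz va' vb' ma mb mc mz Xa Xb Xc pa pb pc qa qb qz := by
  unfold NewC
  rw [Gc_zero h hF.hvc]
  have hN := Nn_nonneg h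
  have hGz := Gt_nonneg ((oa + ob - va - vb) - 4 * ((ya - vz - va') + (yb - vz - vb')))
        (1 - qa - qb - qz)
  have hE := Ecz h (D := mz + Xa + Xb) (by
    apply max_le
    · have := le_max_left 0 (min (ma + Xb) (mb + Xa) - (mz + Xc))
      linarith only [this, h.mz0, h.Xa0, h.Xb0]
    · have h1 := le_max_right 0 (min (ma + Xb) (mb + Xa) - (mz + Xc))
      have h2 : min (ma + Xa) (mb + Xb) ≤ min (ma + Xb) (mb + Xa) + (Xa + Xb) := by
        rw [← min_add_add_right]
        apply min_le_min <;> linarith only [h.Xa0, h.Xb0]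
      linarith only [h1, h2, h.mc0])
  have hpp : phi pa * phi pb ≤ 4/9 := by
    have e1 := phi_le_one h.pa0
    have e2 := phi_nonneg pa
    have e3 : phi pb ≤ 4/9 := by
      rw [phi_eq_of_le (by linarith only [hp])]
      nlinarith only [hp, h.pb0]
    have e4 := phi_nonneg pb
    nlinarith only [e3, e1, e4]
  have e1 : (mz + Xa + Xb) * (phi pa * phi pb) ≤ (mz + Xa + Xb) * (4/9) :=
    mul_le_mul_of_nonneg_left hpp (by linarith only [h.mz0, h.Xa0, h.Xb0])
  have e2 : 4 * (Xa + Xb) * |pa + pb - 1| ≤ 4 * (Xa + Xb) * (1/10^20) :=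
    mul_le_mul_of_nonneg_left hF.hu (by linarith only [h.Xa0, h.Xb0])
  have e3 : -mc + Xb * (1/3) - Xa
      ≤ (mz - mc) + 2 * mc * pc + Xb * (1 - 2 * pb) + Xa * (1 - 2 * pa) := by
    have := mul_nonneg h.mc0 h.pc0
    have k1 : Xb * (1/3) ≤ Xb * (1 - 2 * pb) := mul_le_mul_of_nonneg_left (by linarith only [hp]) h.Xb0
    have := mul_nonneg h.Xa0 (by linarith only [h.pa1] : 0 ≤ 1 - pa)
    linarith [h.mz0]
  have f1 := hF.al0
  have f2 := hF.alyc
  have f3 := hF.ycX
  have f4 := hF.hmc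
  have f5 := hF.hmz
  have f6 := hF.hXa
  linarith [h.mz0, h.Xa0, h.Xb0]

/-- ladder, via `c` in the middle range, `wa' < 8 wz` -/
theorem lad_e (h : Ctx oa ob oc va vb vc ya yb yc oz oa' ob' vz va' vb' ma mb mc mz Xa Xb Xc
      pa pb pc qa qb qz)
    (hF : LF oa ob oc va vb vc ya yb yc ma mb mc mz Xa Xb Xc pa pb qa qb al)
    (p1 : 1/3 ≤ pb) (p2 : pb ≤ 9/16) (hw : ma + Xb ≤ 8 * (mz + Xc)) :
    NewC oa ob oc va vb vc ya yb yc vz va' vb' ma mb mc mz Xa Xb Xc pa pb pc qa qb qz := by
  unfold NewC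
  rw [Gc_zero h hF.hvc]
  have hN := Nn_nonneg h
  have hGz := Gt_nonneg ((oa + ob - va - vb) - 4 * ((ya - vz - va') + (yb - vz - vb')))
        (1 - qa - qb - qz)
  have f1 := hF.al0
  have f2 := hF.alyc
  have f3 := hF.ycX
  have f4 := hF.hmc
  have f5 := hF.hmz
  have f6 := hF.hXa
  have f7 := hF.wbz
  have f8 := hF.wca
  have hmin : min (ma + Xb) (mb + Xa) = ma + Xb := min_eq_left (by linarith only [hw, f7, hF.wz0])
  have hE := Ecz h (D := -(Xb - 115 * al)) (by
    rw [hmin]
    have h1 := le_max_right 0 ((ma + Xb) - (mz + Xc))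
    apply max_le
    · linarith only [f5, f6, f8, h1, h.mc0]
    · have h2 := min_le_left (ma + Xa) (mb + Xb)
      linarith only [f1, f5, f6, h1, h2, h.mc0])
  have hpp := numLD (pa := pa) (pb := pb) (qa := pa) (qb := pb) p1 p2 hF.hu
    (by simp only [sub_self, abs_zero, one_div, inv_nonneg, Nat.ofNat_nonneg, pow_succ_nonneg]) (by simp only [sub_self, abs_zero, one_div, inv_nonneg, Nat.ofNat_nonneg, pow_succ_nonneg])
  have hu := hF.hu
  have hu' := abs_le.mp hF.hu
  have hP0 : 0 ≤ phi pa * phi pb := mul_nonneg (phi_nonneg _) (phi_nonneg _)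
  have hP1 : phi pa * phi pb ≤ 1 := by
    have := phi_le_one h.pa0; have := phi_le_one h.pb0
    have := phi_nonneg pa; have := phi_nonneg pb
    nlinarith
  have e2 : 4 * (Xa + Xb) * |pa + pb - 1| ≤ 4 * (Xa + Xb) * (1/10^20) :=
    mul_le_mul_of_nonneg_left hF.hu (by linarith only [f1, f2, f3, h.Xa0])
  have e3 : -mc + Xb * (1 - 2 * pb) - Xa
      ≤ (mz - mc) + 2 * mc * pc + Xb * (1 - 2 * pb) + Xa * (1 - 2 * pa) := by
    have := mul_nonneg h.mc0 h.pc0
    have := mul_nonneg h.Xa0 (by linarith only [p1, hu'] : 0 ≤ 1 - pa)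
    (clear p2 hw hN hGz f1 f2 f3 f4 f5 f6 f7 f8 hmin hE hpp hu hP0 hP1 e2; linarith [h.mz0])
  -- Xb ((1-2pb) + PP/2) ≥ Xb (1/4 - small)
  have e4 : Xb * (1/4 - 1/10^19) ≤ Xb * ((1 - 2 * pb) + (1/2) * (phi pa * phi pb)) :=
    mul_le_mul_of_nonneg_left (by linarith only [hpp, hu']) h.Xb0
  have e5 : 115 * al * (phi pa * phi pb) ≤ 115 * al * 1 :=
    mul_le_mul_of_nonneg_left hP1 (by (clear * - f1; positivity))
  linarith only [hN, hGz, f1, f2, f3, f4, f6, hE, e2, e3, e4, e5]

/-- ladder via `a`, middle range, `8 wz ≤ wa' ≤ wb'`. -/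
theorem lad_d (h : Ctx oa ob oc va vb vc ya yb yc oz oa' ob' vz va' vb' ma mb mc mz Xa Xb Xc
      pa pb pc qa qb qz)
    (hF : LF oa ob oc va vb vc ya yb yc ma mb mc mz Xa Xb Xc pa pb qa qb al)
    (p1 : 1/3 ≤ pb) (p2 : pb ≤ 9/16) (hw : 8 * (mz + Xc) ≤ ma + Xb) (hab : ma + Xb ≤ mb + Xa) :
    TA oa ob va vb ya yb vz va' vb' ma mb mz Xa Xb Xc qa qb qz := by
  unfold TA
  have hGz := Gt_nonneg ((oa + ob - va - vb) - 4 * ((ya - vz - va') + (yb - vz - vb')))
        (1 - qa - qb - qz)
  have w1 := hF.wz0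
  have w2 : 0 ≤ ma + Xb := by linarith only [hw, w1]
  have hn := numLD p1 p2 hF.hu hF.ha hF.hb
  have hP0 : 0 ≤ phi qa * phi qb := mul_nonneg (phi_nonneg _) (phi_nonneg _)
  have hP1 : phi qa * phi qb ≤ 1 := by
    have := phi_le_one h.qa0; have := phi_le_one h.qb0
    have := phi_nonneg qa; have := phi_nonneg qb
    nlinarith
  have hE : ((ma + Xb) - (mz + Xc)) * (phi qa * phi qb)
      ≤ Et (mz + Xc) (ma + Xb) (mb + Xa) qa qb := by
    unfold Et
    rw [min_eq_left hab]
    exact mul_le_mul_of_nonneg_right (le_max_right _ _) hP0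
  have e1 : (ma + Xb) * (1/4) ≤ (ma + Xb) * ((2 * qa - 1) + (1/2) * (phi qa * phi qb)) :=
    mul_le_mul_of_nonneg_left hn w2
  have e2 : (mz + Xc) * (phi qa * phi qb) ≤ (mz + Xc) * 1 := mul_le_mul_of_nonneg_left hP1 w1.le
  have e3 : (mz + Xc) * qz ≤ (mz + Xc) * 1 := mul_le_mul_of_nonneg_left h.qz1 w1.le
  have h2 : ya ≤ 32 * ((mz + Xc) + (ma + Xb)) := by
    linarith only [h.wz, h.wa', h.vz0, h.va'0, h.hza]
  linarith only [h2, e3, e2, e1, hE, w1, hGz, hw]

/-- via `a` when `qa` is large and `wz` is small compared with `wa'` -/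
theorem TA_big' (h : Ctx oa ob oc va vb vc ya yb yc oz oa' ob' vz va' vb' ma mb mc mz Xa Xb Xc
      pa pb pc qa qb qz) (hw : 31 * (mz + Xc) ≤ ma + Xb) (hq : 1/2 + 1/17 ≤ qa) :
    TA oa ob va vb ya yb vz va' vb' ma mb mz Xa Xb Xc qa qb qz := by
  unfold TA
  have hEz := Et_nonneg (mz + Xc) (ma + Xb) (mb + Xa) qa qb
  have hGz := Gt_nonneg ((oa + ob - va - vb) - 4 * ((ya - vz - va') + (yb - vz - vb')))
        (1 - qa - qb - qz)
  have w1 : 0 ≤ mz + Xc := by linarith only [h.mz0, h.Xc0]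
  have w2 : 0 ≤ ma + Xb := by linarith only [hw, w1]
  have h1 : (ma + Xb) * (2/17) ≤ (ma + Xb) * (2 * qa - 1) :=
    mul_le_mul_of_nonneg_left (by linarith only [hq]) w2
  have e3 : (mz + Xc) * qz ≤ (mz + Xc) * 1 := mul_le_mul_of_nonneg_left h.qz1 w1
  have h2 : ya ≤ 32 * ((mz + Xc) + (ma + Xb)) := by
    linarith only [h.wz, h.wa', h.vz0, h.va'0, h.hza]
  linarith only [hw, hEz, hGz, w1, h1, e3, h2]

/-- via `a` in the middle, `wz` small compared with `wa' ≤ wb'` -/
theorem TA_mid' (h : Ctx oa ob oc va vb vc ya yb yc oz oa' ob' vz va' vb' ma mb mc mz Xa Xb Xc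
      pa pb pc qa qb qz) (hw : 31 * (mz + Xc) ≤ ma + Xb) (hab : ma + Xb ≤ mb + Xa)
    (hqa : 7/16 - 1/10^5 ≤ qa) (hqb : 7/16 - 1/10^5 ≤ qb) :
    TA oa ob va vb ya yb vz va' vb' ma mb mz Xa Xb Xc qa qb qz := by
  unfold TA
  have hGz := Gt_nonneg ((oa + ob - va - vb) - 4 * ((ya - vz - va') + (yb - vz - vb')))
        (1 - qa - qb - qz)
  have w1 : 0 ≤ mz + Xc := by linarith only [h.mz0, h.Xc0]
  have w2 : 0 ≤ ma + Xb := by linarith only [hw, w1]
  have hp : ∀ q : ℝ, 7/16 - 1/10^5 ≤ q → 0.76 ≤ phi q := by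
    intro q hq
    have h1 : phi (7/16 - 1/10^5) ≤ phi q := phi_mono (by (clear * -; norm_num)) hq
    have h2 : phi (7/16 - 1/10^5) = 4 * (7/16 - 1/10^5) ^ 2 := phi_eq_of_le (by norm_num)
    rw [h2] at h1
    refine le_trans (by norm_num) h1
  have hpa := hp qa hqa
  have hpb := hp qb hqb
  have hpp : 0.57 ≤ phi qa * phi qb := by nlinarith only [hpa, hpb]
  have hE : 0.57 * ((ma + Xb) - (mz + Xc)) ≤ Et (mz + Xc) (ma + Xb) (mb + Xa) qa qb := by
    unfold Et
    rw [min_eq_left hab]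
    have h1 := le_max_right 0 ((ma + Xb) - (mz + Xc))
    have h2 := le_max_left 0 ((ma + Xb) - (mz + Xc))
    have h3 : max 0 ((ma + Xb) - (mz + Xc)) * 0.57
        ≤ max 0 ((ma + Xb) - (mz + Xc)) * (phi qa * phi qb) := mul_le_mul_of_nonneg_left hpp h2
    linarith only [h3, h1]
  have h1 : (ma + Xb) * (-(1/8) - 2/10^5) ≤ (ma + Xb) * (2 * qa - 1) :=
    mul_le_mul_of_nonneg_left (by linarith only [hqa]) w2
  have e3 : (mz + Xc) * qz ≤ (mz + Xc) * 1 := mul_le_mul_of_nonneg_left h.qz1 w1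
  have h2 : ya ≤ 32 * ((mz + Xc) + (ma + Xb)) := by
    linarith only [h.wz, h.wa', h.vz0, h.va'0, h.hza]
  linarith only [hw, hGz, w1, hE, h1, e3, h2]

/-- the ladder case -/
theorem ladder (h : Ctx oa ob oc va vb vc ya yb yc oz oa' ob' vz va' vb' ma mb mc mz Xa Xb Xc
      pa pb pc qa qb qz)
    (hF : LF oa ob oc va vb vc ya yb yc ma mb mc mz Xa Xb Xc pa pb qa qb al) :
    TA oa ob va vb ya yb vz va' vb' ma mb mz Xa Xb Xc qa qb qz ∨
    TA ob oa vb va yb ya vz vb' va' mb ma mz Xb Xa Xc qb qa qz ∨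
    NewC oa ob oc va vb vc ya yb yc vz va' vb' ma mb mc mz Xa Xb Xc pa pb pc qa qb qz := by
  have hu := abs_le.mp hF.hu
  have ha := abs_le.mp hF.ha
  have hb := abs_le.mp hF.hb
  rcases le_total pb (1/3) with h1 | h1
  · right; right; exact lad_a h hF h1
  rcases le_total (9/16) pb with h2 | h2
  · right; left
    exact TA_big' h.swap hF.wbz (by linarith only [hb, h2])
  rcases le_total (mb + Xa) (ma + Xb) with h3 | h3
  · rcases le_total pb (7/16) with h4 | h4
    · left
      exact TA_big' h (by linarith only [h3, hF.wbz]) (by linarith only [hu, ha, h4])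
    · right; left
      exact TA_mid' h.swap hF.wbz h3 (by (clear * - hb h4; linarith)) (by linarith only [hu, ha, h2])
  · rcases le_total (8 * (mz + Xc)) (ma + Xb) with h5 | h5
    · left; exact lad_d h hF h1 h2 h5 h3
    · right; right; exact lad_e h hF h1 h2 h5

end Vale.Agent.P235.Tri
end
end
end

section

section

section

/-!
Treewidth 3: the exceptional law, reserve condition on the three faces (B1, B2).
-/

namespace Vale.Agent.P235.Tri

theorem CFac.swap {oa ob oc va vb vc ya yb yc mu xa xb xc : ℝ}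
    (F : CFac oa ob oc va vb vc ya yb yc mu xa xb xc) :
    CFac ob oa oc vb va vc yb ya yc mu xb xa xc := by
  have ez : (yb + ya - ob - oa)/2 = (ya + yb - oa - ob)/2 := by ring
  have ea : (ob + oa + yb - ya)/2 = (oa + ob + yb - ya)/2 := by ring
  have eb : (ob + oa + ya - yb)/2 = (oa + ob + ya - yb)/2 := by ring
  refine
    { yc0 := F.yc0, hvc := F.hvc, mu0 := F.mu0, z0 := by rw [ez]; exact F.z0,
      a0 := by rw [ea]; exact F.b0, b0 := by rw [eb]; exact F.a0,
      A1 := by rw [ez]; exact F.A3, A2 := by rw [ea]; exact F.A4,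
      A3 := by rw [ez]; exact F.A1, A4 := by rw [eb]; exact F.A2,
      B1 := ?_, B2 := ?_, dab := by linarith only [F.dab], dbc := by linarith only [F.dca],
      dca := by linarith only [F.dbc], tca := by linarith only [F.tbc], tbc := by linarith only [F.tca],
      yac := by linarith only [F.ybc], ybc := by linarith only [F.yac], hxc := by linarith only [F.hxc],
      xb1 := F.xa1, xb2 := F.xa2, xa1 := F.xb1, xa2 := F.xb2, xab := by linarith only [F.xab],
      va1 := by rw [ea]; exact F.vb1, vb1 := by rw [eb]; exact F.va1,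
      vz1 := by rw [ez]; exact F.vz1, oc1 := by rw [ez]; exact F.oc1,
      oa1 := by rw [ea]; exact F.ob1, ob1 := by rw [eb]; exact F.oa1,
      xbm := by rw [ea]; exact F.xam, xam := by rw [eb]; exact F.xbm }
  · rw [ea]; have := F.B2; linarith only [this]
  · rw [eb]; have := F.B1; linarith only [this]

/-- core inequality of (B1) -/
theorem faceC_core {h p q o1 o2 oc yc e1 e2 D Dac Dbc X1 X2 X3 xa xb : ℝ}
    (hh : 0 < h) (hp : 0 < p) (hq : 0 < q) (hX10 : 0 ≤ X1) (hX20 : 0 ≤ X2) (hX30 : 0 ≤ X3)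
    (hX1 : X1 ≤ 1) (hX2 : X2 ≤ 1) (hX3 : X3 ≤ 1) (he1 : 0 ≤ e1) (he2 : 0 ≤ e2) (hyc : 0 ≤ yc)
    (hoc : oc = h + yc - e1 - e2) (ho1 : o1 = p + e2 - e1) (ho2 : o2 = q + e1 - e2)
    (s1 : D + Dac = X1 * o1) (s2 : D + Dbc = X2 * o2) (s3 : Dac + Dbc = X3 * oc)
    (sum : 1/1024 ≤ X1 + X2 + X3)
    (hxb : 2 * xb * ((h + p) * q) = (e1/2) * ((h + p) * q) + (1/4) * (Dac * yc) * (p * q) / oc)
    (hxa : 2 * xa * ((h + q) * p) = (e2/2) * ((h + q) * p) + (1/4) * (Dbc * yc) * (p * q) / oc)
    (hoc0 : 0 < oc) :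
    (1/1024) * (h * p * q) ≤
      ((2 * e1 + Dac - 2 * xb) + (2 * e2 + Dbc - 2 * xa)) * (p * q)
      + ((2 * e1 + Dac - 2 * xb) + D) * (q * h) + ((2 * e2 + Dbc - 2 * xa) + D) * (h * p) := by
  have k0 : (1/4) * (Dac * yc) * (p * q) / oc + (1/4) * (Dbc * yc) * (p * q) / oc
      = (1/4) * (X3 * yc) * (p * q) := by
    have : Dac = X3 * oc - Dbc := by linarith only [s3]
    rw [this]
    field_simp
    ring
  have key : ((2 * e1 + Dac - 2 * xb) + (2 * e2 + Dbc - 2 * xa)) * (p * q)
      + ((2 * e1 + Dac - 2 * xb) + D) * (q * h) + ((2 * e2 + Dbc - 2 * xa) + D) * (h * p)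
      = (X1 + X2 + X3) * (h * p * q)
        + (p * q) * ((3/2 - X3) * (e1 + e2) + (3/4) * (X3 * yc))
        + (q * h) * ((3/2 - X1) * e1 + X1 * e2) + (h * p) * ((3/2 - X2) * e2 + X2 * e1) := by
    have t3 : Dac + Dbc = X3 * (h + yc - e1 - e2) := by rw [s3, hoc]
    have t1 : D + Dac = X1 * (p + e2 - e1) := by rw [s1, ho1]
    have t2 : D + Dbc = X2 * (q + e1 - e2) := by rw [s2, ho2]
    linear_combination (p * q) * t3 + (q * h) * t1 + (h * p) * t2 - hxb - hxa - k0
  rw [key]
  have n0 : (1/1024) * (h * p * q) ≤ (X1 + X2 + X3) * (h * p * q) :=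
    mul_le_mul_of_nonneg_right sum (by positivity)
  have n1 : 0 ≤ (p * q) * ((3/2 - X3) * (e1 + e2) + (3/4) * (X3 * yc)) := by
    have : 0 ≤ 3/2 - X3 := by linarith only [hX3]
    (clear * - hp hq this he1 he2 hX30 hyc; (clear * - hp hq this he1 he2 hX30 hyc; (clear * - hp hq this he1 he2 hX30 hyc; positivity)))
  have n2 : 0 ≤ (q * h) * ((3/2 - X1) * e1 + X1 * e2) := by
    have : 0 ≤ 3/2 - X1 := by linarith only [hX1]
    (clear * - hq hh this he1 hX10 he2; positivity)
  have n3 : 0 ≤ (h * p) * ((3/2 - X2) * e2 + X2 * e1) := by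
    have : 0 ≤ 3/2 - X2 := by linarith only [hX2]
    (clear * - hh hp this he2 hX20 he1; positivity)
  linarith only [n0, n1, n2, n3]

/-- (B1) -/
theorem faceC_c {oa ob oc va vb vc ya yb yc mu xa xb xc : ℝ}
    (G : Good oa ob oc va vb vc)
    (F : CFac oa ob oc va vb vc ya yb yc mu xa xb xc) :
    Good ((ya + yb - oa - ob)/2) ((oa + ob + ya - yb)/2) ((oa + ob + yb - ya)/2)
      (mu + xc) (va - xa + xb) (vb - xb + xa) := by
  have hE := G.E
  have xbm := F.xbm
  have xam := F.xam
  obtain ⟨yc0, hvc, mu0, z0, a0, b0, A1, A2, A3, A4, B1, B2, dab, dbc, dca, tca, tbc, yac, ybc,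
    hxc, xb1, xb2, xa1, xa2, xab, va1, vb1, vz1, oc1, oa1, ob1, -, -⟩ := F
  have hoc0 : 0 < oc := by linarith only [z0, A3, dbc, yac]
  have hoa0 : 0 < oa := by linarith only [a0, A2, dca, tbc]
  have hob0 : 0 < ob := by linarith only [b0, A4, dbc, tca]
  have hya0 : 0 < ya := by linarith only [z0, a0]
  have hyb0 : 0 < yb := by linarith only [z0, b0]
  refine ⟨z0.le, a0.le, b0.le, by linarith only [hvc, mu0, tca, tbc, hxc, xb1, xa1], by linarith only [xa2, xb1, tbc, tca, dbc, B1, A2, a0], by linarith only [b0, A4, B2, dca, tca, tbc, xb2, xa1], by (clear * - mu0 dca tca hxc xb2; linarith only [mu0, dca, tca, hxc, xb2]), by linarith only [dab],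
    by linarith only [mu0, dbc, tbc, hxc, xa2], ?_⟩
  have Sa0 : 0 ≤ (oa + ob - va - vb) + (oa + oc - va - vc) := by linarith only [dab, dca]
  have Sb0 : 0 ≤ (oa + ob - va - vb) + (ob + oc - vb - vc) := by linarith only [dab, dbc]
  have Sc0 : 0 ≤ (oa + oc - va - vc) + (ob + oc - vb - vc) := by linarith only [dbc, dca]
  have Sa1 : (oa + ob - va - vb) + (oa + oc - va - vc) ≤ oa := by linarith only [a0, A2, B1, tca, tbc]
  have Sb1 : (oa + ob - va - vb) + (ob + oc - vb - vc) ≤ ob := by linarith only [tbc, tca, B2, A4, b0]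
  have Sc1 : (oa + oc - va - vc) + (ob + oc - vb - vc) ≤ oc := by linarith only [tbc, tca, A3, A1, z0, yc0]
  have core := faceC_core (h := (ya + yb - oa - ob)/2) (p := (oa + ob + ya - yb)/2)
    (q := (oa + ob + yb - ya)/2) (o1 := oa) (o2 := ob) (oc := oc) (yc := yc)
    (e1 := (ya + yc - oa - oc)/2) (e2 := (yb + yc - ob - oc)/2) (D := oa + ob - va - vb)
    (Dac := oa + oc - va - vc) (Dbc := ob + oc - vb - vc)
    (X1 := ((oa + ob - va - vb) + (oa + oc - va - vc))/oa)
    (X2 := ((oa + ob - va - vb) + (ob + oc - vb - vc))/ob)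
    (X3 := ((oa + oc - va - vc) + (ob + oc - vb - vc))/oc) (xa := xa) (xb := xb)
    z0 a0 b0 (div_nonneg Sa0 hoa0.le) (div_nonneg Sb0 hob0.le) (div_nonneg Sc0 hoc0.le)
    (by rw [div_le_one hoa0]; exact Sa1) (by rw [div_le_one hob0]; exact Sb1)
    (by rw [div_le_one hoc0]; exact Sc1) (by linarith only [tca]) (by linarith only [tbc]) yc0 (by ring) (by ring)
    (by ring) (by (clear * - hoa0; (clear * - hoa0; field_simp))) (by (clear * - hob0; (clear * - hob0; field_simp))) (by (clear * - hoc0; field_simp)) ?_ ?_ ?_ hoc0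
  · have e1 : 2 * ((ya + yb - oa - ob)/2) + (oa + ob + ya - yb)/2 + (oa + ob + yb - ya)/2
        - 2 * (mu + xc) - (va - xa + xb) - (vb - xb + xa)
        = (2 * ((ya + yc - oa - oc)/2) + (oa + oc - va - vc) - 2 * xb)
          + (2 * ((yb + yc - ob - oc)/2) + (ob + oc - vb - vc) - 2 * xa) := by
      rw [mu0, hxc]; ring
    have e2 : 2 * ((oa + ob + ya - yb)/2) + (oa + ob + yb - ya)/2 + (ya + yb - oa - ob)/2
        - 2 * (va - xa + xb) - (vb - xb + xa) - (mu + xc)
        = (2 * ((ya + yc - oa - oc)/2) + (oa + oc - va - vc) - 2 * xb)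
          + (oa + ob - va - vb) := by
      rw [mu0, hxc]; ring
    have e3 : 2 * ((oa + ob + yb - ya)/2) + (ya + yb - oa - ob)/2 + (oa + ob + ya - yb)/2
        - 2 * (vb - xb + xa) - (mu + xc) - (va - xa + xb)
        = (2 * ((yb + yc - ob - oc)/2) + (ob + oc - vb - vc) - 2 * xa)
          + (oa + ob - va - vb) := by
      rw [mu0, hxc]; ring
    rw [e1, e2, e3]
    exact core
  · -- the sum
    have e : ((oa + ob - va - vb) + (oa + oc - va - vc))/oa
        + ((oa + ob - va - vb) + (ob + oc - vb - vc))/ob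
        + ((oa + oc - va - vc) + (ob + oc - vb - vc))/oc
        = (((oa + ob - va - vb) + (oa + oc - va - vc)) * (ob * oc)
          + ((oa + ob - va - vb) + (ob + oc - vb - vc)) * (oc * oa)
          + ((oa + oc - va - vc) + (ob + oc - vb - vc)) * (oa * ob)) / (oa * ob * oc) := by
      (clear * - hob0 hoa0 hoc0; field_simp)
    rw [e, le_div_iff₀ (by (clear * - hoa0 hob0 hoc0; positivity))]
    have e4 : ((oa + ob - va - vb) + (oa + oc - va - vc)) = 2*oa + ob + oc - 2*va - vb - vc := by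
      ring
    have e5 : ((oa + ob - va - vb) + (ob + oc - vb - vc)) = 2*ob + oc + oa - 2*vb - vc - va := by
      ring
    have e6 : ((oa + oc - va - vc) + (ob + oc - vb - vc)) = 2*oc + oa + ob - 2*vc - va - vb := by
      ring
    rw [e4, e5, e6]
    exact hE
  · have e7 : (ya + yb - oa - ob)/2 + (oa + ob + ya - yb)/2 = ya := by ring
    rw [e7]
    have e8 : (1/4) * ((oa + oc - va - vc) * yc) * ((oa + ob + ya - yb)/2
        * ((oa + ob + yb - ya)/2)) / oc
        = (1/4) * ((oa + oc - va - vc) * (yc * ((oa + ob + ya - yb)/2)))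
          * ((oa + ob + yb - ya)/2) / oc := by ring
    rw [e8, ← xbm]
    field_simp
    ring
  · have e7 : (ya + yb - oa - ob)/2 + (oa + ob + yb - ya)/2 = yb := by ring
    rw [e7]
    have e8 : (1/4) * ((ob + oc - vb - vc) * yc) * ((oa + ob + ya - yb)/2
        * ((oa + ob + yb - ya)/2)) / oc
        = (1/4) * ((ob + oc - vb - vc) * (yc * ((oa + ob + yb - ya)/2)))
          * ((oa + ob + ya - yb)/2) / oc := by ring
    rw [e8, ← xam]
    field_simp
    ring

/-- (B2), face `(z,b,c)` (drop `a`) -/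
theorem faceC_a {oa ob oc va vb vc ya yb yc mu xa xb xc : ℝ}
    (X : Ext oa ob oc ya yb yc)
    (F : CFac oa ob oc va vb vc ya yb yc mu xa xb xc) :
    Good ((yb + yc - ob - oc)/2) ((ob + oc + yb - yc)/2) ((ob + oc + yc - yb)/2)
      (mu + xa) (vb - xb + xc) (vc - xc + xb) := by
  have ycb := X.ycb
  obtain ⟨yc0, hvc, mu0, z0, a0, b0, A1, A2, A3, A4, B1, B2, dab, dbc, dca, tca, tbc, yac, ybc,
    hxc, xb1, xb2, xa1, xa2, xab, va1, vb1, vz1, oc1, oa1, ob1, -, -⟩ := F
  have c1 : 0 ≤ (yb + yc - ob - oc)/2 := by linarith only [tbc]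
  have c2 : 0 ≤ (ob + oc + yb - yc)/2 := by linarith only [ycb]
  have c3 : 0 ≤ (ob + oc + yc - yb)/2 := by linarith only [ybc]
  refine ⟨c1, c2, c3, by linarith only [mu0, tbc, xa1], by linarith only [ycb, A3, A4, tbc, hxc, xa1], by linarith only [yc0, tca, hxc, xb1, xab], by linarith only [mu0, dbc, tbc, hxc, xa2], by linarith only [dbc],
    by linarith only [mu0, hxc], ?_⟩
  obtain ⟨u, hu⟩ : ∃ u, u = (yb + yc - ob - oc)/2 := ⟨_, rfl⟩
  obtain ⟨p, hp⟩ : ∃ p, p = (ob + oc + yb - yc)/2 := ⟨_, rfl⟩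
  obtain ⟨q, hq⟩ : ∃ q, q = (ob + oc + yc - yb)/2 := ⟨_, rfl⟩
  rw [← hu] at c1
  rw [← hp] at c2
  rw [← hq] at c3
  rw [← hu, ← hp, ← hq]
  have f1 : u ≤ 2*u + p + q - 2*(mu + xa) - (vb - xb + xc) - (vc - xc + xb) := by linarith only [mu0, dbc, tbc, xa2, hu, hp, hq]
  have f2 : 0 ≤ 2*p + q + u - 2*(vb - xb + xc) - (vc - xc + xb) - (mu + xa) := by linarith only [mu0, dbc, tbc, hxc, xa2, hu, hp, hq]
  have f3 : 0 ≤ 2*q + u + p - 2*(vc - xc + xb) - (mu + xa) - (vb - xb + xc) := by linarith only [mu0, dbc, hxc, hu, hp, hq]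
  have g1 : u * (p * q) ≤ (2*u + p + q - 2*(mu + xa) - (vb - xb + xc) - (vc - xc + xb)) * (p * q) :=
    mul_le_mul_of_nonneg_right f1 (mul_nonneg c2 c3)
  have g2 : 0 ≤ (2*p + q + u - 2*(vb - xb + xc) - (vc - xc + xb) - (mu + xa)) * (q * u) :=
    mul_nonneg f2 (mul_nonneg c3 c1)
  have g3 : 0 ≤ (2*q + u + p - 2*(vc - xc + xb) - (mu + xa) - (vb - xb + xc)) * (u * p) :=
    mul_nonneg f3 (mul_nonneg c1 c2)
  have g4 : 0 ≤ u * (p * q) := by (clear * - c1 c2 c3; positivity)
  have g5 : (1/1024) * (u * p * q) = (1/1024) * (u * (p * q)) := by ring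
  rw [g5]
  linarith only [g1, g2, g3, g4]

/-- (B2), face `(z,c,a)` (drop `b`) -/
theorem faceC_b {oa ob oc va vb vc ya yb yc mu xa xb xc : ℝ}
    (X : Ext oa ob oc ya yb yc)
    (F : CFac oa ob oc va vb vc ya yb yc mu xa xb xc) :
    Good ((yc + ya - oc - oa)/2) ((oc + oa + yc - ya)/2) ((oc + oa + ya - yc)/2)
      (mu + xb) (vc - xc + xa) (va - xa + xc) := by
  have h := (faceC_a X.swap F.swap).swap.rot
  have e1 : (ya + yc - oa - oc)/2 = (yc + ya - oc - oa)/2 := by ring
  have e2 : (oa + oc + ya - yc)/2 = (oc + oa + ya - yc)/2 := by ring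
  have e3 : (oa + oc + yc - ya)/2 = (oc + oa + yc - ya)/2 := by ring
  rw [e1, e2, e3] at h
  exact h

end Vale.Agent.P235.Tri
end
end
end

section

section

section

namespace Vale.Agent.P235

/-- responsive profile -/
def Resp (K D hp hq δp δq : ℝ) : Prop :=
  ∀ a b τa τb, Good K D a b τa τb → min (τa + δp) (τb + δq) ≤ 5 * K * comp D a b hp hq

/-- properties of the constructed metric on the vertices in `A` -/
structure EmbOn {V : Type} (A : Set V) (G : SimpleGraph V) (d : V → V → ℝ) (c0 K1 : ℝ)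
    (s t : V) (F : V → V → ℝ) : Prop where
  low : ∀ u ∈ A, ∀ v ∈ A, G.Adj u v → c0 * d u v ≤ F u v
  up : ∀ u ∈ A, ∀ v ∈ A, G.Adj u v → F u v ≤ d u v
  chain : ∀ K, K1 ≤ K → ∀ a b τa τb, Good K (F s t) a b τa τb → ∀ u ∈ A, ∀ v ∈ A, G.Adj u v →
    min (τa + d s u) (τb + d t u) ≤ K * pot (F u v) (comp (F s t) a b (F u s) (F u t))
      (comp (F s t) a b (F v s) (F v t))
  chain' : ∀ K, K1 ≤ K → ∀ a b τa τb, Good K (F s t) a b τa τb → ∀ u ∈ A,
    min (τa + d s u) (τb + d t u) ≤ 5 * K * comp (F s t) a b (F u s) (F u t)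
  up3 : ∀ p ∈ A, ∀ q ∈ A, G.Adj p q → ∀ hp hq δp δq, Tri (F p q) hp hq →
    Resp K1 (F p q) hp hq δp δq → ∀ u ∈ A, ∀ v ∈ A, G.Adj u v →
    min (δp + d p u) (δq + d q u) ≤ 5 * K1 * pot (F u v) (comp (F p q) hp hq (F u p) (F u q))
      (comp (F p q) hp hq (F v p) (F v q))
  sp : ∀ x ∈ A, ∀ u ∈ A, ∀ v ∈ A, G.Adj u v → d x u ≤ 5 * K1 * pot (F u v) (F x u) (F x v)
  sp' : ∀ x ∈ A, ∀ u ∈ A, d x u ≤ 5 * (5 * K1) * F x u

theorem EmbOn.transfer {V : Type} {A : Set V} {G : SimpleGraph V} {d : V → V → ℝ} {c0 K1 : ℝ}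
    {s t : A} {FA : A → A → ℝ} {F : V → V → ℝ}
    (h : EmbOn Set.univ (G.induce A) (fun x y : A => d x y) c0 K1 s t FA)
    (hF : ∀ x y : A, F x y = FA x y) : EmbOn A G d c0 K1 s t F := by
  have hF' : FA = fun x y : A => F x y := by funext x y; exact (hF x y).symm
  subst hF'
  constructor
  · intro u hu v hv huv
    exact h.low ⟨u, hu⟩ trivial ⟨v, hv⟩ trivial huv
  · intro u hu v hv huv
    exact h.up ⟨u, hu⟩ trivial ⟨v, hv⟩ trivial huv
  · intro K hK a b τa τb hg u hu v hv huv
    exact h.chain K hK a b τa τb hg ⟨u, hu⟩ trivial ⟨v, hv⟩ trivial huv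
  · intro K hK a b τa τb hg u hu
    exact h.chain' K hK a b τa τb hg ⟨u, hu⟩ trivial
  · intro p hp q hq hpq hp' hq' δp δq hT hR u hu v hv huv
    exact h.up3 ⟨p, hp⟩ trivial ⟨q, hq⟩ trivial hpq hp' hq' δp δq hT hR ⟨u, hu⟩ trivial
      ⟨v, hv⟩ trivial huv
  · intro x hx u hu v hv huv
    exact h.sp ⟨x, hx⟩ trivial ⟨u, hu⟩ trivial ⟨v, hv⟩ trivial huv
  · intro x hx u hu
    exact h.sp' ⟨x, hx⟩ trivial ⟨u, hu⟩ trivial

section glue
variable {V : Type} {A B : Set V} {G : SimpleGraph V} {d : V → V → ℝ} {c0 K1 : ℝ}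
  {s t : V} {F : V → V → ℝ}

/-- cross formula gives associativity -/
theorem assoc_cross (hF : IsL1 F) (hD : 0 < F s t) {p q : V} (hpq : 0 < F p q) {u : V}
    (h1 : F u p = comp (F s t) (F u s) (F u t) (F p s) (F p t))
    (h2 : F u q = comp (F s t) (F u s) (F u t) (F q s) (F q t)) (a b : ℝ) :
    comp (F p q) a b (F u p) (F u q) =
      comp (F s t) (comp (F p q) a b (F s p) (F s q)) (comp (F p q) a b (F t p) (F t q))
        (F u s) (F u t) := by
  rw [h1, h2, comp_assoc hpq hD, hF.symm p s, hF.symm q s, hF.symm p t, hF.symm q t]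

theorem tri_min (hd : IsMet d) (τa τb : ℝ) (p q s t u : V) :
    min (τa + d p u) (τb + d q u) ≤
      min (min (τa + d p s) (τb + d q s) + d s u) (min (τa + d p t) (τb + d q t) + d t u) := by
  have h1 := hd.tri p s u
  have h2 := hd.tri q s u
  have h3 := hd.tri p t u
  have h4 := hd.tri q t u
  apply le_min
  · rcases min_cases (τa + d p s) (τb + d q s) with ⟨h, -⟩ | ⟨h, -⟩ <;> rw [h]
    · exact (min_le_left _ _).trans (by linarith)
    · exact (min_le_right _ _).trans (by linarith only [h2])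
  · rcases min_cases (τa + d p t) (τb + d q t) with ⟨h, -⟩ | ⟨h, -⟩ <;> rw [h]
    · exact (min_le_left _ _).trans (by linarith only [h3])
    · exact (min_le_right _ _).trans (by linarith only [h4])

theorem glue_step (hd : IsMet d) (hc0 : 0 < c0) (hK1 : 0 ≤ K1) (hF : IsL1 F)
    (hAB : A ∪ B = Set.univ) (hsA : s ∈ A) (htA : t ∈ A)
    (hst : G.Adj s t) (hno : ∀ a b, a ∉ B → b ∉ A → ¬ G.Adj a b)
    {s0 t0 : V} (hs0 : s0 ∈ A) (ht0 : t0 ∈ A) (hst0 : G.Adj s0 t0)
    (EA : EmbOn A G d c0 K1 s0 t0 F) (EB : EmbOn B G d c0 K1 s t F)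
    (hcross : ∀ x ∈ A, ∀ z ∈ B, F x z = comp (F s t) (F x s) (F x t) (F z s) (F z t)) :
    EmbOn Set.univ G d c0 K1 s0 t0 F := by
  have hK5 : K1 ≤ 5 * K1 := by linarith only [hK1]
  have hD : 0 < F s t :=
    (mul_pos hc0 (hd.pos s t hst.ne)).trans_le (EA.low s hsA t htA hst)
  have hcross' : ∀ x ∈ B, ∀ z ∈ A, F x z = comp (F s t) (F x s) (F x t) (F z s) (F z t) := by
    intro x hx z hz
    rw [hF.symm x z, hcross z hz x hx, comp_comm hD]
  have hmem : ∀ u, u ∈ A ∨ u ∈ B := by
    intro u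
    have : u ∈ A ∪ B := by rw [hAB]; trivial
    exact this
  have hedge : ∀ u v, G.Adj u v → (u ∈ A ∧ v ∈ A) ∨ (u ∈ B ∧ v ∈ B) := by
    intro u v huv
    by_cases hu : u ∈ A
    · by_cases hv : v ∈ A
      · exact Or.inl ⟨hu, hv⟩
      · have hvB := (hmem v).resolve_left hv
        by_cases huB : u ∈ B
        · exact Or.inr ⟨huB, hvB⟩
        · exact absurd huv (hno u v huB hv)
    · have huB := (hmem u).resolve_left hu
      by_cases hvB : v ∈ B
      · exact Or.inr ⟨huB, hvB⟩
      · exact absurd huv.symm (hno v u hvB hu)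
  have hpos : ∀ u v, G.Adj u v → 0 < F u v := by
    intro u v huv
    have h0 := mul_pos hc0 (hd.pos u v huv.ne)
    rcases hedge u v huv with ⟨hu, hv⟩ | ⟨hu, hv⟩
    · exact h0.trans_le (EA.low u hu v hv huv)
    · exact h0.trans_le (EB.low u hu v hv huv)
  have hD0 : 0 < F s0 t0 := hpos s0 t0 hst0
  have triF : ∀ x y z, Tri (F x y) (F x z) (F y z) := by
    intro x y z
    have := hF.Tri x y z
    rw [hF.symm z x, hF.symm z y] at this
    exact this
  -- a profile at a pair `p q` gives a profile at `s t`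
  have prof : ∀ p q, 0 < F p q → ∀ a b, Tri (F p q) a b →
      Tri (F s t) (comp (F p q) a b (F s p) (F s q)) (comp (F p q) a b (F t p) (F t q)) := by
    intro p q hpq a b hT
    exact comp_tri hpq hT (triF s t p) (triF s t q)
  constructor
  · intro u _ v _ huv
    rcases hedge u v huv with ⟨hu, hv⟩ | ⟨hu, hv⟩
    · exact EA.low u hu v hv huv
    · exact EB.low u hu v hv huv
  · intro u _ v _ huv
    rcases hedge u v huv with ⟨hu, hv⟩ | ⟨hu, hv⟩
    · exact EA.up u hu v hv huv
    · exact EB.up u hu v hv huv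
  · intro K hK a b τa τb hg u _ v _ huv
    rcases hedge u v huv with ⟨hu, hv⟩ | ⟨hu, hv⟩
    · exact EA.chain K hK a b τa τb hg u hu v hv huv
    · have g1 := EA.chain K hK a b τa τb hg s hsA t htA hst
      have g2 := EA.chain K hK a b τa τb hg t htA s hsA hst.symm
      rw [hF.symm t s] at g2
      have hG : Good K (F s t) (comp (F s0 t0) a b (F s s0) (F s t0))
          (comp (F s0 t0) a b (F t s0) (F t t0)) _ _ := ⟨prof s0 t0 hD0 a b hg.1, g1, g2⟩
      have g3 := EB.chain K hK _ _ _ _ hG u hu v hv huv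
      rw [assoc_cross hF hD hD0 (hcross' u hu s0 hs0) (hcross' u hu t0 ht0),
        assoc_cross hF hD hD0 (hcross' v hv s0 hs0) (hcross' v hv t0 ht0)]
      exact (tri_min hd τa τb s0 t0 s t u).trans g3
  · intro K hK a b τa τb hg u _
    rcases hmem u with hu | hu
    · exact EA.chain' K hK a b τa τb hg u hu
    · have g1 := EA.chain K hK a b τa τb hg s hsA t htA hst
      have g2 := EA.chain K hK a b τa τb hg t htA s hsA hst.symm
      rw [hF.symm t s] at g2
      have hG : Good K (F s t) (comp (F s0 t0) a b (F s s0) (F s t0))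
          (comp (F s0 t0) a b (F t s0) (F t t0)) _ _ := ⟨prof s0 t0 hD0 a b hg.1, g1, g2⟩
      have g3 := EB.chain' K hK _ _ _ _ hG u hu
      rw [assoc_cross hF hD hD0 (hcross' u hu s0 hs0) (hcross' u hu t0 ht0)]
      exact (tri_min hd τa τb s0 t0 s t u).trans g3
  · intro p _ q _ hpq hp' hq' δp δq hT hR u _ v _ huv
    have hDpq := hpos p q hpq
    rcases hedge p q hpq with ⟨hp, hq⟩ | ⟨hp, hq⟩ <;>
    rcases hedge u v huv with ⟨hu, hv⟩ | ⟨hu, hv⟩
    · exact EA.up3 p hp q hq hpq hp' hq' δp δq hT hR u hu v hv huv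
    · have g1 := EA.up3 p hp q hq hpq hp' hq' δp δq hT hR s hsA t htA hst
      have g2 := EA.up3 p hp q hq hpq hp' hq' δp δq hT hR t htA s hsA hst.symm
      rw [hF.symm t s] at g2
      have hG : Good (5 * K1) (F s t) (comp (F p q) hp' hq' (F s p) (F s q))
          (comp (F p q) hp' hq' (F t p) (F t q)) _ _ := ⟨prof p q hDpq hp' hq' hT, g1, g2⟩
      have g3 := EB.chain (5 * K1) hK5 _ _ _ _ hG u hu v hv huv
      rw [assoc_cross hF hD hDpq (hcross' u hu p hp) (hcross' u hu q hq),
        assoc_cross hF hD hDpq (hcross' v hv p hp) (hcross' v hv q hq)]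
      exact (tri_min hd δp δq p q s t u).trans g3
    · have hR' : Resp K1 (F s t) (comp (F p q) hp' hq' (F s p) (F s q))
          (comp (F p q) hp' hq' (F t p) (F t q)) (min (δp + d p s) (δq + d q s))
          (min (δp + d p t) (δq + d q t)) := by
        intro a b τa τb hg
        have g1 := EB.chain K1 le_rfl a b τa τb hg p hp q hq hpq
        have g2 := EB.chain K1 le_rfl a b τa τb hg q hq p hp hpq.symm
        rw [hF.symm q p] at g2
        have hG : Good K1 (F p q) (comp (F s t) a b (F p s) (F p t))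
            (comp (F s t) a b (F q s) (F q t)) _ _ :=
          ⟨comp_tri hD hg.1 (triF p q s) (triF p q t), g1, g2⟩
        have g3 := hR _ _ _ _ hG
        have e : comp (F s t) a b (comp (F p q) hp' hq' (F s p) (F s q))
            (comp (F p q) hp' hq' (F t p) (F t q)) =
            comp (F p q) (comp (F s t) a b (F p s) (F p t)) (comp (F s t) a b (F q s) (F q t))
              hp' hq' := by
          rw [hF.symm s p, hF.symm s q, hF.symm t p, hF.symm t q, comp_assoc hD hDpq]
        rw [e]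
        refine le_trans ?_ g3
        have s1 := hd.symm s p
        have s2 := hd.symm s q
        have s3 := hd.symm t p
        have s4 := hd.symm t q
        rw [s1, s2, s3, s4]
        apply le_min
        · rcases min_cases (τa + d p s) (τb + d p t) with ⟨h, -⟩ | ⟨h, -⟩ <;> rw [h]
          · refine (min_le_left _ _).trans ?_
            linarith only [min_le_left (δp + d p s) (δq + d q s)]
          · refine (min_le_right _ _).trans ?_
            linarith only [min_le_left (δp + d p t) (δq + d q t)]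
        · rcases min_cases (τa + d q s) (τb + d q t) with ⟨h, -⟩ | ⟨h, -⟩ <;> rw [h]
          · refine (min_le_left _ _).trans ?_
            linarith only [min_le_right (δp + d p s) (δq + d q s)]
          · refine (min_le_right _ _).trans ?_
            linarith only [min_le_right (δp + d p t) (δq + d q t)]
      have g3 := EA.up3 s hsA t htA hst _ _ _ _ (prof p q hDpq hp' hq' hT) hR' u hu v hv huv
      rw [assoc_cross hF hD hDpq (hcross u hu p hp) (hcross u hu q hq),
        assoc_cross hF hD hDpq (hcross v hv p hp) (hcross v hv q hq)]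
      exact (tri_min hd δp δq p q s t u).trans g3
    · exact EB.up3 p hp q hq hpq hp' hq' δp δq hT hR u hu v hv huv
  · intro x _ u _ v _ huv
    rcases hmem x with hx | hx <;> rcases hedge u v huv with ⟨hu, hv⟩ | ⟨hu, hv⟩
    · exact EA.sp x hx u hu v hv huv
    · have g1 := EA.sp x hx s hsA t htA hst
      have g2 := EA.sp x hx t htA s hsA hst.symm
      rw [hF.symm t s] at g2
      have hG : Good (5 * K1) (F s t) (F x s) (F x t) (d x s) (d x t) :=
        ⟨hF.Tri s t x, g1, g2⟩
      have g3 := EB.chain (5 * K1) hK5 _ _ _ _ hG u hu v hv huv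
      rw [hcross x hx u hu, hcross x hx v hv]
      refine le_trans ?_ g3
      exact le_min (hd.tri x s u) (hd.tri x t u)
    · have hR' : Resp K1 (F s t) (F x s) (F x t) (d x s) (d x t) := by
        intro a b τa τb hg
        have := EB.chain' K1 le_rfl a b τa τb hg x hx
        rw [hd.symm s x, hd.symm t x] at this
        exact this
      have g3 := EA.up3 s hsA t htA hst _ _ _ _ (hF.Tri s t x) hR' u hu v hv huv
      rw [hcross' x hx u hu, hcross' x hx v hv]
      refine le_trans ?_ g3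
      exact le_min (hd.tri x s u) (hd.tri x t u)
    · exact EB.sp x hx u hu v hv huv
  · have key : ∀ x ∈ A, ∀ u ∈ B, d x u ≤ 5 * (5 * K1) * F x u := by
      intro x hx u hu
      have g1 := EA.sp x hx s hsA t htA hst
      have g2 := EA.sp x hx t htA s hsA hst.symm
      rw [hF.symm t s] at g2
      have hG : Good (5 * K1) (F s t) (F x s) (F x t) (d x s) (d x t) :=
        ⟨hF.Tri s t x, g1, g2⟩
      have g3 := EB.chain' (5 * K1) hK5 _ _ _ _ hG u hu
      rw [hcross x hx u hu]
      refine le_trans ?_ g3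
      exact le_min (hd.tri x s u) (hd.tri x t u)
    intro x _ u _
    rcases hmem x with hx | hx <;> rcases hmem u with hu | hu
    · exact EA.sp' x hx u hu
    · exact key x hx u hu
    · rw [hd.symm, hF.symm]; exact key u hu x hx
    · exact EB.sp' x hx u hu

end glue

theorem base_step {V : Type} [Finite V] {G : SimpleGraph V} {c c0 K1 : ℝ} (hc : 0 < c)
    (hc1 : c ≤ 1) (hc0 : c0 = c / 30) (hK : K1 = 4 / c0) (hLL : LineLip G c)
    {d : V → V → ℝ} (hd : IsMet d) (hG : Gen G d) {s t : V} (hst : G.Adj s t) {D : ℝ}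
    (hD1 : c0 * d s t ≤ D) (hD2 : D ≤ d s t) :
    ∃ F : V → V → ℝ, IsL1 F ∧ F s t = D ∧ EmbOn Set.univ G d c0 K1 s t F := by
  have hc0' : 0 < c0 := by rw [hc0]; (clear * - hc; positivity)
  have hc03 : c0 ≤ 1 / 3 := by rw [hc0]; linarith only [hc1]
  have hD : 0 < D := (mul_pos hc0' (hd.pos s t hst.ne)).trans_le hD1
  have hK1c : K1 * c0 = 4 := by rw [hK]; (clear * - hc0'; field_simp)
  have hK1 : 0 < K1 := by rw [hK]; positivity
  obtain ⟨F, hF, hFst, hlow, hup, hΦ⟩ := piece hc hc1 hc0 hLL hd hG hst hD1 hD2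
  refine ⟨F, hF, hFst, ?_⟩
  have triF : ∀ x y z, Tri (F x y) (F x z) (F y z) := by
    intro x y z
    have := hF.Tri x y z
    rw [hF.symm z x, hF.symm z y] at this
    exact this
  -- the chain step for all pairs
  have hstep : ∀ K, K1 ≤ K → ∀ a b τa τb, Good K (F s t) a b τa τb → ∀ u v,
      min (τa + d s u) (τb + d t u) ≤ K * pot (F u v) (comp (F s t) a b (F u s) (F u t))
      (comp (F s t) a b (F v s) (F v t)) := by
    intro K hKK a b τa τb hg u v
    rw [hFst] at hg ⊢
    have h1 := hΦ u v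
    rw [hd.symm u s, hd.symm u t] at h1
    have T1 := hF.Tri s t u
    have T2 := hF.Tri s t v
    rw [hFst] at T1 T2
    refine step hc0' hc03 (by rw [← hK]; exact hKK) hD hg T1 T2 (triF u v s) (triF u v t)
      ?_ ?_ ?_ ?_ h1
    · rw [hd.symm s u]; exact hlow u s
    · rw [hd.symm t u]; exact hlow u t
    · rw [hd.symm s u]; exact hup u s
    · rw [hd.symm t u]; exact hup u t
  have hDF : 0 < F s t := by rw [hFst]; exact hD
  have hpt : ∀ K, K1 ≤ K → ∀ x u, d x u ≤ K * F x u := by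
    intro K hKK x u
    have h1 := hlow x u
    have h2 := hF.nonneg x u
    have h3 := hd.nonneg x u
    have h4 : d x u ≤ K1 * F x u := by
      have : K1 * (c0 * d x u) ≤ K1 * F x u := mul_le_mul_of_nonneg_left h1 hK1.le
      rw [← mul_assoc, hK1c] at this
      linarith only [h3, this]
    exact h4.trans (mul_le_mul_of_nonneg_right hKK h2)
  constructor
  · intro u _ v _ _; exact hlow u v
  · intro u _ v _ _; exact hup u v
  · intro K hKK a b τa τb hg u _ v _ _
    exact hstep K hKK a b τa τb hg u v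
  · intro K hKK a b τa τb hg u _
    refine (hstep K hKK a b τa τb hg u s).trans ?_
    have hT : Tri (F u s) (comp (F s t) a b (F u s) (F u t)) (comp (F s t) a b (F s s) (F s t)) :=
      comp_tri hDF hg.1 (triF u s s) (triF u s t)
    have := mul_le_mul_of_nonneg_left (pot_le hT) (hK1.le.trans hKK)
    linarith only [this]
  · intro p _ q _ hpq hp' hq' δp δq hT hR u _ v _ _
    have hDpq : 0 < F p q := (mul_pos hc0' (hd.pos p q hpq.ne)).trans_le (hlow p q)
    have hpot : ∀ a b, Tri (F p q) a b → a ≤ pot (F p q) a b := fun a b h => pot_ge h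
    have hG : Good K1 (F p q) (F u p) (F u q) (d u p) (d u q) := by
      refine ⟨hF.Tri p q u, ?_, ?_⟩
      · exact (hpt K1 le_rfl u p).trans
          (mul_le_mul_of_nonneg_left (pot_ge (hF.Tri p q u)) hK1.le)
      · exact (hpt K1 le_rfl u q).trans
          (mul_le_mul_of_nonneg_left (pot_ge (hF.Tri p q u).swap) hK1.le)
    have g := hR _ _ _ _ hG
    rw [comp_comm hDpq] at g
    have hT2 : Tri (F u v) (comp (F p q) hp' hq' (F u p) (F u q))
        (comp (F p q) hp' hq' (F v p) (F v q)) := comp_tri hDpq hT (triF u v p) (triF u v q)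
    have := mul_le_mul_of_nonneg_left (pot_ge hT2) (by linarith only [hK1] : 0 ≤ 5 * K1)
    refine le_trans ?_ (g.trans this)
    rw [hd.symm p u, hd.symm q u, add_comm δp, add_comm δq]
  · intro x _ u _ v _ _
    refine (hpt (5 * K1) (by linarith only [hK1]) x u).trans ?_
    apply mul_le_mul_of_nonneg_left (pot_ge _) (by linarith only [hK1])
    exact hF.Tri u v x
  · intro x _ u _
    exact hpt (5 * (5 * K1)) (by linarith only [hK1]) x u

theorem gen_induce {V : Type} {A B : Set V} {G : SimpleGraph V} {d : V → V → ℝ} {s t : V}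
    (hd : IsMet d) (hG : Gen G d) (hAB : A ∪ B = Set.univ) (hI : A ∩ B = {s, t})
    (hsA : s ∈ A) (htA : t ∈ A) (hst : G.Adj s t)
    (hno : ∀ a b, a ∉ B → b ∉ A → ¬ G.Adj a b) :
    Gen (G.induce A) (fun x y : A => d x y) := by
  classical
  intro f hf x y
  set h : V → ℝ := fun x => min (f ⟨s, hsA⟩ + d s x) (f ⟨t, htA⟩ + d t x) with hh
  set f' : V → ℝ := fun x => if hx : x ∈ A then f ⟨x, hx⟩ else h x with hf'
  have hfst : |f ⟨s, hsA⟩ - f ⟨t, htA⟩| ≤ d s t := hf ⟨s, hsA⟩ ⟨t, htA⟩ hst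
  rw [abs_le] at hfst
  have hhs : h s = f ⟨s, hsA⟩ := by
    show min _ _ = _
    rw [hd.self, add_zero, min_eq_left]
    rw [hd.symm t s]; linarith only [hfst]
  have hht : h t = f ⟨t, htA⟩ := by
    show min _ _ = _
    rw [hd.self, add_zero, min_eq_right]
    linarith only [hfst]
  have hB : ∀ x ∈ B, f' x = h x := by
    intro x hx
    show (if hx : x ∈ A then f ⟨x, hx⟩ else h x) = h x
    split_ifs with hxA
    · have : x ∈ A ∩ B := ⟨hxA, hx⟩
      rw [hI] at this
      rcases this with h1 | h1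
      · subst h1; exact hhs.symm
      · have h1 : x = t := h1
        subst h1; exact hht.symm
    · rfl
  have hlip : ∀ u v, |h u - h v| ≤ d u v := by
    intro u v
    refine (abs_min_sub_min_le_max _ _ _ _).trans (max_le ?_ ?_)
    · have : f ⟨s, hsA⟩ + d s u - (f ⟨s, hsA⟩ + d s v) = d u s - d v s := by
        rw [hd.symm s u, hd.symm s v]; ring
      rw [this]; exact abs_dist_sub hd u v s
    · have : f ⟨t, htA⟩ + d t u - (f ⟨t, htA⟩ + d t v) = d u t - d v t := by
        rw [hd.symm t u, hd.symm t v]; ring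
      rw [this]; exact abs_dist_sub hd u v t
  have hmem : ∀ u, u ∈ A ∨ u ∈ B := by
    intro u
    have : u ∈ A ∪ B := by rw [hAB]; trivial
    exact this
  have hf'A : ∀ x : A, f' x = f x := by
    intro x
    show (if hx : (x : V) ∈ A then f ⟨x, hx⟩ else h x) = f x
    rw [dif_pos x.2]
  have key : ∀ u v, G.Adj u v → |f' u - f' v| ≤ d u v := by
    intro u v huv
    by_cases hu : u ∈ A
    · by_cases hv : v ∈ A
      · have := hf ⟨u, hu⟩ ⟨v, hv⟩ huv
        rw [hf'A ⟨u, hu⟩, hf'A ⟨v, hv⟩]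
        exact this
      · have hvB := (hmem v).resolve_left hv
        by_cases huB : u ∈ B
        · rw [hB u huB, hB v hvB]; exact hlip u v
        · exact absurd huv (hno u v huB hv)
    · have huB := (hmem u).resolve_left hu
      by_cases hvB : v ∈ B
      · rw [hB u huB, hB v hvB]; exact hlip u v
      · exact absurd huv.symm (hno v u hvB hu)
  have := hG f' key x y
  rw [hf'A, hf'A] at this
  exact this

theorem isMet_induce {V : Type} {A : Set V} {d : V → V → ℝ} (hd : IsMet d) :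
    IsMet (fun x y : A => d x y) :=
  ⟨fun x => hd.self x, fun x y hxy => hd.pos x y (fun h => hxy (Subtype.ext h)),
    fun x y => hd.symm x y, fun x y z => hd.tri x y z⟩

theorem main_induct {p : ℕ} {c c0 K1 : ℝ} (hc : 0 < c) (hc1 : c ≤ 1) (hc0 : c0 = c / 30)
    (hK : K1 = 4 / c0)
    (hLL : ∀ {V : Type} [Finite V] (G : SimpleGraph V), PathwidthLE G p → LineLip G c)
    {V : Type} {G : SimpleGraph V} (hE : EdgeSum p G) :
    Finite V → ∀ d : V → V → ℝ, IsMet d → Gen G d → ∀ s t : V, G.Adj s t → ∀ D : ℝ,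
      c0 * d s t ≤ D → D ≤ d s t →
      ∃ F : V → V → ℝ, IsL1 F ∧ F s t = D ∧ EmbOn Set.univ G d c0 K1 s t F := by
  have hc0' : 0 < c0 := by rw [hc0]; positivity
  have hK1 : 0 < K1 := by rw [hK]; positivity
  induction hE with
  | base hp =>
    intro hfin d hd hG s t hst D hD1 hD2
    exact base_step hc hc1 hc0 hK (hLL _ hp) hd hG hst hD1 hD2
  | @del V G G' _ hle ih =>
    intro hfin d hd hG s t hst D hD1 hD2
    have hG2 : Gen G d := fun f hf => hG f (fun u v huv => hf u v (hle huv))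
    obtain ⟨F, h1, h2, h3⟩ := ih hfin d hd hG2 s t (hle hst) D hD1 hD2
    refine ⟨F, h1, h2, ?_⟩
    constructor
    · intro u hu v hv huv; exact h3.low u hu v hv (hle huv)
    · intro u hu v hv huv; exact h3.up u hu v hv (hle huv)
    · intro K hK a b τa τb hg u hu v hv huv
      exact h3.chain K hK a b τa τb hg u hu v hv (hle huv)
    · exact h3.chain'
    · intro p hp q hq hpq hp' hq' δp δq hT hR u hu v hv huv
      exact h3.up3 p hp q hq (hle hpq) hp' hq' δp δq hT hR u hu v hv (hle huv)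
    · intro x hx u hu v hv huv
      exact h3.sp x hx u hu v hv (hle huv)
    · exact h3.sp'
  | @glue V G A B s t hst hAB hI hno _ _ ihA ihB =>
    intro hfin d hd hG s0 t0 hst0 D0 hD1 hD2
    have hsAB : s ∈ A ∩ B := by rw [hI]; exact Or.inl rfl
    have htAB : t ∈ A ∩ B := by rw [hI]; exact Or.inr rfl
    obtain ⟨hsA, hsB⟩ := hsAB
    obtain ⟨htA, htB⟩ := htAB
    have hmem : ∀ u, u ∈ A ∨ u ∈ B := by
      intro u
      have : u ∈ A ∪ B := by rw [hAB]; trivial
      exact this
    have hedge : ∀ u v, G.Adj u v → (u ∈ A ∧ v ∈ A) ∨ (u ∈ B ∧ v ∈ B) := by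
      intro u v huv
      by_cases hu : u ∈ A
      · by_cases hv : v ∈ A
        · exact Or.inl ⟨hu, hv⟩
        · have hvB := (hmem v).resolve_left hv
          by_cases huB : u ∈ B
          · exact Or.inr ⟨huB, hvB⟩
          · exact absurd huv (hno u v huB hv)
      · have huB := (hmem u).resolve_left hu
        by_cases hvB : v ∈ B
        · exact Or.inr ⟨huB, hvB⟩
        · exact absurd huv.symm (hno v u hvB hu)
    have hAB' : B ∪ A = Set.univ := by rw [Set.union_comm]; exact hAB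
    have hI' : B ∩ A = {s, t} := by rw [Set.inter_comm]; exact hI
    have hno' : ∀ a b, a ∉ A → b ∉ B → ¬ G.Adj a b := fun a b ha hb h => hno b a hb ha h.symm
    have gA := gen_induce hd hG hAB hI hsA htA hst hno
    have gB := gen_induce hd hG hAB' hI' hsB htB hst hno'
    have mA : IsMet (fun x y : A => d x y) := isMet_induce hd
    have mB : IsMet (fun x y : B => d x y) := isMet_induce hd
    rcases hedge s0 t0 hst0 with ⟨hs0, ht0⟩ | ⟨hs0, ht0⟩
    · obtain ⟨FA, lA, eA, EA⟩ := ihA inferInstance _ mA gA ⟨s0, hs0⟩ ⟨t0, ht0⟩ hst0 D0 hD1 hD2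
      have low := EA.low ⟨s, hsA⟩ trivial ⟨t, htA⟩ trivial hst
      have up := EA.up ⟨s, hsA⟩ trivial ⟨t, htA⟩ trivial hst
      obtain ⟨FB, lB, eB, EB⟩ := ihB inferInstance _ mB gB ⟨s, hsB⟩ ⟨t, htB⟩ hst
        (FA ⟨s, hsA⟩ ⟨t, htA⟩) low up
      have hDpos : 0 < FA ⟨s, hsA⟩ ⟨t, htA⟩ := (mul_pos hc0' (hd.pos s t hst.ne)).trans_le low
      obtain ⟨F, hF, hFA, hFB, hFAB⟩ := glue A B s t hAB hI FA FB lA lB hsA htA hsB htB _ hDpos
        rfl eB
      have EA' := EA.transfer hFA
      have EB' := EB.transfer hFB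
      refine ⟨F, hF, ?_, ?_⟩
      · have := hFA ⟨s0, hs0⟩ ⟨t0, ht0⟩
        rw [eA] at this
        exact this
      · refine glue_step hd hc0' hK1.le hF hAB hsA htA hst hno hs0 ht0 hst0 EA' EB' ?_
        intro x hx z hz
        have e1 := hFAB ⟨x, hx⟩ ⟨z, hz⟩
        rw [← hFA, ← hFA, ← hFB, ← hFB, ← hFA] at e1
        exact e1
    · obtain ⟨FB, lB, eB, EB⟩ := ihB inferInstance _ mB gB ⟨s0, hs0⟩ ⟨t0, ht0⟩ hst0 D0 hD1 hD2
      have low := EB.low ⟨s, hsB⟩ trivial ⟨t, htB⟩ trivial hst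
      have up := EB.up ⟨s, hsB⟩ trivial ⟨t, htB⟩ trivial hst
      obtain ⟨FA, lA, eA, EA⟩ := ihA inferInstance _ mA gA ⟨s, hsA⟩ ⟨t, htA⟩ hst
        (FB ⟨s, hsB⟩ ⟨t, htB⟩) low up
      have hDpos : 0 < FB ⟨s, hsB⟩ ⟨t, htB⟩ := (mul_pos hc0' (hd.pos s t hst.ne)).trans_le low
      obtain ⟨F, hF, hFB, hFA, hFAB⟩ := glue B A s t hAB' hI' FB FA lB lA hsB htB hsA htA _ hDpos
        rfl eA
      have EA' := EA.transfer hFA
      have EB' := EB.transfer hFB
      refine ⟨F, hF, ?_, ?_⟩
      · have := hFB ⟨s0, hs0⟩ ⟨t0, ht0⟩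
        rw [eB] at this
        exact this
      · refine glue_step hd hc0' hK1.le hF hAB' hsB htB hst hno' hs0 ht0 hst0 EB' EA' ?_
        intro x hx z hz
        have e1 := hFAB ⟨x, hx⟩ ⟨z, hz⟩
        rw [← hFA, ← hFA, ← hFB, ← hFB, ← hFB] at e1
        exact e1

end Vale.Agent.P235
end
end
end

section

section

section

namespace Vale.Agent.P235

open MeasureTheory

section pathDist
variable {V : Type} {G : SimpleGraph V} {ℓ : Sym2 V → ℝ}

theorem walk_nonneg (hℓ : ∀ e ∈ G.edgeSet, 0 < ℓ e) {x y : V} (w : G.Walk x y) :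
    0 ≤ (w.edges.map ℓ).sum := by
  apply List.sum_nonneg
  intro a ha
  rw [List.mem_map] at ha
  obtain ⟨e, he, rfl⟩ := ha
  exact (hℓ e (w.edges_subset_edgeSet he)).le

theorem bdd (hℓ : ∀ e ∈ G.edgeSet, 0 < ℓ e) (x y : V) :
    BddBelow (Set.range fun w : G.Walk x y => (w.edges.map ℓ).sum) :=
  ⟨0, by rintro _ ⟨w, rfl⟩; exact walk_nonneg hℓ w⟩

theorem pathDist_le (hℓ : ∀ e ∈ G.edgeSet, 0 < ℓ e) {x y : V} (w : G.Walk x y) :
    pathDist G ℓ x y ≤ (w.edges.map ℓ).sum := ciInf_le (bdd hℓ x y) w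

theorem pathDist_adj (hℓ : ∀ e ∈ G.edgeSet, 0 < ℓ e) {x y : V} (h : G.Adj x y) :
    pathDist G ℓ x y ≤ ℓ s(x, y) := by
  have := pathDist_le hℓ h.toWalk
  simpa only [ge_iff_le, SimpleGraph.Walk.edges_cons, SimpleGraph.Walk.edges_nil, List.map_cons, List.map_nil,     List.sum_cons, List.sum_nil, add_zero] using this

theorem walk_lip {f : V → ℝ} (hf : ∀ u v, G.Adj u v → |f u - f v| ≤ ℓ s(u, v)) {x y : V}
    (w : G.Walk x y) : |f x - f y| ≤ (w.edges.map ℓ).sum := by
  induction w with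
  | nil => simp
  | cons h p ih =>
    rw [SimpleGraph.Walk.edges_cons, List.map_cons, List.sum_cons]
    refine (abs_sub_le _ _ _).trans (add_le_add (hf _ _ h) ih)

theorem pathDist_gen (hc : G.Connected) {f : V → ℝ}
    (hf : ∀ u v, G.Adj u v → |f u - f v| ≤ ℓ s(u, v)) (x y : V) :
    |f x - f y| ≤ pathDist G ℓ x y := by
  have : Nonempty (G.Walk x y) := hc x y
  exact le_ciInf fun w => walk_lip hf w

theorem pathDist_isMet [Finite V] (hc : G.Connected) (hℓ : ∀ e ∈ G.edgeSet, 0 < ℓ e) :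
    IsMet (pathDist G ℓ) := by
  constructor
  · intro x
    apply le_antisymm
    · simpa only [SimpleGraph.Walk.edges_nil, List.map_nil, List.sum_nil] using     pathDist_le hℓ (SimpleGraph.Walk.nil : G.Walk x x)
    · have : Nonempty (G.Walk x x) := hc x x
      exact le_ciInf fun w => walk_nonneg hℓ w
  · intro x y hxy
    have : Nonempty (G.Walk x y) := hc x y
    have hfin : (G.edgeSet).Finite := Set.toFinite _
    obtain ⟨ε, hε, hle⟩ : ∃ ε > 0, ∀ e ∈ G.edgeSet, ε ≤ ℓ e := by
      rcases Set.eq_empty_or_nonempty G.edgeSet with h | h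
      · exact ⟨1, one_pos, by simp only [h, Set.mem_empty_iff_false, IsEmpty.forall_iff, implies_true]⟩
      · obtain ⟨e0, he0, hmin⟩ := hfin.exists_minimalFor ℓ _ h
        refine ⟨ℓ e0, hℓ e0 he0, fun e he => ?_⟩
        rcases le_total (ℓ e0) (ℓ e) with h' | h'
        · exact h'
        · exact hmin he h'
    refine hε.trans_le (le_ciInf fun w => ?_)
    cases w with
    | nil => exact absurd rfl hxy
    | cons h p =>
      rw [SimpleGraph.Walk.edges_cons, List.map_cons, List.sum_cons]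
      have := walk_nonneg hℓ p
      have := hle _ (G.mem_edgeSet.mpr h)
      linarith
  · intro x y
    have : Nonempty (G.Walk x y) := hc x y
    have : Nonempty (G.Walk y x) := hc y x
    have key : ∀ a b : V, Nonempty (G.Walk b a) → pathDist G ℓ a b ≤ pathDist G ℓ b a := by
      intro a b hne
      refine le_ciInf fun w => ?_
      refine (pathDist_le hℓ w.reverse).trans ?_
      rw [SimpleGraph.Walk.edges_reverse, List.map_reverse, List.sum_reverse]
    exact le_antisymm (key x y inferInstance) (key y x inferInstance)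
  · intro x y z
    have : Nonempty (G.Walk x y) := hc x y
    have : Nonempty (G.Walk y z) := hc y z
    have h1 : ∀ w : G.Walk y z, pathDist G ℓ x z - (w.edges.map ℓ).sum ≤ pathDist G ℓ x y := by
      intro w
      refine le_ciInf fun w' => ?_
      have := pathDist_le hℓ (w'.append w)
      rw [SimpleGraph.Walk.edges_append, List.map_append, List.sum_append] at this
      linarith
    have h2 : pathDist G ℓ x z - pathDist G ℓ x y ≤ pathDist G ℓ y z := by
      refine le_ciInf fun w => ?_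
      linarith [h1 w]
    linarith

end pathDist

theorem IsL1.embeds {V : Type} {F d : V → V → ℝ} {C : ℝ} (hF : IsL1 F)
    (h1 : ∀ x y, d x y ≤ F x y) (h2 : ∀ x y, F x y ≤ C * d x y) : EmbedsL1 d C := by
  obtain ⟨ι, _, w, c, hw, hFc⟩ := hF
  let f : V → ι → ℝ := fun x i => w i * (if c i x then 1 else 0)
  let _ : MeasurableSpace ι := ⊤
  have hmem : ∀ x, MemLp (f x) 1 (Measure.count : Measure ι) := fun x => by
    apply MemLp.of_discrete
  refine ⟨ι, ⊤, Measure.count, fun x => (hmem x).toLp (f x), ?_⟩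
  have key : ∀ x y, ‖(hmem x).toLp (f x) - (hmem y).toLp (f y)‖ = F x y := by
    intro x y
    rw [← MemLp.toLp_sub, Lp.norm_toLp, eLpNorm_one_eq_lintegral_enorm, lintegral_count,
      tsum_fintype, ENNReal.toReal_sum (fun i _ => by simp), hFc]
    apply Finset.sum_congr rfl
    intro i _
    rw [toReal_enorm]
    show ‖w i * (if c i x then 1 else 0) - w i * (if c i y then 1 else 0)‖ = _
    rw [← mul_sub, norm_mul, Real.norm_of_nonneg (hw i)]
    cases c i x <;> cases c i y <;> simp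
  intro x y
  rw [key]
  exact ⟨h1 x y, h2 x y⟩

theorem LineLip.mono {V : Type} {G : SimpleGraph V} {c c' : ℝ} (h : LineLip G c) (hc : c' ≤ c) :
    LineLip G c' := by
  intro ρ hρ hG
  obtain ⟨ι, hι, w, g, h1, h2, h3, h4⟩ := h ρ hρ hG
  refine ⟨ι, hι, w, g, h1, h2, h3, fun x y => le_trans ?_ (h4 x y)⟩
  exact mul_le_mul_of_nonneg_right hc (hρ.nonneg x y)

theorem distortion_of_lineLip {p : ℕ}
    (hLL : ∃ c : ℝ, 0 < c ∧ ∀ {V : Type} [Finite V] (G : SimpleGraph V),
      PathwidthLE G p → LineLip G c) :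
    ∃ C : ℝ, ∀ (V : Type) [Finite V] (G : SimpleGraph V), G.Connected → EdgeSum p G →
      DistortionLE G C := by
  obtain ⟨c', hc', hLL'⟩ := hLL
  set c := min c' 1 with hcdef
  have hc : 0 < c := lt_min hc' one_pos
  have hc1 : c ≤ 1 := min_le_right _ _
  have hLL : ∀ {V : Type} [Finite V] (G : SimpleGraph V), PathwidthLE G p → LineLip G c :=
    fun G hG => (hLL' G hG).mono (min_le_left _ _)
  refine ⟨5 * (5 * (4 / (c / 30))), ?_⟩
  intro V _ G hconn hE ℓ hℓ
  have hK : 0 < 5 * (5 * (4 / (c / 30))) := by positivity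
  have hd := pathDist_isMet hconn hℓ
  by_cases hV : ∃ s t : V, G.Adj s t
  · obtain ⟨s, t, hst⟩ := hV
    have hgen : Gen G (pathDist G ℓ) := by
      intro f hf x y
      exact pathDist_gen hconn (fun u v huv => (hf u v huv).trans (pathDist_adj hℓ huv)) x y
    have hst0 : 0 < pathDist G ℓ s t := hd.pos s t hst.ne
    have hle : c / 30 * pathDist G ℓ s t ≤ pathDist G ℓ s t := by
      have : c / 30 ≤ 1 := by linarith only [hc1]
      calc c / 30 * pathDist G ℓ s t ≤ 1 * pathDist G ℓ s t :=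
            mul_le_mul_of_nonneg_right this hst0.le
        _ = _ := one_mul _
    obtain ⟨F, hF, _, hEmb⟩ := main_induct hc hc1 rfl rfl hLL hE inferInstance _ hd hgen s t hst
      (pathDist G ℓ s t) hle le_rfl
    have hup : ∀ x y, F x y ≤ pathDist G ℓ x y := by
      intro x y
      have h1 : ∀ u v, G.Adj u v → |F x u - F x v| ≤ pathDist G ℓ u v := by
        intro u v huv
        rw [hF.symm x u, hF.symm x v]
        exact (hF.abs_sub_le u v x).trans (hEmb.up u trivial v trivial huv)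
      have h2 := hgen (fun u => F x u) h1 x y
      rw [hF.self, zero_sub, abs_neg, abs_of_nonneg (hF.nonneg x y)] at h2
      exact h2
    refine (hF.smul hK.le).embeds (fun x y => hEmb.sp' x trivial y trivial) (fun x y => ?_)
    exact mul_le_mul_of_nonneg_left (hup x y) hK.le
  · have hsub : ∀ x y : V, x = y := by
      intro x y
      by_contra hxy
      obtain ⟨w⟩ := hconn x y
      cases w with
      | nil => exact hxy rfl
      | cons h p => exact hV ⟨_, _, h⟩
    refine (IsL1.zero : IsL1 (fun _ _ : V => (0 : ℝ))).embeds (fun x y => ?_) (fun x y => ?_)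
    · rw [hsub x y, hd.self]
    · rw [hsub x y, hd.self, mul_zero]

end Vale.Agent.P235
end
end
end

section

section

section

namespace Vale.Agent.P235

/-- graphs of bounded pathwidth are line-Lipschitz -/
theorem lineLip_of_pathwidth (p : ℕ) :
    ∃ c : ℝ, 0 < c ∧ ∀ {V : Type} [Finite V] (G : SimpleGraph V), PathwidthLE G p → LineLip G c :=
  lineLip_of_statements (by norm_num) (by norm_num) fan barrier transversal p

theorem edgeSum_pathwidth (p : ℕ) :
    ∃ C : ℝ, ∀ (V : Type) [Finite V] (G : SimpleGraph V), G.Connected →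
      EdgeSum p G → DistortionLE G C :=
  distortion_of_lineLip (lineLip_of_pathwidth p)

end Vale.Agent.P235
end
end
end

section

section

section

namespace Vale.Agent.P235T3

open MeasureTheory

theorem ne_case {i j : Fin 3} (hij : i ≠ j) :
    (∃ k : Fin 3, i = k + 1 ∧ j = k + 2) ∨ (∃ k : Fin 3, j = k + 1 ∧ i = k + 2) := by
  revert i j
  (clear * -; decide)

theorem ne01 (k : Fin 3) : ¬ (k = k + 1) := by revert k; decide
theorem ne02 (k : Fin 3) : ¬ (k = k + 2) := by revert k; decide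
theorem ne10 (k : Fin 3) : ¬ (k + 1 = k) := by revert k; decide
theorem ne20 (k : Fin 3) : ¬ (k + 2 = k) := by revert k; decide
theorem ne12 (k : Fin 3) : ¬ (k + 1 = k + 2) := by revert k; decide
theorem ne21 (k : Fin 3) : ¬ (k + 2 = k + 1) := by revert k; decide

section root
variable {V : Type} [DecidableEq V]

/-- starting cut functional on a triple -/
noncomputable def root (T : Fin 3 → V) (w : Fin 3 → ℝ) (hw : ∀ k, 0 ≤ w k) : CF V where
  L :=
    { toFun := fun φ => ∑ k, w k * φ (fun v => decide (v = T k))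
      map_add' := by
        intro f g
        rw [← Finset.sum_add_distrib]
        apply Finset.sum_congr rfl
        intro k _
        simp only [Pi.add_apply]
        ring
      map_smul' := by
        intro a f
        simp only [RingHom.id_apply, smul_eq_mul]
        rw [Finset.mul_sum]
        apply Finset.sum_congr rfl
        intro k _
        simp only [Pi.smul_apply, smul_eq_mul]
        ring }
  nn := by
    intro f hf
    show 0 ≤ ∑ k, w k * f (fun v => decide (v = T k))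
    exact Finset.sum_nonneg fun k _ => mul_nonneg (hw k) (hf _)

theorem root_L (T : Fin 3 → V) (w : Fin 3 → ℝ) (hw : ∀ k, 0 ≤ w k) (φ : (V → Bool) → ℝ) :
    (root T w hw).L φ = ∑ k, w k * φ (fun v => decide (v = T k)) := rfl

theorem root_wt {d : V → V → ℝ} (hd : PM d) {M : Loc} {T : Fin 3 → V} {w : Fin 3 → ℝ}
    (hw : ∀ k, 0 ≤ w k) (hg : M.Good w (lg d T)) : (root T w hw).wt T = w := by
  have hne : ∀ i j, i ≠ j → w i ≠ 0 → T j ≠ T i := by
    intro i j hij hwi hT
    apply hwi
    rcases ne_case hij with ⟨k, rfl, rfl⟩ | ⟨k, rfl, rfl⟩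
    · have h1 := M.hi _ _ hg k
      rw [lg_pair hd, hT, hd.self] at h1
      have h2 := hw (k + 1)
      have h3 := hw (k + 2)
      linarith only [h2, h1, h3]
    · have h1 := M.hi _ _ hg k
      rw [lg_pair hd, hT, hd.self] at h1
      have h2 := hw (k + 1)
      have h3 := hw (k + 2)
      linarith only [h3, h1, h2]
  funext k
  have hterm : ∀ j, w j * w3 (decide (T k = T j)) (decide (T (k + 1) = T j))
      (decide (T (k + 2) = T j)) = if j = k then w k else 0 := by
    intro j
    by_cases hwj : w j = 0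
    · rw [hwj]
      split_ifs with h
      · subst h
        rw [hwj]
        ring
      · ring
    · have hd' : ∀ i, decide (T i = T j) = decide (i = j) := by
        intro i
        by_cases hij : i = j
        · subst hij
          simp
        · simp [hij, hne j i (Ne.symm hij) hwj]
      rw [hd', hd', hd']
      rcases tri_case j k with h | h | h
      · subst h
        simp [w3, ne10, ne20]
      · subst h
        simp only [Fin.isValue, w3, left_eq_add, one_ne_zero, decide_false, decide_true, ne_eq, Bool.false_eq_true, not_false_eq_true, add_right_inj, Fin.reduceEq, Bool.true_eq_false, and_false, ↓reduceIte, mul_zero, add_eq_left]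
      · subst h
        simp [w3, ne02, ne12, ne20]
  show (root T w hw).L (fun χ => w3 (χ (T k)) (χ (T (k + 1))) (χ (T (k + 2)))) = w k
  rw [root_L]
  simp only
  rw [Finset.sum_congr rfl (fun j _ => hterm j)]
  simp

/-- embedding of a compatible structure -/
theorem embed_structure {d : V → V → ℝ} (hd : PM d) (M : Loc) {T : Fin 3 → V} {t : Tr V}
    (hOk : Ok d T t) (hT : ∀ j, T j ∉ t.verts) (hall : ∀ x, All T t x) :
    ∃ μ : CF V, ∀ x y, μ.F x y ≤ M.cu * d x y ∧ d x y ≤ K3 M * μ.F x y := by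
  obtain ⟨w, hw, hg⟩ := M.init (lg d T) (lg_nonneg hd T)
  have hwt := root_wt hd hw hg
  have hg' : M.Good ((root T w hw).wt T) (lg d T) := by rw [hwt]; exact hg
  obtain ⟨ν, hA, hR⟩ := claim hd M t T (root T w hw) hOk hT hg'
  have hc0 := M.c0_pos
  have hC := M.C_nonneg
  have hcu := M.cu_nonneg
  have h2 := K2_nonneg M
  have hinv : 1 / M.c0 ≤ K2 M := by
    unfold K2
    have : 1 / M.c0 ≤ (1 + M.cu * M.C) / M.c0 := by
      apply div_le_div_of_nonneg_right _ hc0.le
      nlinarith only [hcu, hC]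
    linarith only [hC, this]
  have hK23 : K2 M ≤ K3 M := by
    have h3 := mul_nonneg (mul_nonneg hcu hC) h2
    unfold K3
    linarith
  have hTT : ∀ i j, ν.F (T i) (T j) ≤ M.cu * d (T i) (T j) ∧
      M.c0 * d (T i) (T j) ≤ ν.F (T i) (T j) := by
    intro i j
    rw [hA.F (hT i) (hT j)]
    exact good_pair hd hg' i j
  have hTT' : ∀ i j, d (T i) (T j) ≤ (1 / M.c0) * ν.F (T i) (T j) := by
    intro i j
    rw [div_mul_eq_mul_div, one_mul, le_div_iff₀ hc0]
    have := (hTT i j).2
    linarith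
  have hxT : ∀ x ∈ t.verts, ∀ j, d x (T j) ≤ K2 M * ν.F x (T j) := by
    intro x hx j
    have h3 := hR.di hd hg' (hT j) hx
    obtain ⟨i, hi⟩ := di_ex (d := d) T x
    rw [hi, ν.F_symm] at h3
    have h4 := portal hd (M := M) (K' := 1 / M.c0) (by positivity) (hR.ub1 x hx i) (hTT' i j) h3
    have h5 : M.C + (1 + M.cu * M.C) * (1 / M.c0) = K2 M := by
      unfold K2
      ring
    rwa [h5] at h4
  refine ⟨ν, ?_⟩
  intro x y
  rcases hall x with ⟨i, rfl⟩ | hx
  · rcases hall y with ⟨j, rfl⟩ | hy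
    · refine ⟨(hTT i j).1, (hTT' i j).trans ?_⟩
      exact mul_le_mul_of_nonneg_right (hinv.trans hK23) (ν.F_nonneg _ _)
    · rw [hd.symm, ν.F_symm]
      exact ⟨hR.ub1 y hy i, (hxT y hy i).trans (mul_le_mul_of_nonneg_right hK23 (ν.F_nonneg _ _))⟩
  · rcases hall y with ⟨j, rfl⟩ | hy
    · exact ⟨hR.ub1 x hx j, (hxT x hx j).trans (mul_le_mul_of_nonneg_right hK23 (ν.F_nonneg _ _))⟩
    · exact ⟨hR.ub2 x hx y hy, hR.pb x hx y hy⟩

end root

/-- cut functionals give `L₁` embeddings -/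
theorem CF.embeds {V : Type} [Finite V] (μ : CF V) {d : V → V → ℝ} {C K : ℝ} (hK : 0 < K)
    (h1 : ∀ x y, d x y ≤ K * μ.F x y) (h2 : ∀ x y, μ.F x y ≤ C * d x y) :
    EmbedsL1 d (K * C) := by
  classical
  have := Fintype.ofFinite V
  set w : (V → Bool) → ℝ := fun χ => K * μ.L (fun χ' => if χ = χ' then 1 else 0) with hw
  have hw0 : ∀ χ, 0 ≤ w χ := fun χ => mul_nonneg hK.le (μ.nn _ (by
    intro χ'
    split_ifs <;> norm_num))
  have hF : ∀ x y, K * μ.F x y = ∑ χ : V → Bool, w χ * n2 (χ x) (χ y) := by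
    intro x y
    unfold CF.F
    rw [LinearMap.pi_apply_eq_sum_univ μ.L, Finset.mul_sum]
    apply Finset.sum_congr rfl
    intro χ _
    rw [hw]
    simp only [smul_eq_mul]
    ring
  let f : V → (V → Bool) → ℝ := fun x χ => w χ * (if χ x then 1 else 0)
  let _ : MeasurableSpace (V → Bool) := ⊤
  have hmem : ∀ x, MemLp (f x) 1 (Measure.count : Measure (V → Bool)) := fun x => by
    apply MemLp.of_discrete
  refine ⟨V → Bool, ⊤, Measure.count, fun x => (hmem x).toLp (f x), ?_⟩
  have key : ∀ x y, ‖(hmem x).toLp (f x) - (hmem y).toLp (f y)‖ = K * μ.F x y := by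
    intro x y
    rw [← MemLp.toLp_sub, Lp.norm_toLp, eLpNorm_one_eq_lintegral_enorm, lintegral_count,
      tsum_fintype, ENNReal.toReal_sum (fun i _ => by simp), hF]
    apply Finset.sum_congr rfl
    intro χ _
    rw [toReal_enorm]
    show ‖w χ * (if χ x then 1 else 0) - w χ * (if χ y then 1 else 0)‖ = _
    rw [← mul_sub, norm_mul, Real.norm_of_nonneg (hw0 χ)]
    unfold n2
    cases χ x <;> cases χ y <;> simp
  intro x y
  rw [key]
  refine ⟨h1 x y, ?_⟩
  have := mul_le_mul_of_nonneg_left (h2 x y) hK.le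
  linarith only [this]

/-- Main reduction: the local one-step theorem implies bounded distortion for treewidth 3. -/
theorem treewidth3_of_loc (M : Loc) : ∃ C : ℝ, ∀ (V : Type) [Finite V] (G : SimpleGraph V),
    G.Connected → TreewidthLE G 3 → DistortionLE G C := by
  refine ⟨(K3 M + 1) * M.cu, ?_⟩
  intro V _ G hc hG ℓ hℓ
  classical
  have hd := pathDist_PM hc hℓ
  obtain ⟨T, t, h1, h2, h3⟩ := exists_structure hc hℓ hG
  obtain ⟨μ, hμ⟩ := embed_structure hd M h1 h2 h3
  have hK3 : 0 ≤ K3 M := by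
    have h1 := M.C_nonneg
    have h2 := K2_nonneg M
    have h3 := M.cu_nonneg
    unfold K3
    (clear * - h1 h3 h2; positivity)
  refine μ.embeds (K := K3 M + 1) (by linarith) ?_ (fun x y => (hμ x y).1)
  intro x y
  have h4 := (hμ x y).2
  have h5 := μ.F_nonneg x y
  linarith

theorem treewidth3_of_oneStep {K1 K3' K4 : ℝ} (hK1 : 0 ≤ K1) (hK3 : 0 ≤ K3') (hK4 : 0 ≤ K4)
    (h : Vale.Agent.P235.Tri.OneStep K1 K3' K4) : ∃ C : ℝ, ∀ (V : Type) [Finite V]
    (G : SimpleGraph V), G.Connected → TreewidthLE G 3 → DistortionLE G C := by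
  obtain ⟨M, _⟩ := exists_loc hK1 hK3 hK4 h
  exact treewidth3_of_loc M

end Vale.Agent.P235T3
end
end
end

section

section

section

namespace Vale.Agent.P235.Tri

variable {oa ob oc va vb vc ya yb yc oz oa' ob' vz va' vb' ma mb mc mz Xa Xb Xc
    pa pb pc qa qb qz Y : ℝ}

/-- the case `qa ≥ 1/2 + 1/512` -/
theorem TA_big (h : Ctx oa ob oc va vb vc ya yb yc oz oa' ob' vz va' vb' ma mb mc mz Xa Xb Xc
      pa pb pc qa qb qz) (hY : 0 < Y) (hYa : Y ≤ ya)
    (hZ : (mz + Xc) * qz ≤ (1/10^10) * ((mz + Xc) + Y)) (hq : 1/2 + 1/512 ≤ qa) :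
    TA oa ob va vb ya yb vz va' vb' ma mb mz Xa Xb Xc qa qb qz := by
  unfold TA
  have hEz := Et_nonneg (mz + Xc) (ma + Xb) (mb + Xa) qa qb
  have hGz := Gt_nonneg ((oa + ob - va - vb) - 4 * ((ya - vz - va') + (yb - vz - vb')))
        (1 - qa - qb - qz)
  have w1 : 0 ≤ mz + Xc := by linarith only [h.mz0, h.Xc0]
  have w2 : 0 ≤ ma + Xb := by linarith only [h.ma0, h.Xb0]
  have h1 : (ma + Xb) * (1/256) ≤ (ma + Xb) * (2 * qa - 1) :=
    mul_le_mul_of_nonneg_left (by linarith only [hq]) w2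
  have h2 : ya ≤ 32 * ((mz + Xc) + (ma + Xb)) := by
    linarith only [h.wz, h.wa', h.vz0, h.va'0, h.hza]
  have h3 : (mz + Xc) + (ma + Xb) ≤ (33/32) * ya := by
    linarith only [h.wz, h.wa', h.Fza, h.hza]
  linarith only [h2, h1, w1, hGz, hEz, hZ, hYa, hY]

/-- the middle case `|qa + qb - 1| ≤ 1/256`, `wa' ≤ wb'` -/
theorem TA_mid (h : Ctx oa ob oc va vb vc ya yb yc oz oa' ob' vz va' vb' ma mb mc mz Xa Xb Xc
      pa pb pc qa qb qz) (hYa : Y ≤ ya)
    (hZ : (mz + Xc) * qz ≤ (1/10^10) * ((mz + Xc) + Y))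
    (hqa : 1/2 - 3/512 ≤ qa) (hqb : 1/2 - 3/512 ≤ qb) (hab : ma + Xb ≤ mb + Xa) :
    TA oa ob va vb ya yb vz va' vb' ma mb mz Xa Xb Xc qa qb qz := by
  unfold TA
  have hGz := Gt_nonneg ((oa + ob - va - vb) - 4 * ((ya - vz - va') + (yb - vz - vb')))
        (1 - qa - qb - qz)
  have w1 : 0 ≤ mz + Xc := by (clear * - h; linarith [h.mz0, h.Xc0])
  have w2 : 0 ≤ ma + Xb := by linarith only [h.ma0, h.Xb0]
  have hp : ∀ q : ℝ, 1/2 - 3/512 ≤ q → 0.97 ≤ phi q := by
    intro q hq
    have h1 : phi (1/2 - 3/512) ≤ phi q := phi_mono (by norm_num) hq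
    have h2 : phi (1/2 - 3/512) = 4 * (1/2 - 3/512) ^ 2 := phi_eq_of_le (by norm_num)
    rw [h2] at h1
    refine le_trans (by (clear * -; norm_num)) h1
  have hpa := hp qa hqa
  have hpb := hp qb hqb
  have hpp : 0.94 ≤ phi qa * phi qb := by nlinarith only [hpa, hpb]
  have hE : 0.94 * ((ma + Xb) - (mz + Xc)) ≤ Et (mz + Xc) (ma + Xb) (mb + Xa) qa qb := by
    unfold Et
    rw [min_eq_left hab]
    have h1 := le_max_right 0 ((ma + Xb) - (mz + Xc))
    have h2 := le_max_left 0 ((ma + Xb) - (mz + Xc))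
    have h3 : max 0 ((ma + Xb) - (mz + Xc)) * 0.94
        ≤ max 0 ((ma + Xb) - (mz + Xc)) * (phi qa * phi qb) := mul_le_mul_of_nonneg_left hpp h2
    linarith only [h1, h3]
  have hE0 := Et_nonneg (mz + Xc) (ma + Xb) (mb + Xa) qa qb
  have h1 : (ma + Xb) * (-(3/256)) ≤ (ma + Xb) * (2 * qa - 1) :=
    mul_le_mul_of_nonneg_left (by linarith only [hqa]) w2
  have h2 : ya ≤ 32 * ((mz + Xc) + (ma + Xb)) := by
    linarith only [h.wz, h.wa', h.vz0, h.va'0, h.hza]
  have h3 : (mz + Xc) + (ma + Xb) ≤ (33/32) * ya := by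
    linarith only [h.wz, h.wa', h.Fza, h.hza]
  rcases le_total (ma + Xb) (mz + Xc) with hc | hc
  · linarith only [hYa, hZ, hGz, w1, w2, hE, h1, h2]
  · linarith only [hYa, hZ, hGz, w1, w2, hE, h1, h2]

/-- the case `3 wa' ≤ wz` -/
theorem TA_C2 (h : Ctx oa ob oc va vb vc ya yb yc oz oa' ob' vz va' vb' ma mb mc mz Xa Xb Xc
      pa pb pc qa qb qz) (hY : 0 < Y) (hYa : Y ≤ ya)
    (hZ : (mz + Xc) * qz ≤ (1/10^10) * ((mz + Xc) + Y)) (hC : 3 * (ma + Xb) ≤ mz + Xc) :
    TA oa ob va vb ya yb vz va' vb' ma mb mz Xa Xb Xc qa qb qz := by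
  unfold TA
  have hEz := Et_nonneg (mz + Xc) (ma + Xb) (mb + Xa) qa qb
  have hGz := Gt_nonneg ((oa + ob - va - vb) - 4 * ((ya - vz - va') + (yb - vz - vb')))
        (1 - qa - qb - qz)
  have w1 : 0 ≤ mz + Xc := by linarith only [h.mz0, h.Xc0]
  have w2 : 0 ≤ ma + Xb := by linarith only [h.ma0, h.Xb0]
  have h1 : 0 ≤ (ma + Xb) * qa := mul_nonneg w2 h.qa0
  have h2 : ya ≤ 32 * ((mz + Xc) + (ma + Xb)) := by
    linarith only [h.wz, h.wa', h.vz0, h.va'0, h.hza]
  have h3 : (mz + Xc) + (ma + Xb) ≤ (33/32) * ya := by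
    linarith only [h.wz, h.wa', h.Fza, h.hza]
  linarith only [h2, h1, hGz, hEz, hC, hZ, hYa, hY]

/-- case C4, `oa ≤ ob` -/
theorem TA_C4 (h : Ctx oa ob oc va vb vc ya yb yc oz oa' ob' vz va' vb' ma mb mc mz Xa Xb Xc
      pa pb pc qa qb qz) (hYa : Y ≤ ya) (hY : 0 < Y)
    (hZ : (mz + Xc) * qz ≤ (1/10^10) * ((mz + Xc) + Y))
    (hC : mz + Xc < 3 * (ma + Xb)) (hu : qa + qb ≤ 1 - 1/256)
    (hg : (1/8192) * oa ≤ (oa + ob - va - vb) - 4 * ((ya - vz - va') + (yb - vz - vb')))
    (ho : oa' ≤ 2 * oa) :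
    TA oa ob va vb ya yb vz va' vb' ma mb mz Xa Xb Xc qa qb qz := by
  unfold TA
  have hEz := Et_nonneg (mz + Xc) (ma + Xb) (mb + Xa) qa qb
  have w1 : 0 ≤ mz + Xc := by linarith only [h.mz0, h.Xc0]
  have w2 : 0 ≤ ma + Xb := by linarith only [hC, w1]
  obtain ⟨g, hgd⟩ : ∃ g, g = (oa + ob - va - vb) - 4 * ((ya - vz - va') + (yb - vz - vb')) := ⟨_, rfl⟩
  rw [← hgd] at hg ⊢
  -- vz ≥ oz + g/2
  have hvz : 2 * oz + g ≤ 2 * vz := by
    rw [hgd]; linarith only [h.hza, h.hzb, h.hab, h.hab', h.Fza, h.Fzb]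
  have hoa0 := h.oa0
  have hva' : va' ≤ oa' := by linarith only [hg, hvz, hoa0, h.hza, h.Fza]
  have hwa' : ma + Xb ≤ (33/16) * oa := by (clear * - ho hva' h; linarith [h.wa'])
  have hya : ya ≤ 264 * oa := by
    (clear * - hC ho w1 hg hvz hwa' h; linarith [h.wz, h.wa', h.vz0, h.va'0, h.hza])
  have hoa : 0 < oa := by
    by_contra hc
    push Not at hc
    linarith only [hC, w1, hwa', hc]
  have hwz : (1/16384) * oa ≤ mz + Xc := by linarith only [hg, hvz, h.wz, h.oz0]
  have hqz : qz ≤ 1/512 := by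
    have h1 : (mz + Xc) * qz ≤ (mz + Xc) * (1/512) := by linarith only [hYa, hZ, hya, hoa, hwz]
    exact le_of_mul_le_mul_left h1 (by linarith only [hoa, hwz])
  have hs : (1/512 : ℝ) ≤ 1 - qa - qb - qz := by linarith only [hu, hqz]
  have hG : (1/8192) * oa * (1/512) ^ 2 ≤ Gt g (1 - qa - qb - qz) := by
    unfold Gt
    apply mul_le_mul
    · exact le_trans hg (le_max_right _ _)
    · apply pow_le_pow_left₀ (by norm_num)
      exact le_trans hs (le_max_right _ _)
    · positivity
    · exact le_max_left _ _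
  have h1 : 0 ≤ (ma + Xb) * qa := mul_nonneg w2 h.qa0
  have h4 : (mz + Xc) * qz ≤ (mz + Xc) * 1 := mul_le_mul_of_nonneg_left h.qz1 w1
  linarith only [hYa, hZ, hEz, hwa', hya, hoa, hwz, hG, h1]

/-- case C3 -/
theorem NewC_C3 (h : Ctx oa ob oc va vb vc ya yb yc oz oa' ob' vz va' vb' ma mb mc mz Xa Xb Xc
      pa pb pc qa qb qz) (hY : 0 < Y) (hYc : Y ≤ yc)
    (hXa : 10^9 * Xa ≤ Y) (hXb : 10^9 * Xb ≤ Y)
    (hw : (mc + Xc) + yc/2 ≤ mz + Xc)
    (hg : (oa + ob - va - vb) ≤ 4 * ((oa + oc - va - vc) + (ob + oc - vb - vc))) :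
    NewC oa ob oc va vb vc ya yb yc vz va' vb' ma mb mc mz Xa Xb Xc pa pb pc qa qb qz := by
  unfold NewC
  have hN := Nn_nonneg h
  have hGz := Gt_nonneg ((oa + ob - va - vb) - 4 * ((ya - vz - va') + (yb - vz - vb')))
        (1 - qa - qb - qz)
  have hGc : Gt ((oa + ob - va - vb) - 4 * ((oa + oc - va - vc) + (ob + oc - vb - vc)))
      (1 - pa - pb - pc) = 0 := by
    unfold Gt
    rw [max_eq_left (by linarith only [hg])]; ring
  have hE := Ecz h (D := (mz - mc) + Xa + Xb) (by
    apply max_le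
    · have := le_max_left 0 (min (ma + Xb) (mb + Xa) - (mz + Xc))
      linarith only [hY, hYc, hw, this, h.Xa0, h.Xb0]
    · have h1 := le_max_right 0 (min (ma + Xb) (mb + Xa) - (mz + Xc))
      have h2 : min (ma + Xa) (mb + Xb) ≤ min (ma + Xb) (mb + Xa) + (Xa + Xb) := by
        rw [← min_add_add_right]
        apply min_le_min <;> linarith only [h.Xa0, h.Xb0]
      linarith only [h1, h2])
  have hpp : phi pa * phi pb ≤ 1 := by
    have := phi_le_one h.pa0; have := phi_le_one h.pb0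
    have := phi_nonneg pa; have := phi_nonneg pb
    nlinarith
  have hu1 : |pa + pb - 1| ≤ 1 := by
    rw [abs_le]; constructor <;> linarith only [h.pa0, h.pb0, h.pa1, h.pb1]
  have e1 : ((mz - mc) + Xa + Xb) * (phi pa * phi pb) ≤ ((mz - mc) + Xa + Xb) * 1 :=
    mul_le_mul_of_nonneg_left hpp (by (clear * - hY hYc hw h; linarith [h.Xa0, h.Xb0]))
  have e2 : 4 * (Xa + Xb) * |pa + pb - 1| ≤ 4 * (Xa + Xb) * 1 :=
    mul_le_mul_of_nonneg_left hu1 (by linarith only [h.Xa0, h.Xb0])
  have e3 : (mz - mc) - Xa - Xb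
      ≤ (mz - mc) + 2 * mc * pc + Xb * (1 - 2 * pb) + Xa * (1 - 2 * pa) := by
    have := mul_nonneg h.mc0 h.pc0
    have := mul_nonneg h.Xb0 (by linarith only [h.pb1] : 0 ≤ 1 - pb)
    have := mul_nonneg h.Xa0 (by linarith only [h.pa1] : 0 ≤ 1 - pa)
    linarith
  rw [hGc]
  linarith only [hY, hYc, hXa, hXb, hw, hN, hGz, hE, e1, e2, e3]

/-- `u' = κ' u` and its consequence in regime B: either one of the new legs vanishes, or
`Xa, Xb` are tiny, or `ma, mb` are tiny. -/
theorem kappa (h : Ctx oa ob oc va vb vc ya yb yc oz oa' ob' vz va' vb' ma mb mc mz Xa Xb Xc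
      pa pb pc qa qb qz) (hY : 0 < Y)
    (hN : 10^70 * Nn ma mb mc mz Xa Xb Xc pa pb pc ≤ Y)
    (hu : qa + qb ≤ 1 - 1/256) :
    ma + Xb ≤ 0 ∨ mb + Xa ≤ 0 ∨ (10^9 * Xa ≤ Y ∧ 10^9 * Xb ≤ Y) ∨
      (10^9 * ma ≤ Y ∧ 10^9 * mb ≤ Y) := by
  rcases le_or_gt (ma + Xb) 0 with h1 | h1
  · left; exact h1
  rcases le_or_gt (mb + Xa) 0 with h2 | h2
  · right; left; exact h2
  right; right
  have hbu := Nn_be h
  have hha := harm_nonneg h.ma0 h.Xb0
  have hhb := harm_nonneg h.mb0 h.Xa0
  obtain ⟨u, hud⟩ : ∃ u, u = pa + pb - 1 := ⟨_, rfl⟩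
  rw [← hud] at hbu
  have hu1 : |u| ≤ 1 := by
    rw [hud, abs_le]; constructor <;> linarith only [h.pa0, h.pb0, h.pa1, h.pb1]
  have e1 : qa = pa - Xb / (ma + Xb) * u := by
    have := h.ea; rw [hud]; field_simp; linarith only [this]
  have e2 : qb = pb - Xa / (mb + Xa) * u := by
    have := h.eb; rw [hud]; field_simp; linarith only [this]
  obtain ⟨r, hr⟩ : ∃ r, r = Xb / (ma + Xb) := ⟨_, rfl⟩
  obtain ⟨t, ht⟩ : ∃ t, t = Xa / (mb + Xa) := ⟨_, rfl⟩
  rw [← hr] at e1
  rw [← ht] at e2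
  have hr0 : 0 ≤ r := by rw [hr]; exact div_nonneg h.Xb0 h1.le
  have ht0 : 0 ≤ t := by rw [ht]; exact div_nonneg h.Xa0 h2.le
  have hr1 : r ≤ 1 := by rw [hr, div_le_one h1]; linarith only [h.ma0]
  have ht1 : t ≤ 1 := by rw [ht, div_le_one h2]; linarith only [h.mb0]
  -- u' = (1 - r - t) u ≤ -1/256
  have hu' : (1 - r - t) * u ≤ -(1/256) := by rw [e1, e2] at hu; linarith only [hud, hu]
  -- harm in terms of r, t
  have ha1 : harm ma Xb = r * ma := by unfold harm; rw [hr]; ring
  have ha2 : harm ma Xb = (1 - r) * Xb := by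
    unfold harm; rw [hr]; field_simp; ring
  have hb1 : harm mb Xa = t * mb := by unfold harm; rw [ht]; ring
  have hb2 : harm mb Xa = (1 - t) * Xa := by
    unfold harm; rw [ht]; field_simp; ring
  have hau := abs_le.mp hu1
  -- |u| ≥ 1/256
  have hu2 : (1/256 : ℝ) ^ 2 ≤ u ^ 2 := by
    rcases le_total u 0 with hc | hc
    · have : 1/256 ≤ -u := by nlinarith only [hu, hud, e1, e2, hr0, hc, ht0]
      nlinarith only [this]
    · have : 1/256 ≤ u := by nlinarith only [hu, hud, e1, e2, hr1, hc, ht1, hau]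
      nlinarith only [this]
  have hbe : harm ma Xb + harm mb Xa ≤ (1/10^60) * Y := by
    have hbe0 : 0 ≤ harm ma Xb + harm mb Xa := add_nonneg hha hhb
    have : (harm ma Xb + harm mb Xa) * (1/256 : ℝ) ^ 2 ≤ (harm ma Xb + harm mb Xa) * u ^ 2 :=
      mul_le_mul_of_nonneg_left hu2 hbe0
    linarith only [hY, hN, hbu, this]
  rcases le_total u 0 with hc | hc
  · -- κ ≥ 1/256
    left
    have hk : 1/256 ≤ 1 - r - t := by
      by_contra hcon
      push Not at hcon
      nlinarith only [hud, e1, e2, hcon, hu, hc, hau, hu2]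
    have k1 : (1/256) * Xb ≤ (1 - r) * Xb := mul_le_mul_of_nonneg_right (by linarith only [ht0, hk]) h.Xb0
    have k2 : (1/256) * Xa ≤ (1 - t) * Xa := mul_le_mul_of_nonneg_right (by linarith only [hr0, hk]) h.Xa0
    constructor <;> linarith only [hha, hb2, hbe, k2, hhb, ha2, k1]
  · right
    have hk : 1/256 ≤ r + t - 1 := by
      by_contra hcon
      push Not at hcon
      nlinarith only [hud, e1, e2, hcon, hu, hc, hau, hu2]
    have k1 : (1/256) * ma ≤ r * ma := mul_le_mul_of_nonneg_right (by linarith only [ht1, hk]) h.ma0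
    have k2 : (1/256) * mb ≤ t * mb := mul_le_mul_of_nonneg_right (by linarith only [hr1, hk]) h.mb0
    constructor <;> linarith only [hha, hb1, hbe, k2, hhb, ha1, k1]

end Vale.Agent.P235.Tri
end
end
end

section

section

section

namespace Vale.Agent.P235.Tri

variable {oa ob oc va vb vc ya yb yc oz oa' ob' vz va' vb' ma mb mc mz Xa Xb Xc
    pa pb pc qa qb qz Y : ℝ}

theorem P1.swap (h : P1 oa ob oc va vb vc ya yb yc mc mz Xa Xb Xc) :
    P1 ob oa oc vb va vc yb ya yc mc mz Xb Xa Xc := by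
  unfold P1 at *
  rcases h with h | h | h
  · left; exact h
  · right; right; exact h
  · right; left; exact h

/-- regime B under (Z) -/
theorem regB_Z (h : Ctx oa ob oc va vb vc ya yb yc oz oa' ob' vz va' vb' ma mb mc mz Xa Xb Xc
      pa pb pc qa qb qz) (hY : 0 < Y) (hYa : Y ≤ ya) (hYb : Y ≤ yb) (hYc : Y ≤ yc)
    (hP4 : P4I oa ob oc va vb vc ya yb yc ma mb mz Xa Xb Xc vz va' vb')
    (hP5 : P4II ya yb yc ma mb mz Xa Xb Xc)
    (hN : 10^70 * Nn ma mb mc mz Xa Xb Xc pa pb pc ≤ Y)
    (hZ : (mz + Xc) * qz ≤ (1/10^10) * ((mz + Xc) + Y)) :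
    TA oa ob va vb ya yb vz va' vb' ma mb mz Xa Xb Xc qa qb qz ∨
    TA ob oa vb va yb ya vz vb' va' mb ma mz Xb Xa Xc qb qa qz ∨
    NewC oa ob oc va vb vc ya yb yc vz va' vb' ma mb mc mz Xa Xb Xc pa pb pc qa qb qz := by
  rcases le_or_gt (1/2 + 1/512) qa with h1 | h1
  · left; exact TA_big h hY hYa hZ h1
  rcases le_or_gt (1/2 + 1/512) qb with h2 | h2
  · right; left; exact TA_big h.swap hY hYb hZ h2
  rcases le_or_gt (1 - 1/256) (qa + qb) with h3 | h3
  · rcases le_total (ma + Xb) (mb + Xa) with h4 | h4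
    · left; exact TA_mid h hYa hZ (by linarith only [h2, h3]) (by linarith only [h1, h3]) h4
    · right; left; exact TA_mid h.swap hYb hZ (by linarith only [h1, h3]) (by linarith only [h2, h3]) h4
  -- C2 first
  rcases le_or_gt (3 * (ma + Xb)) (mz + Xc) with h4 | h4
  · left; exact TA_C2 h hY hYa hZ h4
  rcases le_or_gt (3 * (mb + Xa)) (mz + Xc) with h5 | h5
  · right; left; exact TA_C2 h.swap hY hYb hZ h5
  rcases kappa h hY hN h3.le with k | k | k | k
  · exfalso; linarith only [h4, k, h.mz0, h.Xc0]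
  · exfalso; linarith only [h5, k, h.mz0, h.Xc0]
  · rcases hP4 Y hY hYa hYb hYc k.1 k.2 with c | c | c
    · exfalso
      unfold C2 at c
      rcases c with c | c <;> linarith only [h4, c, h5]
    · right; right
      exact NewC_C3 h hY hYc k.1 k.2 (by rw [h.wc]; exact c.2.2.1) c.2.2.2
    · rcases le_total oa ob with hab | hab
      · left
        rw [min_eq_left hab] at c
        exact TA_C4 h hYa hY hZ h4 h3.le c.1 (by linarith only [c, h.hza, h.hzb, h.hab])
      · right; left
        rw [min_eq_right hab] at c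
        refine TA_C4 h.swap hYb hY hZ h5 (by linarith only [h3]) ?_
          (by linarith only [c, h.hza, h.hzb, h.hab])
        linarith only [c]
  · exfalso
    have c := hP5 Y hY hYa hYb hYc k.1 k.2
    unfold C2 at c
    rcases c with c | c <;> linarith only [h4, c, h5]

/-- the inequality for the new vertex -/
theorem new_vertex (h : Ctx oa ob oc va vb vc ya yb yc oz oa' ob' vz va' vb' ma mb mc mz Xa Xb Xc
      pa pb pc qa qb qz)
    (hP1 : P1 oa ob oc va vb vc ya yb yc mc mz Xa Xb Xc)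
    (hP2a : P2 oa ob oc va vb vc ya yb yc ma mb Xa Xb vz va' vb')
    (hP2b : P2 ob oa oc vb va vc yb ya yc mb ma Xb Xa vz vb' va')
    (hP4 : P4I oa ob oc va vb vc ya yb yc ma mb mz Xa Xb Xc vz va' vb')
    (hP5 : P4II ya yb yc ma mb mz Xa Xb Xc) :
    NewA oa ob oc va vb vc ya yb vz va' vb' ma mb mc mz Xa Xb Xc pa pb pc qa qb qz ∨
    NewA ob oa oc vb va vc yb ya vz vb' va' mb ma mc mz Xb Xa Xc pb pa pc qb qa qz ∨
    NewC oa ob oc va vb vc ya yb yc vz va' vb' ma mb mc mz Xa Xb Xc pa pb pc qa qb qz := by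
  have hswN : Nn mb ma mc mz Xb Xa Xc pb pa pc = Nn ma mb mc mz Xa Xb Xc pa pb pc := by
    unfold Nn; ring
  obtain ⟨Y, hYd⟩ : ∃ Y, Y = min ya (min yb yc) := ⟨_, rfl⟩
  have hYa : Y ≤ ya := by rw [hYd]; exact min_le_left _ _
  have hYb : Y ≤ yb := by rw [hYd]; exact (min_le_right _ _).trans (min_le_left _ _)
  have hYc : Y ≤ yc := by rw [hYd]; exact (min_le_right _ _).trans (min_le_right _ _)
  rcases le_or_gt Y (10^70 * Nn ma mb mc mz Xa Xb Xc pa pb pc) with hA | hB
  · -- regime A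
    rcases le_total yc ya with hca | hac
    · rcases le_total yc yb with hcb | hbc
      · right; right
        apply regA_c h
        have : Y = yc := by rw [hYd, min_eq_right hcb, min_eq_right hca]
        rw [← this]; exact hA
      · right; left
        apply regA_a h.swap hP1.swap hP2b hbc
        have : Y = yb := by rw [hYd, min_eq_left hbc, min_eq_right (hbc.trans hca)]
        rw [hswN, ← this]; exact hA
    · rcases le_total ya yb with hab | hba
      · left
        apply regA_a h hP1 hP2a hac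
        have : Y = ya := by rw [hYd]; exact min_eq_left (le_min hab hac)
        rw [← this]; exact hA
      · right; left
        apply regA_a h.swap hP1.swap hP2b (hba.trans hac)
        have : Y = yb := by
          rw [hYd, min_eq_left (hba.trans hac), min_eq_right hba]
        rw [hswN, ← this]; exact hA
  · have hN0 := Nn_nonneg h
    have hY : 0 < Y := lt_of_le_of_lt (by (clear * - hN0; positivity)) hB
    have hBs : 10^70 * Nn mb ma mc mz Xb Xa Xc pb pa pc ≤ Y := by rw [hswN]; exact hB.le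
    have fin : (TA oa ob va vb ya yb vz va' vb' ma mb mz Xa Xb Xc qa qb qz ∨
        TA ob oa vb va yb ya vz vb' va' mb ma mz Xb Xa Xc qb qa qz ∨
        NewC oa ob oc va vb vc ya yb yc vz va' vb' ma mb mc mz Xa Xb Xc pa pb pc qa qb qz) →
        _ := fun hT => hT.elim
      (fun t => Or.inl (NewA_of_TA h hY hYa hYc hP1 hP2a hB.le t))
      (fun t => t.elim (fun t => Or.inr (Or.inl
          (NewA_of_TA h.swap hY hYb hYc hP1.swap hP2b hBs t)))
        (fun t => Or.inr (Or.inr t)))
    apply fin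
    have hZtriv : mz + Xc ≤ (1/10^10) * Y → (mz + Xc) * qz ≤ (1/10^10) * ((mz + Xc) + Y) := by
      intro hw
      have w1 : 0 ≤ mz + Xc := by linarith only [h.mz0, h.Xc0]
      have e3 : (mz + Xc) * qz ≤ (mz + Xc) * 1 := mul_le_mul_of_nonneg_left h.qz1 w1
      linarith only [hB, hN0, hw, e3]
    rcases hP1 with hP | hP | hP
    · rw [← h.wc] at hP
      exact regB_Z h hY hYa hYb hYc hP4 hP5 hB.le (Zgen h hY hYc hB.le hP)
    · rcases le_or_gt (mz + Xc) ((1/10^10) * Y) with hw | hw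
      · exact regB_Z h hY hYa hYb hYc hP4 hP5 hB.le (hZtriv hw)
      · exact ladder h (lad_facts h hY hYc rfl hP hB.le hw)
    · rcases le_or_gt (mz + Xc) ((1/10^10) * Y) with hw | hw
      · exact regB_Z h hY hYa hYb hYc hP4 hP5 hB.le (hZtriv hw)
      · have := ladder h.swap (lad_facts h.swap hY hYc rfl hP hBs hw)
        rcases this with t | t | t
        · right; left; exact t
        · left; exact t
        · right; right
          unfold NewC at t ⊢
          rw [hswN] at t
          unfold Et Gt at t ⊢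
          rw [min_comm (mb + Xb), min_comm (mb + Xa)] at t
          have e1 : (ob + oa - vb - va) - 4 * ((ob + oc - vb - vc) + (oa + oc - va - vc))
              = (oa + ob - va - vb) - 4 * ((oa + oc - va - vc) + (ob + oc - vb - vc)) := by ring
          have e2 : (ob + oa - vb - va) - 4 * ((yb - vz - vb') + (ya - vz - va'))
              = (oa + ob - va - vb) - 4 * ((ya - vz - va') + (yb - vz - vb')) := by ring
          have e3 : 1 - pb - pa - pc = 1 - pa - pb - pc := by ring
          have e4 : 1 - qb - qa - qz = 1 - qa - qb - qz := by ring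
          rw [e1, e2, e3, e4, mul_comm (phi pb), mul_comm (phi qb)] at t
          linarith only [t]

theorem Phi_swap (K1 K3 K4 ov oj ok vv vj vk O pv pj pk : ℝ) :
    Phi K1 K3 K4 ov oj ok vv vj vk O pv pj pk = Phi K1 K3 K4 ov ok oj vv vk vj O pv pk pj := by
  unfold Phi
  rw [min_comm (vj + oj/32)]
  have e1 : (oj + ok - vj - vk) - 4 * ((ov + oj - vv - vj) + (ov + ok - vv - vk))
      = (ok + oj - vk - vj) - 4 * ((ov + ok - vv - vk) + (ov + oj - vv - vj)) := by ring
  have e3 : 1 - pv - pj - pk = 1 - pv - pk - pj := by ring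
  rw [e1, e3]
  ring

/-- kept vertex: potential inequality -/
theorem pot_kept (h : Ctx oa ob oc va vb vc ya yb yc oz oa' ob' vz va' vb' ma mb mc mz Xa Xb Xc
      pa pb pc qa qb qz) (O : ℝ)
    (hP1 : P1 oa ob oc va vb vc ya yb yc mc mz Xa Xb Xc)
    (hP2a : P2 oa ob oc va vb vc ya yb yc ma mb Xa Xb vz va' vb') :
    Phi (10^5) (10^100) (10^18) oa ob oc va vb vc O pa pb pc ≤
      Phi (10^5) (10^100) (10^18) oa' ob' oz va' vb' vz (O + mc * pc) qa qb qz := by
  have hE := keptE h hP1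
  have hG := keptG h hP2a
  have hV := V_incr (mc := mc) h.ma0 h.mb0 h.mz0 h.Xa0 h.Xb0 h.Xc0 h.ez h.ea h.eb
  unfold Phi
  rw [← h.wa, ← h.wb, ← h.wc, ← h.wa', ← h.wb', ← h.wz]
  have e1 : (ob' + oz - vb' - vz) - 4 * ((oa' + ob' - va' - vb') + (oa' + oz - va' - vz))
      = (yb - vz - vb') - 4 * ((oa + ob - va - vb) + (ya - vz - va')) := by
    linarith only [h.hza, h.hzb, h.hab, h.hab']
  rw [e1]
  have a0 : 0 ≤ (mc + harm mz Xc) * pc ^ 2 :=
    mul_nonneg (add_nonneg h.mc0 (harm_nonneg h.mz0 h.Xc0)) (sq_nonneg _)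
  have b0 : 0 ≤ (harm ma Xb + harm mb Xa) * (pa + pb - 1) ^ 2 :=
    mul_nonneg (add_nonneg (harm_nonneg h.ma0 h.Xb0) (harm_nonneg h.mb0 h.Xa0)) (sq_nonneg _)
  have hF : (O + mc * pc) + (ma + Xb) * (1 - qa) + (mb + Xa) * qb + (mz + Xc) * qz
      = O + (ma + Xa) * (1 - pa) + (mb + Xb) * pb + (mc + Xc) * pc := by
    linarith only [h.ea, h.eb, h.ez]
  rw [hF]
  linarith

/-- new vertex via a kept vertex -/
theorem pot_newA (h : Ctx oa ob oc va vb vc ya yb yc oz oa' ob' vz va' vb' ma mb mc mz Xa Xb Xc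
      pa pb pc qa qb qz) (O : ℝ)
    (hA : NewA oa ob oc va vb vc ya yb vz va' vb' ma mb mc mz Xa Xb Xc pa pb pc qa qb qz) :
    Phi (10^5) (10^100) (10^18) oa ob oc va vb vc O pa pb pc + ya ≤
      Phi (10^5) (10^100) (10^18) oz oa' ob' vz va' vb' (O + mc * pc) qz qa qb := by
  have hV := V_incr (mc := mc) h.ma0 h.mb0 h.mz0 h.Xa0 h.Xb0 h.Xc0 h.ez h.ea h.eb
  unfold NewA Nn Et Gt at hA
  unfold Phi
  rw [← h.wa, ← h.wb, ← h.wc, ← h.wa', ← h.wb', ← h.wz]
  have e1 : (oa' + ob' - va' - vb') - 4 * ((oz + oa' - vz - va') + (oz + ob' - vz - vb'))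
      = (oa + ob - va - vb) - 4 * ((ya - vz - va') + (yb - vz - vb')) := by
    linarith only [h.hza, h.hzb, h.hab, h.hab']
  have e2 : 1 - qz - qa - qb = 1 - qa - qb - qz := by ring
  rw [e1, e2]
  have hF : (O + mc * pc) + (mz + Xc) * (1 - qz) + (ma + Xb) * qa + (mb + Xa) * qb
      = (O + (ma + Xa) * (1 - pa) + (mb + Xb) * pb + (mc + Xc) * pc)
        + ((mz + Xc) * (1 - 2 * qz) + (ma + Xb) * (2 * qa - 1)) := by
    linarith only [h.ea, h.eb, h.ez]
  rw [hF]
  linarith

/-- new vertex via the dropped vertex -/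
theorem pot_newC (h : Ctx oa ob oc va vb vc ya yb yc oz oa' ob' vz va' vb' ma mb mc mz Xa Xb Xc
      pa pb pc qa qb qz) (O : ℝ)
    (hC : NewC oa ob oc va vb vc ya yb yc vz va' vb' ma mb mc mz Xa Xb Xc pa pb pc qa qb qz) :
    Phi (10^5) (10^100) (10^18) oc oa ob vc va vb O pc pa pb + yc ≤
      Phi (10^5) (10^100) (10^18) oz oa' ob' vz va' vb' (O + mc * pc) qz qa qb := by
  have hV := V_incr (mc := mc) h.ma0 h.mb0 h.mz0 h.Xa0 h.Xb0 h.Xc0 h.ez h.ea h.eb
  unfold NewC Nn Et Gt at hC
  unfold Phi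
  rw [← h.wa, ← h.wb, ← h.wc, ← h.wa', ← h.wb', ← h.wz]
  have e1 : (oa' + ob' - va' - vb') - 4 * ((oz + oa' - vz - va') + (oz + ob' - vz - vb'))
      = (oa + ob - va - vb) - 4 * ((ya - vz - va') + (yb - vz - vb')) := by
    linarith only [h.hza, h.hzb, h.hab, h.hab']
  have e2 : 1 - qz - qa - qb = 1 - qa - qb - qz := by ring
  have e3 : (oa + ob - va - vb) - 4 * ((oc + oa - vc - va) + (oc + ob - vc - vb))
      = (oa + ob - va - vb) - 4 * ((oa + oc - va - vc) + (ob + oc - vb - vc)) := by ring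
  have e4 : 1 - pc - pa - pb = 1 - pa - pb - pc := by ring
  rw [e1, e2, e3, e4]
  have hF : (O + mc * pc) + (mz + Xc) * (1 - qz) + (ma + Xb) * qa + (mb + Xa) * qb
      = (O + (mc + Xc) * (1 - pc) + (ma + Xa) * pa + (mb + Xb) * pb)
        + ((mz - mc) + 2 * mc * pc + Xb * (1 - 2 * pb) + Xa * (1 - 2 * pa)) := by
    linarith only [h.ea, h.eb, h.ez]
  rw [hF]
  linarith only [hC, hV]

/-- The step theorem: law facts imply the full one-step statement for drop `c`. -/
theorem stepC_of_SF {oa ob oc va vb vc ya yb yc mu xa xb xc nu ta tb tc : ℝ}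
    (hG : Good oa ob oc va vb vc) (hX : Ext oa ob oc ya yb yc)
    (hM : Mass oa ob oc va vb vc ya yb yc mu xa xb xc nu ta tb tc)
    (hS : SF oa ob oc va vb vc ya yb yc mu xa xb xc nu ta tb tc)
    (hG' : Good ((ya + yb - oa - ob)/2) ((oa + ob + ya - yb)/2) ((oa + ob + yb - ya)/2)
      (mu + xc) (va - xa + xb) (vb - xb + xa)) :
    StepC (10^5) (10^100) (10^18) oa ob oc va vb vc ya yb yc mu xa xb xc nu ta tb tc := by
  refine ⟨hG', ?_⟩
  intro O pa pb pc qz qa qb _ pa0 pa1 pb0 pb1 pc0 pc1 qz0 qz1 qa0 qa1 qb0 qb1 ez ea eb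
  have h := ctx_of hG hX hM pa0 pa1 pb0 pb1 pc0 pc1 qz0 qz1 qa0 qa1 qb0 qb1 ez ea eb
  refine ⟨pot_kept h O hS.p1 hS.p2a, pot_kept h.swap O hS.p1.swap hS.p2b, ?_⟩
  rcases new_vertex h hS.p1 hS.p2a hS.p2b hS.p4 hS.p5 with t | t | t
  · left; exact pot_newA h O t
  · right; left
    have := pot_newA h.swap O t
    rw [Phi_swap _ _ _ ((ya + yb - oa - ob)/2)] at this
    exact this
  · right; right; exact pot_newC h O t

end Vale.Agent.P235.Tri
end
end
end

section

section

section

/-!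
Treewidth 3: the generic law exists (A1).
-/

namespace Vale.Agent.P235.Tri

theorem MassF.combo {va vb vc ya yb yc m1 a1 b1 c1 m2 a2 b2 c2 m3 a3 b3 c3 m4 a4 b4 c4
    m5 a5 b5 c5 : ℝ}
    (h1 : MassF va vb vc ya yb yc m1 a1 b1 c1) (h2 : MassF va vb vc ya yb yc m2 a2 b2 c2)
    (h3 : MassF va vb vc ya yb yc m3 a3 b3 c3) (h4 : MassF va vb vc ya yb yc m4 a4 b4 c4)
    (h5 : MassF va vb vc ya yb yc m5 a5 b5 c5) :
    MassF va vb vc ya yb yc
      ((1/8) * m1 + (3/4) * m2 + (1/24) * (m3 + m4 + m5))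
      ((1/8) * a1 + (3/4) * a2 + (1/24) * (a3 + a4 + a5))
      ((1/8) * b1 + (3/4) * b2 + (1/24) * (b3 + b4 + b5))
      ((1/8) * c1 + (3/4) * c2 + (1/24) * (c3 + c4 + c5)) := by
  refine ⟨?_, ?_, ?_, ?_, ?_, ?_, ?_, ?_, ?_, ?_⟩
  · linarith only [h1.mu0, h2.mu0, h3.mu0, h4.mu0, h5.mu0]
  · linarith [h1.xa0, h2.xa0, h3.xa0, h4.xa0, h5.xa0]
  · linarith [h1.xb0, h2.xb0, h3.xb0, h4.xb0, h5.xb0]
  · linarith [h1.xc0, h2.xc0, h3.xc0, h4.xc0, h5.xc0]
  · linarith [h1.xav, h2.xav, h3.xav, h4.xav, h5.xav]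
  · linarith [h1.xbv, h2.xbv, h3.xbv, h4.xbv, h5.xbv]
  · linarith [h1.xcv, h2.xcv, h3.xcv, h4.xcv, h5.xcv]
  · linarith only [h5.Fa, h4.Fa, h3.Fa, h2.Fa, h1.Fa]
  · linarith [h1.Fb, h2.Fb, h3.Fb, h4.Fb, h5.Fb]
  · linarith [h1.Fc, h2.Fc, h3.Fc, h4.Fc, h5.Fc]

/-- the hypotheses on the distances used for the generic law -/
structure VY (va vb vc ya yb yc : ℝ) : Prop where
  va0 : 0 ≤ va
  vb0 : 0 ≤ vb
  vc0 : 0 ≤ vc
  ya0 : 0 ≤ ya
  yb0 : 0 ≤ yb
  yc0 : 0 ≤ yc
  ab : va + vb ≤ ya + yb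
  bc : vb + vc ≤ yb + yc
  ca : vc + va ≤ yc + ya

theorem VY.rot {va vb vc ya yb yc : ℝ} (h : VY va vb vc ya yb yc) : VY vb vc va yb yc ya :=
  ⟨h.vb0, h.vc0, h.va0, h.yb0, h.yc0, h.ya0, h.bc, h.ca, h.ab⟩

theorem fstar_mass {va vb vc ya yb yc : ℝ} (h : VY va vb vc ya yb yc) :
    MassF va vb vc ya yb yc 0 (max 0 (va - ya)) (max 0 (vb - yb)) (max 0 (vc - yc)) := by
  obtain ⟨va0, vb0, vc0, ya0, yb0, yc0, ab, bc, ca⟩ := h
  refine ⟨le_rfl, le_max_left _ _, le_max_left _ _, le_max_left _ _,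
    max_le va0 (by linarith only [ya0]), max_le vb0 (by linarith only [yb0]), max_le vc0 (by linarith only [yc0]), ?_, ?_, ?_⟩
  all_goals
    rcases max_cases 0 (va - ya) with ⟨e1, k1⟩ | ⟨e1, k1⟩ <;>
    rcases max_cases 0 (vb - yb) with ⟨e2, k2⟩ | ⟨e2, k2⟩ <;>
    rcases max_cases 0 (vc - yc) with ⟨e3, k3⟩ | ⟨e3, k3⟩ <;>
    rw [e1, e2, e3] <;> linarith only [ab, k1, k2, bc, k3, ca]

/-- the law `P_a` -/
theorem P_mass {va vb vc ya yb yc e : ℝ} (h : VY va vb vc ya yb yc) (he0 : 0 ≤ e)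
    (hb : e ≤ yb - vb) (hc : e ≤ yc - vc) (ha : e ≤ ya + va) (hv : va - ya ≤ e) :
    MassF va vb vc ya yb yc (e - max 0 ((e + va - ya)/2)) (max 0 ((e + va - ya)/2)) 0 0 := by
  obtain ⟨va0, vb0, vc0, ya0, yb0, yc0, ab, bc, ca⟩ := h
  refine ⟨?_, le_max_left _ _, le_rfl, le_rfl, max_le va0 (by linarith only [ha]), vb0, vc0, ?_, ?_, ?_⟩
  all_goals
    rcases max_cases 0 ((e + va - ya)/2) with ⟨e1, k1⟩ | ⟨e1, k1⟩ <;> rw [e1] <;> linarith only [hb, hc, he0, hv, k1]

/-- the law `A_a` -/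
theorem A_mass {va vb vc ya yb yc x : ℝ} (h : VY va vb vc ya yb yc)
    (hx : x = min (min va yb) (min yc ((yb + yc - vb - vc)/2))) :
    MassF va vb vc ya yb yc 0 x (max 0 (x + vb - yb)) (max 0 (x + vc - yc)) := by
  obtain ⟨va0, vb0, vc0, ya0, yb0, yc0, ab, bc, ca⟩ := h
  have x0 : 0 ≤ x := by
    rw [hx]
    exact le_min (le_min va0 yb0) (le_min yc0 (by linarith only [bc]))
  have x1 : x ≤ va := by rw [hx]; exact le_trans (min_le_left _ _) (min_le_left _ _)
  have x2 : x ≤ yb := by rw [hx]; exact le_trans (min_le_left _ _) (min_le_right _ _)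
  have x3 : x ≤ yc := by rw [hx]; exact le_trans (min_le_right _ _) (min_le_left _ _)
  have x4 : x ≤ (yb + yc - vb - vc)/2 := by
    rw [hx]; exact le_trans (min_le_right _ _) (min_le_right _ _)
  have x5 : va - x ≤ ya := by
    have : va - ya ≤ x := by
      rw [hx]
      exact le_min (le_min (by linarith only [ya0]) (by linarith only [vb0, ab])) (le_min (by linarith only [vc0, ca]) (by linarith only [ab, ca]))
    linarith only [this]
  have x6 : x = va ∨ x = yb ∨ x = yc ∨ x = (yb + yc - vb - vc)/2 := by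
    rw [hx]
    rcases min_choice (min va yb) (min yc ((yb + yc - vb - vc)/2)) with h | h
    · rcases min_choice va yb with h' | h'
      · left; rw [h, h']
      · right; left; rw [h, h']
    · rcases min_choice yc ((yb + yc - vb - vc)/2) with h' | h'
      · right; right; left; rw [h, h']
      · right; right; right; rw [h, h']
  clear hx
  refine ⟨le_rfl, x0, le_max_left _ _, le_max_left _ _, x1, max_le vb0 (by linarith only [x2]),
    max_le vc0 (by linarith only [x3]), ?_, ?_, ?_⟩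
  · rcases max_cases 0 (x + vb - yb) with ⟨e1, k1⟩ | ⟨e1, k1⟩ <;>
    rcases max_cases 0 (x + vc - yc) with ⟨e2, k2⟩ | ⟨e2, k2⟩ <;> rw [e1, e2]
    · linarith only [x5]
    · linarith only [ca]
    · linarith only [ab]
    · linarith only [x4, k1, k2]
  · rcases max_cases 0 (x + vb - yb) with ⟨e1, k1⟩ | ⟨e1, k1⟩ <;>
    rcases max_cases 0 (x + vc - yc) with ⟨e2, k2⟩ | ⟨e2, k2⟩ <;> rw [e1, e2] <;> linarith only [k1, x4]
  · rcases max_cases 0 (x + vb - yb) with ⟨e1, k1⟩ | ⟨e1, k1⟩ <;>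
    rcases max_cases 0 (x + vc - yc) with ⟨e2, k2⟩ | ⟨e2, k2⟩ <;> rw [e1, e2] <;> linarith only [k2, x4]

/-- properties of the law `P_k`, `k` the argmax -/
theorem P_exists {va vb vc ya yb yc : ℝ} (h : VY va vb vc ya yb yc) :
    ∃ mu xa xb xc : ℝ, MassF va vb vc ya yb yc mu xa xb xc ∧
      min (min (yb - vb) (yc - vc)) (ya + va) ≤ mu + xa ∧
      min (min (yc - vc) (ya - va)) (yb + vb) ≤ mu + xb ∧
      min (min (ya - va) (yb - vb)) (yc + vc) ≤ mu + xc ∧
      (∃ ea eb ec : ℝ, ea = min (min (yb - vb) (yc - vc)) (ya + va) ∧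
      eb = min (min (yc - vc) (ya - va)) (yb + vb) ∧
      ec = min (min (ya - va) (yb - vb)) (yc + vc) ∧
      ((eb ≤ ea ∧ ec ≤ ea ∧ min ea ((ea + ya - va)/2) ≤ mu) ∨
       (ec ≤ eb ∧ ea ≤ eb ∧ min eb ((eb + yb - vb)/2) ≤ mu) ∨
       (ea ≤ ec ∧ eb ≤ ec ∧ min ec ((ec + yc - vc)/2) ≤ mu))) := by
  obtain ⟨ea, hea⟩ : ∃ e, e = min (min (yb - vb) (yc - vc)) (ya + va) := ⟨_, rfl⟩
  obtain ⟨eb, heb⟩ : ∃ e, e = min (min (yc - vc) (ya - va)) (yb + vb) := ⟨_, rfl⟩
  obtain ⟨ec, hec⟩ : ∃ e, e = min (min (ya - va) (yb - vb)) (yc + vc) := ⟨_, rfl⟩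
  rw [← hea, ← heb, ← hec]
  have a1 : ea ≤ yb - vb := by
    rw [hea]; exact le_trans (min_le_left _ _) (min_le_left _ _)
  have a2 : ea ≤ yc - vc := by
    rw [hea]; exact le_trans (min_le_left _ _) (min_le_right _ _)
  have a3 : ea ≤ ya + va := by rw [hea]; exact min_le_right _ _
  have b1 : eb ≤ yc - vc := by
    rw [heb]; exact le_trans (min_le_left _ _) (min_le_left _ _)
  have b2 : eb ≤ ya - va := by
    rw [heb]; exact le_trans (min_le_left _ _) (min_le_right _ _)
  have b3 : eb ≤ yb + vb := by rw [heb]; exact min_le_right _ _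
  have c1 : ec ≤ ya - va := by
    rw [hec]; exact le_trans (min_le_left _ _) (min_le_left _ _)
  have c2 : ec ≤ yb - vb := by
    rw [hec]; exact le_trans (min_le_left _ _) (min_le_right _ _)
  have c3 : ec ≤ yc + vc := by rw [hec]; exact min_le_right _ _
  have h0 := h
  obtain ⟨va0, vb0, vc0, ya0, yb0, yc0, ab, bc, ca⟩ := h0
  have ga : va - ya ≤ ea := by
    rw [hea]; exact le_min (le_min (by linarith only [ab]) (by linarith only [ca])) (by linarith only [ya0])
  have gb : vb - yb ≤ eb := by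
    rw [heb]; exact le_min (le_min (by linarith only [bc]) (by linarith only [ab])) (by linarith only [yb0])
  have gc : vc - yc ≤ ec := by
    rw [hec]; exact le_min (le_min (by linarith only [ca]) (by linarith only [bc])) (by linarith only [yc0])
  -- some `e` is nonnegative
  have pos : 0 ≤ ea ∨ 0 ≤ eb ∨ 0 ≤ ec := by
    rcases le_total va ya with k1 | k1
    · rcases le_total vb yb with k2 | k2
      · rcases le_total vc yc with k3 | k3
        · left; rw [hea]
          exact le_min (le_min (by linarith only [k2]) (by linarith only [k3])) (by linarith only [va0, ya0])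
        · right; right; linarith only [gc, k3]
      · right; left; linarith only [gb, k2]
    · left; linarith only [ga, k1]
  have fin : ∀ e t : ℝ, min e ((e + t)/2) ≤ e - max 0 ((e - t)/2) := by
    intro e t
    rcases max_cases 0 ((e - t)/2) with ⟨e1, k1⟩ | ⟨e1, k1⟩ <;> rw [e1]
    · exact le_trans (min_le_left _ _) (by linarith only [])
    · exact le_trans (min_le_right _ _) (by linarith only [])
  have two : ∀ e t s : ℝ, s ≤ e → s ≤ t → s ≤ e - max 0 ((e - t)/2) := by
    intro e t s h1 h2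
    rcases max_cases 0 ((e - t)/2) with ⟨e1, k1⟩ | ⟨e1, k1⟩ <;> rw [e1] <;> linarith only [h1, h2, k1]
  rcases le_total eb ea with o1 | o1
  · rcases le_total ec ea with o2 | o2
    · -- `a` is the argmax
      have he0 : 0 ≤ ea := by rcases pos with p | p | p <;> linarith only [o1, p, o2]
      refine ⟨_, _, _, _, P_mass h he0 a1 a2 a3 ga, by linarith only [], ?_, ?_, ea, eb, ec, rfl, rfl,
        rfl, Or.inl ⟨o1, o2, ?_⟩⟩
      · have := two ea (ya - va) eb o1 b2
        have e2 : (ea - (ya - va))/2 = (ea + va - ya)/2 := by ring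
        rw [e2] at this
        linarith only [this]
      · have := two ea (ya - va) ec o2 c1
        have e2 : (ea - (ya - va))/2 = (ea + va - ya)/2 := by ring
        rw [e2] at this
        linarith only [this]
      · have := fin ea (ya - va)
        have e2 : (ea - (ya - va))/2 = (ea + va - ya)/2 := by ring
        have e3 : (ea + (ya - va))/2 = (ea + ya - va)/2 := by ring
        rw [e2, e3] at this
        exact this
    · -- `c` is the argmax
      have he0 : 0 ≤ ec := by rcases pos with p | p | p <;> linarith only [o1, o2, p]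
      have hM := (P_mass h.rot.rot he0 (by linarith only [c1]) (by linarith only [c2]) (by linarith only [c3]) gc).rot
      refine ⟨_, _, _, _, hM, ?_, ?_, by linarith only [], ea, eb, ec, rfl, rfl,
        rfl, Or.inr (Or.inr ⟨o2, by linarith only [o1, o2], ?_⟩)⟩
      · have := two ec (yc - vc) ea o2 a2
        have e2 : (ec - (yc - vc))/2 = (ec + vc - yc)/2 := by ring
        rw [e2] at this
        linarith only [this]
      · have := two ec (yc - vc) eb (by linarith only [o1, o2]) b1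
        have e2 : (ec - (yc - vc))/2 = (ec + vc - yc)/2 := by ring
        rw [e2] at this
        linarith only [this]
      · have := fin ec (yc - vc)
        have e2 : (ec - (yc - vc))/2 = (ec + vc - yc)/2 := by ring
        have e3 : (ec + (yc - vc))/2 = (ec + yc - vc)/2 := by ring
        rw [e2, e3] at this
        exact this
  · rcases le_total ec eb with o2 | o2
    · -- `b` is the argmax
      have he0 : 0 ≤ eb := by rcases pos with p | p | p <;> linarith only [o1, p, o2]
      have hM := (P_mass h.rot he0 (by linarith only [b1]) (by linarith only [b2]) (by linarith only [b3]) gb).rot.rot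
      refine ⟨_, _, _, _, hM, ?_, by linarith only [], ?_, ea, eb, ec, rfl, rfl,
        rfl, Or.inr (Or.inl ⟨o2, o1, ?_⟩)⟩
      · have := two eb (yb - vb) ea o1 a1
        have e2 : (eb - (yb - vb))/2 = (eb + vb - yb)/2 := by ring
        rw [e2] at this
        linarith only [this]
      · have := two eb (yb - vb) ec o2 c2
        have e2 : (eb - (yb - vb))/2 = (eb + vb - yb)/2 := by ring
        rw [e2] at this
        linarith only [this]
      · have := fin eb (yb - vb)
        have e2 : (eb - (yb - vb))/2 = (eb + vb - yb)/2 := by ring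
        have e3 : (eb + (yb - vb))/2 = (eb + yb - vb)/2 := by ring
        rw [e2, e3] at this
        exact this
    · -- `c` is the argmax
      have he0 : 0 ≤ ec := by rcases pos with p | p | p <;> linarith only [o1, o2, p]
      have hM := (P_mass h.rot.rot he0 (by linarith only [c1]) (by linarith only [c2]) (by linarith only [c3]) gc).rot
      refine ⟨_, _, _, _, hM, ?_, ?_, by linarith only [], ea, eb, ec, rfl, rfl,
        rfl, Or.inr (Or.inr ⟨by linarith only [o1, o2], o2, ?_⟩)⟩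
      · have := two ec (yc - vc) ea (by linarith only [o1, o2]) a2
        have e2 : (ec - (yc - vc))/2 = (ec + vc - yc)/2 := by ring
        rw [e2] at this
        linarith only [this]
      · have := two ec (yc - vc) eb o2 b1
        have e2 : (ec - (yc - vc))/2 = (ec + vc - yc)/2 := by ring
        rw [e2] at this
        linarith only [this]
      · have := fin ec (yc - vc)
        have e2 : (ec - (yc - vc))/2 = (ec + vc - yc)/2 := by ring
        have e3 : (ec + (yc - vc))/2 = (ec + yc - vc)/2 := by ring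
        rw [e2, e3] at this
        exact this

theorem min_eq_sub_max (v y : ℝ) : min v y = v - max 0 (v - y) := by
  rcases le_total v y with h | h
  · rw [min_eq_left h, max_eq_left (by linarith only [h])]; ring
  · rw [min_eq_right h, max_eq_right (by linarith only [h])]; ring

/-- properties of the law `A_a` -/
theorem A_exists {va vb vc ya yb yc : ℝ} (h : VY va vb vc ya yb yc) :
    ∃ xa xb xc : ℝ, MassF va vb vc ya yb yc 0 xa xb xc ∧
      min (min va yb) (min yc ((yb + yc - vb - vc)/2)) ≤ xa ∧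
      max 0 (vb - yb) ≤ xb ∧ max 0 (vc - yc) ≤ xc := by
  obtain ⟨x, hx⟩ : ∃ x, x = min (min va yb) (min yc ((yb + yc - vb - vc)/2)) := ⟨_, rfl⟩
  have hM := A_mass h hx
  have x0 := hM.xa0
  refine ⟨x, _, _, hM, hx.ge, ?_, ?_⟩
  · exact max_le_max le_rfl (by linarith only [x0])
  · exact max_le_max le_rfl (by linarith only [x0])

theorem lawN_exists' {va vb vc ya yb yc : ℝ} (h : VY va vb vc ya yb yc) :
    ∃ mu xa xb xc : ℝ, MassF va vb vc ya yb yc mu xa xb xc ∧
      LawN va vb vc ya yb yc mu xa xb xc := by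
  have h1 := fstar_mass h
  obtain ⟨m2, a2, b2, c2, h2, za2, zb2, zc2, ea, eb, ec, hea, heb, hec, hU⟩ := P_exists h
  obtain ⟨a3, b3, c3, h3, p3, q3, r3⟩ := A_exists h
  obtain ⟨b4, c4, a4, h4, p4, q4, r4⟩ := A_exists h.rot
  obtain ⟨c5, a5, b5, h5, p5, q5, r5⟩ := A_exists h.rot.rot
  replace h4 := h4.rot.rot
  replace h5 := h5.rot
  have hM := MassF.combo h1 h2 h3 h4 h5
  refine ⟨_, _, _, _, hM, ?_⟩
  have va0 := h.va0
  have vb0 := h.vb0
  have vc0 := h.vc0
  have ma := min_eq_sub_max va ya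
  have mb := min_eq_sub_max vb yb
  have mc := min_eq_sub_max vc yc
  have xa1 := h1.xa0
  have xb1 := h1.xb0
  have xc1 := h1.xc0
  have xa3 := h3.xa0
  have xb3 := h3.xb0
  have xc3 := h3.xc0
  have xa4 := h4.xa0
  have xb4 := h4.xb0
  have xc4 := h4.xc0
  have xa5 := h5.xa0
  have xb5 := h5.xb0
  have xc5 := h5.xc0
  have hvbc : 0 ≤ max vb vc := le_trans vb0 (le_max_left _ _)
  have hvca : 0 ≤ max vc va := le_trans vc0 (le_max_left _ _)
  have hvab : 0 ≤ max va vb := le_trans va0 (le_max_left _ _)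
  refine ⟨?_, ?_, ?_, ?_, ?_, ?_, ?_, ?_, ?_, ?_, ?_, ?_, ?_⟩
  · rw [ma]; linarith only [h2.xav, h3.xav, h4.xav, h5.xav]
  · rw [mb]; linarith only [h2.xbv, h3.xbv, h4.xbv, h5.xbv]
  · rw [mc]; linarith only [h2.xcv, h3.xcv, h4.xcv, h5.xcv]
  · linarith only [p3, r4, q5, xa1, h2.xa0]
  · linarith only [q3, p4, r5, xb1, h2.xb0]
  · linarith only [r3, q4, p5, xc1, h2.xc0]
  · rw [ma]; linarith only [h5.Fa, h4.Fa, h3.Fa, h2.Fa]
  · rw [mb]; linarith only [h2.Fb, h3.Fb, h4.Fb, h5.Fb]
  · rw [mc]; linarith [h2.Fc, h3.Fc, h4.Fc, h5.Fc]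
  · linarith only [za2, p3, r4, q5, hvbc]
  · linarith only [zb2, q3, p4, r5, hvca]
  · linarith only [zc2, r3, q4, p5, hvab]
  · refine ⟨ea, eb, ec, hea, heb, hec, ?_⟩
    rcases hU with ⟨u1, u2, u3⟩ | ⟨u1, u2, u3⟩ | ⟨u1, u2, u3⟩
    · exact Or.inl ⟨u1, u2, by linarith only [u3]⟩
    · exact Or.inr (Or.inl ⟨u1, u2, by linarith only [u3]⟩)
    · exact Or.inr (Or.inr ⟨u1, u2, by linarith only [u3]⟩)

theorem vy_of {oa ob oc va vb vc ya yb yc : ℝ}
    (G : Good oa ob oc va vb vc) (X : Ext oa ob oc ya yb yc) : VY va vb vc ya yb yc := by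
  have dab := G.dab
  have dbc := G.dbc
  have dca := G.dca
  obtain ⟨tab, tbc, tca, yab, yba, ybc, ycb, yca, yac⟩ := X
  exact ⟨G.va0, G.vb0, G.vc0, by linarith only [tab, yba], by linarith only [tab, yab], by linarith only [tbc, ybc], by linarith only [dab, tab], by linarith only [dbc, tbc],
    by linarith only [dca, tca]⟩

/-- (A1) -/
theorem lawN_exists {oa ob oc va vb vc ya yb yc : ℝ}
    (G : Good oa ob oc va vb vc) (X : Ext oa ob oc ya yb yc) :
    ∃ mu xa xb xc : ℝ, MassF va vb vc ya yb yc mu xa xb xc ∧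
      LawN va vb vc ya yb yc mu xa xb xc := lawN_exists' (vy_of G X)

end Vale.Agent.P235.Tri
end
end
end

section

section

section

/-!
Treewidth 3: facts of the exceptional law, drop `a` and drop `b` (B4), and the collected facts.
-/

namespace Vale.Agent.P235.Tri

theorem Lad_or_swap {oa ob oc va vb vc ya yb yc mc mz Xa Xb Xc : ℝ}
    (h : P1 oa ob oc va vb vc ya yb yc mc mz Xa Xb Xc) :
    P1 ob oa oc vb va vc yb ya yc mc mz Xb Xa Xc := by
  rcases h with h | h | h
  · exact Or.inl h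
  · exact Or.inr (Or.inr h)
  · exact Or.inr (Or.inl h)

theorem P4I_swap {oa ob oc va vb vc ya yb yc ma mb mz Xa Xb Xc vz va' vb' : ℝ}
    (h : P4I oa ob oc va vb vc ya yb yc ma mb mz Xa Xb Xc vz va' vb') :
    P4I ob oa oc vb va vc yb ya yc mb ma mz Xb Xa Xc vz vb' va' := by
  intro Y h0 h1 h2 h3 h4 h5
  rcases h Y h0 h2 h1 h3 h5 h4 with h6 | ⟨h6, h7, h8, h9⟩ | ⟨h6, h7, h8⟩
  · left
    rcases h6 with h6 | h6
    · exact Or.inr h6
    · exact Or.inl h6
  · right; left
    exact ⟨h7, h6, h8, by linarith only [h9]⟩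
  · right; right
    refine ⟨?_, by linarith only [h8], by linarith only [h7]⟩
    rw [min_comm]
    linarith only [h6]

theorem P4II_swap {ya yb yc ma mb mz Xa Xb Xc : ℝ} (h : P4II ya yb yc ma mb mz Xa Xb Xc) :
    P4II yb ya yc mb ma mz Xb Xa Xc := by
  intro Y h0 h1 h2 h3 h4 h5
  rcases h Y h0 h2 h1 h3 h5 h4 with h6 | h6
  · exact Or.inr h6
  · exact Or.inl h6

theorem SF_swap {oa ob oc va vb vc ya yb yc mu xa xb xc nu ta tb tc : ℝ}
    (h : SF oa ob oc va vb vc ya yb yc mu xa xb xc nu ta tb tc) :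
    SF ob oa oc vb va vc yb ya yc mu xb xa xc nu tb ta tc :=
  ⟨Lad_or_swap h.p1, h.p2b, h.p2a, P4I_swap h.p4, P4II_swap h.p5⟩

theorem sfC_c {oa ob oc va vb vc ya yb yc mu xa xb xc nu ta tb tc : ℝ}
    (G : Good oa ob oc va vb vc) (X : Ext oa ob oc ya yb yc)
    (M : MassF va vb vc ya yb yc mu xa xb xc) (N : MassD oa ob oc ya yb yc nu ta tb tc)
    (L : LawC oa ob oc va vb vc ya yb yc mu xa xb xc) :
    SF oa ob oc va vb vc ya yb yc mu xa xb xc nu ta tb tc :=
  ⟨p1_C G X M N L, p2a_C G X M N L, p2b_C G X M N L, p4I_C G X M N L, p4II_C G X M N L⟩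

theorem sfC_a {oa ob oc va vb vc ya yb yc mu xa xb xc nu ta tb tc : ℝ}
    (G : Good oa ob oc va vb vc) (X : Ext oa ob oc ya yb yc)
    (M : MassF va vb vc ya yb yc mu xa xb xc) (N : MassD oa ob oc ya yb yc nu ta tb tc)
    (L : LawC oa ob oc va vb vc ya yb yc mu xa xb xc) :
    SF ob oc oa vb vc va yb yc ya mu xb xc xa nu tb tc ta := by
  have F := cfacts G X L
  obtain ⟨mm1, mm2, mm3, mm4⟩ := lawC_masses G X L
  obtain ⟨yc0, hvc, mu0, z0, a0, b0, A1, A2, A3, A4, B1, B2, dab, dbc, dca, tca, tbc, yac, ybc,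
    hxc, xb1, xb2, xa1, xa2, xab, va1, vb1, vz1, oc1, oa1, ob1, xbm, xam⟩ := F
  clear xbm xam
  have n1 := N.tao
  have n2 := N.tbo
  have n3 := N.tco
  have n4 := N.ta0
  have n5 := N.tb0
  have n6 := N.tc0
  have n7 := N.nu0
  have m1 := M.xa0
  have m2 := M.xb0
  have m3 := M.xc0
  have mbX : (vb - xb) + (ob - tb)/32 ≥ vb/2 := by linarith only [mm2, n2]
  have H1 : 0 ≤ harm ((vc - xc) + (oc - tc)/32) (xb + tb/32) :=
    harm_nonneg (by linarith only [yc0, hxc, xab, n3]) (by linarith only [tca, xb1, n5])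
  refine ⟨?_, ?_, ?_, ?_, ?_⟩
  · left
    have h1 : 0 ≤ harm (mu + nu/32) (xa + ta/32) := harm_nonneg (by linarith only [mu0, n7]) (by linarith only [tbc, xa1, n4])
    have h2 := min_le_right ya (va + oa/32)
    linarith only [h2, h1, n1, xa2, tbc, tca, dbc, B1, A2, a0]
  · left
    have h1 : (oa + oc - va - vc)/4/2 ≤ harm ((vb - xb) + (ob - tb)/32) (xc + tc/32) :=
      harm_lo (by linarith only [dca]) (by linarith only [mm2, b0, A4, B2, tca, n2]) (by linarith only [n6, xa1, xb1, hxc, tbc, tca, dab, A3, A1, hvc])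
    have h2 := min_le_left ((oc + oa - vc - va) - 4 * ((ob + oc - vb - vc) + (ob + oa - vb - va)))
      ya
    linarith only [dab, dbc, dca, H1, h1, h2]
  · left
    have h2 := min_le_left ((ob + oa - vb - va) - 4 * ((oc + ob - vc - vb) + (oc + oa - vc - va)))
      ya
    rcases le_or_gt ((ob + oa - vb - va) - 4 * ((oc + ob - vc - vb) + (oc + oa - vc - va))) 0
      with hg | hg
    · have h3 : 0 ≤ harm ((vb - xb) + (ob - tb)/32) (xc + tc/32) :=
        harm_nonneg (by linarith only [b0, A4, B2, tca, tbc, xb2, n2, hg]) (by linarith only [hvc, tca, tbc, hxc, xb1, xa1, n6])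
      linarith only [H1, h2, hg, h3]
    · have h1 : ((ob + oa - vb - va) - 4 * ((oc + ob - vc - vb) + (oc + oa - vc - va)))/2/2
          ≤ harm ((vb - xb) + (ob - tb)/32) (xc + tc/32) :=
        harm_lo (by linarith only [hg]) (by linarith only [A4, B2, dbc, dca, tca, xb2, n2, hg]) (by linarith only [z0, A1, A3, dbc, dca, hxc, xb1, xa1, n6])
      linarith only [H1, h2, hg, h1]
  · intro Y hY hYb hYc hYa h1 h2
    exfalso
    have hE := G.E
    have res := p4I_reserve (oa := oa) (ob := ob) (oc := oc) (D := oa + ob - va - vb)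
      (Dac := oa + oc - va - vc) (Dbc := ob + oc - vb - vc)
      (e := (1/10^8) * Y)
      (by linarith only [hvc, a0, A2, A3, dab, tbc, hxc, xb1, xa1, n6, hYa, h2]) (by linarith only [mm2, hvc, A1, dab, tca, tbc, hxc, xb1, xa1, n6, hYb, h2]) (by linarith only [hvc, z0, tca, tbc, hxc, xb1, xa1, n6, hYc, h2]) (by linarith only [dab]) (by linarith only [hvc, A1, A3, dab, tca, tbc, hxc, xb1, xa1, n6, h2]) (by linarith only [hvc, A1, A3, dab, tca, tbc, hxc, xb1, xa1, n6, h2])
      (by linarith only [hvc, tca, tbc, hxc, xb1, xa1, n6, h2]) (by linarith only [hvc, z0, tca, tbc, hxc, xb1, xa1, n6, hYc, h2]) (by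
        have e1 : oa + ob - va - vb + (oa + oc - va - vc) = 2*oa + ob + oc - 2*va - vb - vc := by
          ring
        have e2 : ob + oc - vb - vc + (oa + ob - va - vb) = 2*ob + oc + oa - 2*vb - vc - va := by
          ring
        have e3 : oa + oc - va - vc + (ob + oc - vb - vc) = 2*oc + oa + ob - 2*vc - va - vb := by
          ring
        rw [e1, e2, e3]
        exact hE)
    have hmin : Y/2 ≤ min oa ob := le_min (by linarith only [hvc, A2, A3, dab, tca, tbc, hxc, xb1, xa1, n6, hYa, h2]) (by linarith only [hvc, A1, A3, dab, tca, tbc, hxc, xb1, xa1, n6, hYb, h2])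
    clear hE
    linarith only [hvc, z0, A1, A3, tca, tbc, hxc, xb1, xa1, n6, h2, res, hmin]
  · intro Y hY hYb hYc hYa h1 h2
    exfalso
    linarith only [b0, A4, B2, dca, tca, hxc, xb2, xa2, n2, n3, hYc, h1, h2]

theorem sfC_b {oa ob oc va vb vc ya yb yc mu xa xb xc nu ta tb tc : ℝ}
    (G : Good oa ob oc va vb vc) (X : Ext oa ob oc ya yb yc)
    (M : MassF va vb vc ya yb yc mu xa xb xc) (N : MassD oa ob oc ya yb yc nu ta tb tc)
    (L : LawC oa ob oc va vb vc ya yb yc mu xa xb xc) :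
    SF oc oa ob vc va vb yc ya yb mu xc xa xb nu tc ta tb :=
  SF_swap (sfC_a G.swap X.swap M.swap N.swap (lawC_swap3 L))

end Vale.Agent.P235.Tri
end
end
end

section

section

section

namespace Vale.Agent.P235.Tri

/-- condition under which the generic law is fine for the face `(z,a,b)` -/
def NCond (oa ob oc va vb vc ya yb yc : ℝ) : Prop :=
  vc ≤ yc ∨ (ya + yb - oa - ob)/2 ≤ 0 ∨ (oa + ob + ya - yb)/2 ≤ 0 ∨
      (oa + ob + yb - ya)/2 ≤ 0 ∨
      (1/128) * (((ya + yb - oa - ob)/2) * ((oa + ob + ya - yb)/2) * ((oa + ob + yb - ya)/2)) ≤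
        (ya + yc - va - vc) * ((oa + ob + ya - yb)/2 + (ya + yb - oa - ob)/2)
            * ((oa + ob + yb - ya)/2)
          + (yb + yc - vb - vc) * ((oa + ob + yb - ya)/2 + (ya + yb - oa - ob)/2)
            * ((oa + ob + ya - yb)/2) ∨
      (1/1024) * (((ya + yb - oa - ob)/2) * ((oa + ob + ya - yb)/2) * ((oa + ob + yb - ya)/2)) ≤
        (oa + ob - va - vb) * (((ya + yb - oa - ob)/2) *
          ((oa + ob + ya - yb)/2 + (oa + ob + yb - ya)/2))

/-- if the generic law is not fine for `(z,a,b)`, the exceptional law exists. -/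
theorem lawC_of_not {oa ob oc va vb vc ya yb yc : ℝ}
    (G : Good oa ob oc va vb vc) (X : Ext oa ob oc ya yb yc)
    (h : ¬ NCond oa ob oc va vb vc ya yb yc) :
    ∃ mu xa xb xc : ℝ, LawC oa ob oc va vb vc ya yb yc mu xa xb xc := by
  unfold NCond at h
  push Not at h
  obtain ⟨h1, h2, h3, h4, h5, h6⟩ := h
  refine ⟨0, _, _, _, ⟨h1, h2, h3, h4, ?_, ?_, ?_, ?_, ?_, ?_, rfl, rfl, rfl, rfl⟩⟩
  all_goals obtain ⟨z, hz⟩ : ∃ z, z = (ya + yb - oa - ob)/2 := ⟨_, rfl⟩
  all_goals obtain ⟨p, hp⟩ : ∃ p, p = (oa + ob + ya - yb)/2 := ⟨_, rfl⟩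
  all_goals obtain ⟨q, hq⟩ : ∃ q, q = (oa + ob + yb - ya)/2 := ⟨_, rfl⟩
  all_goals obtain ⟨A, hA⟩ : ∃ A, A = ya + yc - va - vc := ⟨_, rfl⟩
  all_goals obtain ⟨B, hB⟩ : ∃ B, B = yb + yc - vb - vc := ⟨_, rfl⟩
  all_goals obtain ⟨D, hD⟩ : ∃ D, D = oa + ob - va - vb := ⟨_, rfl⟩
  all_goals rw [← hz, ← hp, ← hq, ← hA, ← hB] at h5
  all_goals rw [← hz, ← hp, ← hq, ← hD] at h6
  all_goals rw [← hz] at h2
  all_goals rw [← hp] at h3
  all_goals rw [← hq] at h4
  all_goals have hA0 : 0 ≤ A := by rw [hA]; linarith only [G.dca, X.tca]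
  all_goals have hB0 : 0 ≤ B := by rw [hB]; linarith only [G.dbc, X.tbc]
  all_goals have hD0 : 0 ≤ D := by rw [hD]; linarith only [G.dab]
  · rw [← hA, ← hz]
    by_contra hc
    push Not at hc
    have k1 : (1/128) * z * (p * q) ≤ A * (p * q) :=
      mul_le_mul_of_nonneg_right hc.le (mul_nonneg h3.le h4.le)
    have k2 : 0 ≤ A * (z * q) := by (clear * - hA0 h2 h4; positivity)
    have k3 : 0 ≤ B * (q + z) * p := by (clear * - hB0 h4 h2 h3; positivity)
    linarith only [h5, k1, k2, k3]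
  · rw [← hA, ← hp]
    by_contra hc
    push Not at hc
    have k1 : (1/128) * p * (z * q) ≤ A * (z * q) :=
      mul_le_mul_of_nonneg_right hc.le (mul_nonneg h2.le h4.le)
    have k2 : 0 ≤ A * (p * q) := by (clear * - hA0 h3 h4; positivity)
    have k3 : 0 ≤ B * (q + z) * p := by (clear * - hB0 h4 h2 h3; positivity)
    linarith only [h5, k1, k2, k3]
  · rw [← hB, ← hz]
    by_contra hc
    push Not at hc
    have k1 : (1/128) * z * (p * q) ≤ B * (p * q) :=
      mul_le_mul_of_nonneg_right hc.le (mul_nonneg h3.le h4.le)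
    have k2 : 0 ≤ B * (z * p) := by (clear * - hB0 h2 h3; positivity)
    have k3 : 0 ≤ A * (p + z) * q := by (clear * - hA0 h3 h2 h4; positivity)
    linarith only [h5, k1, k2, k3]
  · rw [← hB, ← hq]
    by_contra hc
    push Not at hc
    have k1 : (1/128) * q * (z * p) ≤ B * (z * p) :=
      mul_le_mul_of_nonneg_right hc.le (mul_nonneg h2.le h3.le)
    have k2 : 0 ≤ B * (q * p) := by (clear * - hB0 h4 h3; positivity)
    have k3 : 0 ≤ A * (p + z) * q := by (clear * - hA0 h3 h2 h4; positivity)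
    linarith only [h5, k1, k2, k3]
  · rw [← hD, ← hp]
    by_contra hc
    push Not at hc
    have k1 : (1/1024) * p * (z * q) ≤ D * (z * q) :=
      mul_le_mul_of_nonneg_right hc.le (mul_nonneg h2.le h4.le)
    have k2 : 0 ≤ D * (z * p) := by (clear * - hD0 h2 h3; positivity)
    linarith only [h6, k1, k2]
  · rw [← hD, ← hq]
    by_contra hc
    push Not at hc
    have k1 : (1/1024) * q * (z * p) ≤ D * (z * p) :=
      mul_le_mul_of_nonneg_right hc.le (mul_nonneg h2.le h3.le)
    have k2 : 0 ≤ D * (z * q) := by (clear * - hD0 h2 h4; positivity)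
    linarith only [h6, k1, k2]

/-- SF for the generic law -/
theorem sf_N {oa ob oc va vb vc ya yb yc mu xa xb xc nu ta tb tc : ℝ}
    (G : Good oa ob oc va vb vc) (X : Ext oa ob oc ya yb yc)
    (M : MassF va vb vc ya yb yc mu xa xb xc) (N : MassD oa ob oc ya yb yc nu ta tb tc)
    (L : LawN va vb vc ya yb yc mu xa xb xc) :
    SF oa ob oc va vb vc ya yb yc mu xa xb xc nu ta tb tc :=
  ⟨p1_N G X M N L, p2_N G X M N L, p2_N G.swap X.swap M.swap N.swap L.swap, p4I_N G X M N L,
    p4II_N M N L⟩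

/-- the three steps (without choosing the masses) -/
def Steps (oa ob oc va vb vc ya yb yc mu xa xb xc nu ta tb tc : ℝ) : Prop :=
  StepC (10^5) (10^100) (10^18) oa ob oc va vb vc ya yb yc mu xa xb xc nu ta tb tc ∧
  StepC (10^5) (10^100) (10^18) ob oc oa vb vc va yb yc ya mu xb xc xa nu tb tc ta ∧
  StepC (10^5) (10^100) (10^18) oc oa ob vc va vb yc ya yb mu xc xa xb nu tc ta tb

def Fin3 (oa ob oc va vb vc ya yb yc : ℝ) : Prop :=
  ∃ mu xa xb xc nu ta tb tc : ℝ, MassF va vb vc ya yb yc mu xa xb xc ∧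
    MassD oa ob oc ya yb yc nu ta tb tc ∧
    Steps oa ob oc va vb vc ya yb yc mu xa xb xc nu ta tb tc

theorem Fin3.rot {oa ob oc va vb vc ya yb yc : ℝ}
    (h : Fin3 ob oc oa vb vc va yb yc ya) : Fin3 oa ob oc va vb vc ya yb yc := by
  obtain ⟨mu, xb, xc, xa, nu, tb, tc, ta, M, N, s1, s2, s3⟩ := h
  exact ⟨mu, xa, xb, xc, nu, ta, tb, tc, M.rot.rot, N.rot.rot, s3, s1, s2⟩

theorem fin3_N {oa ob oc va vb vc ya yb yc : ℝ}
    (G : Good oa ob oc va vb vc) (X : Ext oa ob oc ya yb yc)
    (h1 : NCond oa ob oc va vb vc ya yb yc) (h2 : NCond ob oc oa vb vc va yb yc ya)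
    (h3 : NCond oc oa ob vc va vb yc ya yb) : Fin3 oa ob oc va vb vc ya yb yc := by
  obtain ⟨nu, ta, tb, tc, N⟩ := massD_exists G X
  obtain ⟨mu, xa, xb, xc, M, L⟩ := lawN_exists G X
  refine ⟨mu, xa, xb, xc, nu, ta, tb, tc, M, N, ?_, ?_, ?_⟩
  · exact stepC_of_SF G X (mass_of M N) (sf_N G X M N L) (faceN G X M L h1)
  · exact stepC_of_SF G.rot X.rot (mass_of M.rot N.rot) (sf_N G.rot X.rot M.rot N.rot L.rot)
      (faceN G.rot X.rot M.rot L.rot h2)
  · exact stepC_of_SF G.rot.rot X.rot.rot (mass_of M.rot.rot N.rot.rot)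
      (sf_N G.rot.rot X.rot.rot M.rot.rot N.rot.rot L.rot.rot)
      (faceN G.rot.rot X.rot.rot M.rot.rot L.rot.rot h3)

theorem fin3_C {oa ob oc va vb vc ya yb yc : ℝ}
    (G : Good oa ob oc va vb vc) (X : Ext oa ob oc ya yb yc)
    (h : ¬ NCond oa ob oc va vb vc ya yb yc) : Fin3 oa ob oc va vb vc ya yb yc := by
  obtain ⟨nu, ta, tb, tc, N⟩ := massD_exists G X
  obtain ⟨mu, xa, xb, xc, L⟩ := lawC_of_not G X h
  have F := cfacts G X L
  have M := massF_C F
  refine ⟨mu, xa, xb, xc, nu, ta, tb, tc, M, N, ?_, ?_, ?_⟩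
  · exact stepC_of_SF G X (mass_of M N) (sfC_c G X M N L) (faceC_c G F)
  · exact stepC_of_SF G.rot X.rot (mass_of M.rot N.rot) (sfC_a G X M N L) (faceC_a X F)
  · exact stepC_of_SF G.rot.rot X.rot.rot (mass_of M.rot.rot N.rot.rot)
      (sfC_b G X M N L) (faceC_b X F)

/-- The one-step theorem. -/
theorem oneStep : OneStep (10^5) (10^100) (10^18) := by
  intro oa ob oc va vb vc ya yb yc G X
  have key : Fin3 oa ob oc va vb vc ya yb yc := by
    by_cases h1 : NCond oa ob oc va vb vc ya yb yc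
    · by_cases h2 : NCond ob oc oa vb vc va yb yc ya
      · by_cases h3 : NCond oc oa ob vc va vb yc ya yb
        · exact fin3_N G X h1 h2 h3
        · exact (fin3_C G.rot.rot X.rot.rot h3).rot.rot
      · exact (fin3_C G.rot X.rot h2).rot
    · exact fin3_C G X h1
  obtain ⟨mu, xa, xb, xc, nu, ta, tb, tc, M, N, s1, s2, s3⟩ := key
  exact ⟨mu, xa, xb, xc, nu, ta, tb, tc, mass_of M N, s1, s2, s3⟩

end Vale.Agent.P235.Tri
end
end
end

section

section

section

namespace Vale.Agent.P235T3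

/-- bounded distortion for treewidth at most `3` -/
theorem treewidth_three : ∃ C : ℝ, ∀ (V : Type) [Finite V] (G : SimpleGraph V), G.Connected →
    TreewidthLE G 3 → DistortionLE G C :=
  treewidth3_of_oneStep (by norm_num) (by norm_num) (by norm_num) Vale.Agent.P235.Tri.oneStep

end Vale.Agent.P235T3
end
end
end
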